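import Vale.Agent.P011ND.E6m
import Vale.Agent.P011NE.Brg
import Vale.Agent.P011NM.D4Fin
import Vale.Agent.P011NC.Main

/-!
The exceptional groups: every normal subgroup is central or everything.
-/

namespace Vale.Agent.P011ND

open Vale.Agent.P011 Vale.Agent.P011.H900 Vale.Agent.P011.NM

theorem meet_E : NE.MeetE := fun hS hC hg hA N _ h =>
  meetE hS hg hC (E6O.Ani.aniE hS hg hA) N h

theorem hypE : NE.HypE :=
  ⟨hyp, fun _ _ _ _ _ _ _ _ _ _ _ _ _ _ _ _ _ f _ h N _ hc => P011NC.finIndex h f N hc⟩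

variable {F : Type} [Field F] [NumberField F] {r s i : F → F} {a b c d q e t : F} {g : Fin 3 → F}

/-- **Trialitarian groups over cyclic cubic extensions.** -/
theorem d3m (hD : Dat [r, s] r s a b c d q) :
    OnlyC (grp fun f : Oc a b → Oc a b => Tri c r f ∧ Twi c r s d q f) := NM.d3m hyp hD

/-- **Trialitarian groups over noncyclic cubic extensions.** -/
theorem d4m (hD : Dat [r, s, i] r s a b c d q) (hi : Aut 2 i)
    (hsi : ∀ x, s (i x) = i (s x)) (hri : ∀ x, r (i (r x)) = i x) (hid : i d = d)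
    (hiq : r (i q) = q) :
    OnlyC (grp fun f : Oc a b → Oc a b => Tri c r f ∧ Twi c r s d q f ∧ Swp i f) :=
  NM.d4m hyp hD hi hsi hri hid hiq

/-- **Outer groups of type `E₆` with nontrivial Tits class.** -/
theorem e3m (hr : Aut 3 r) (hs : Aut 2 s) (hc : ∀ x, r (s x) = s (r x))
    (hd : Dvn [r, s] [r, s] a b c) (he : Nnm r e) (hw : Wei r s e t g)
    (ha : Dvn [] [] a b c ∨ ∀ x : Al a b, her c s g x x = 0 → x = 0) :
    OnlyC (grp fun f : Al a b → Al a b => Cub c f ∧ Her c s g f ∧ Ph r e f) :=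
  NE.e3m_of hypE meet_E hr hs hc hd he hw ha

end Vale.Agent.P011ND
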