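import Vale.Agent.P011ND.Main

/-!
The normal subgroup theorem for anisotropic stabilisers of tensors, without coordinates.
-/

open Matrix

namespace Vale.Agent.P011ND

/-- Every finite set lies in the ring of integers of a finite family of places. -/
def HasPls (F : Type) [Field F] : Prop :=
  ∀ s : Set F, s.Finite → ∃ (ι : Type) (_ : Fintype ι) (K : ι → Type)
    (_ : ∀ i, NontriviallyNormedField (K i)) (_ : ∀ i, ProperSpace (K i))
    (_ : ∀ i, Algebra F (K i)) (O : Subring F), Pls K O ∧ s ⊆ O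

/-- Tensors on a vector space. -/
structure Dv (F V α : Type) [Field F] [AddCommGroup V] [Module F V] where
  /-- linear maps -/
  A : α → Module.End F V
  /-- the bilinear form -/
  B : V →ₗ[F] V →ₗ[F] F
  /-- the product -/
  μ : V →ₗ[F] V →ₗ[F] V

variable {F V α : Type} [Field F] [AddCommGroup V] [Module F V] {Γ : Type} [Group Γ]

namespace Dv

/-- The map preserves the tensors. -/
def Stab (D : Dv F V α) (g : Module.End F V) : Prop :=
  (∀ a x, g (D.A a x) = D.A a (g x)) ∧ (∀ x y, D.B (g x) (g y) = D.B x y) ∧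
    ∀ x y, g (D.μ x y) = D.μ (g x) (g y)

/-- The map preserves the tensors infinitesimally. -/
def Lie (D : Dv F V α) (X : Module.End F V) : Prop :=
  (∀ a x, X (D.A a x) = D.A a (X x)) ∧ (∀ x y, D.B (X x) y + D.B x (X y) = 0) ∧
    ∀ x y, X (D.μ x y) = D.μ (X x) y + D.μ x (X y)

/-- The value of a term. -/
def tm (D : Dv F V α) : Tm α → V → V
  | .var, x => x
  | .app a t, x => D.A a (D.tm t x)
  | .mul s t, x => D.μ (D.tm s x) (D.tm t x)

/-- Finitely many invariant polynomials have no common zero. -/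
def Ani (D : Dv F V α) : Prop :=
  ∃ T : Set (Tm α × Tm α), T.Finite ∧ ∀ v : V, v ≠ 0 → ∃ j ∈ T, D.B (D.tm j.1 v) (D.tm j.2 v) ≠ 0

end Dv

/-- The direction of a rational curve in the group. -/
def CvV (r : Γ →* Module.End F V) (Y : Module.End F V) : Prop :=
  ∃ Z : Module.End F V, ∀ t : F, IsUnit (1 - t • Y + (t * t) • Z) →
    ∃ γ, r γ * (1 - t • Y + (t * t) • Z) = 1 + t • Y + (t * t) • Z

/-- Irreducibility of the Lie algebra. -/
def IrrV (D : Dv F V α) (r : Γ →* Module.End F V) : Prop :=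
  ∀ W : Submodule F (Module.End F V), (∀ γ, ∀ X ∈ W, r γ * X * r γ⁻¹ ∈ W) →
    (∀ Y, CvV r Y → ∀ X ∈ W, Y * X - X * Y ∈ W) → (∃ X ∈ W, D.Lie X ∧ X ≠ 0) →
      ∀ X, D.Lie X → X ∈ W

/-- The hypotheses on the group. -/
structure MdV (D : Dv F V α) (r : Γ →* Module.End F V) (Y : Module.End F V) (x : F → Γ)
    (τ x0 : Γ) : Prop where
  two : (2 : F) ≠ 0
  inj : Function.Injective r
  stab : ∀ γ, D.Stab (r γ)
  surj : ∀ g : Module.End F V, Function.Bijective g → D.Stab g → ∃ γ, r γ = g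
  ani : D.Ani
  nd : ∀ y, (∀ x, D.B x y = 0) → y = 0
  irr : IrrV D r
  lie : D.Lie Y
  ne : Y ≠ 0
  cay : ∀ q, r (x q) * (1 - q • Y) = 1 + q • Y
  sq : τ * τ = 1
  neg : r τ * Y = -(Y * r τ)
  inv : τ * x0 * τ⁻¹ = x0⁻¹
  big : ∀ P : Subgroup Γ, P.Normal → (∀ (Z : Module.End F V) (y : F → Γ),
    (∀ q, r (y q) * (1 - q • Z) = 1 + q • Z) → ∃ q ≠ 0, y q ∈ P) → τ ∈ P ∧ x0 ∈ P

section coord

variable {n : Type} [Fintype n] [DecidableEq n] (b : Module.Basis n F V) (D : Dv F V α)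

/-- The tensors in coordinates. -/
noncomputable def Dv.mat : Dt n α F :=
  ⟨fun a => LinearMap.toMatrixAlgEquiv b (D.A a), Matrix.of fun i j => D.B (b i) (b j),
    fun k => Matrix.of fun i j => b.repr (D.μ (b i) (b j)) k⟩

theorem mv (g : Module.End F V) (x : V) :
    LinearMap.toMatrixAlgEquiv b g *ᵥ b.equivFun x = b.equivFun (g x) :=
  LinearMap.toMatrix_mulVec_repr b b g x

omit [DecidableEq n] in
theorem bf_of (B : V →ₗ[F] V →ₗ[F] F) (x y : V) :
    bf (Matrix.of fun i j => B (b i) (b j)) (b.equivFun x) (b.equivFun y) = B x y := by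
  conv_rhs => rw [← b.sum_repr x, ← b.sum_repr y]
  simp only [bf, dotProduct, mulVec, of_apply, map_sum, map_smul, LinearMap.sum_apply,
    LinearMap.smul_apply, smul_eq_mul, Module.Basis.equivFun_apply, Finset.mul_sum]
  rw [Finset.sum_comm]
  exact Finset.sum_congr rfl fun _ _ => Finset.sum_congr rfl fun _ _ => by ring

theorem mat_B (x y : V) : bf (D.mat b).B (b.equivFun x) (b.equivFun y) = D.B x y := bf_of b _ x y

theorem mat_mu (x y : V) :
    (D.mat b).mu (b.equivFun x) (b.equivFun y) = b.equivFun (D.μ x y) :=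
  funext fun k => bf_of b (D.μ.compr₂ (b.coord k)) x y

theorem comm_iff (g : Module.End F V) (a : α) :
    LinearMap.toMatrixAlgEquiv b g * (D.mat b).A a =
      (D.mat b).A a * LinearMap.toMatrixAlgEquiv b g ↔ ∀ x, g (D.A a x) = D.A a (g x) := by
  rw [Dv.mat, ← map_mul, ← map_mul, (LinearMap.toMatrixAlgEquiv b).injective.eq_iff,
    LinearMap.ext_iff]
  rfl

theorem mat_stab (g : Module.End F V) :
    (D.mat b).Stab (LinearMap.toMatrixAlgEquiv b g) ↔ D.Stab g := by
  rw [Dt.stab_iff, b.equivFun.surjective.forall₂, b.equivFun.surjective.forall₂]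
  simp only [comm_iff, mv, mat_B, mat_mu, b.equivFun.injective.eq_iff]
  rfl

theorem mat_lie (g : Module.End F V) :
    (D.mat b).Lie (LinearMap.toMatrixAlgEquiv b g) ↔ D.Lie g := by
  rw [Dt.lie_iff, b.equivFun.surjective.forall₂, b.equivFun.surjective.forall₂]
  simp only [comm_iff, mv, mat_B, mat_mu, ← map_add, b.equivFun.injective.eq_iff]
  rfl

theorem mat_tm (t : Tm α) (v : V) : (D.mat b).tm t (b.equivFun v) = b.equivFun (D.tm t v) := by
  induction t with
  | var => rfl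
  | app a t ih =>
    rw [Dt.tm, ih]
    exact mv b _ _
  | mul s t h1 h2 => rw [Dt.tm, h1, h2, mat_mu, Dv.tm]

variable {D}

theorem MdV.mdl {r : Γ →* Module.End F V} {Y : Module.End F V} {x : F → Γ} {τ x0 : Γ}
    (h : MdV D r Y x τ x0) : Mdl (D.mat b)
      ((LinearMap.toMatrixAlgEquiv b : Module.End F V →* Matrix n n F).comp r)
      (LinearMap.toMatrixAlgEquiv b Y) x τ x0 := by
  set e := LinearMap.toMatrixAlgEquiv b with he
  have hr : ∀ γ, ((e : Module.End F V →* Matrix n n F).comp r) γ = e (r γ) := fun _ => rfl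
  have hdet : (D.mat b).B.det ≠ 0 := by
    intro h0
    obtain ⟨v, hv, h1⟩ := Matrix.exists_mulVec_eq_zero_iff.2 h0
    obtain ⟨v, rfl⟩ := b.equivFun.surjective v
    refine hv ?_
    rw [h.nd v fun x => by rw [← mat_B b, bf, h1, dotProduct_zero], map_zero]
  have c1 : ∀ (γ : Γ) (q : F) (Z : Module.End F V), e (r γ) * (1 - q • e Z) = 1 + q • e Z ↔
      r γ * (1 - q • Z) = 1 + q • Z := fun γ q Z => by
    rw [← e.injective.eq_iff (a := r γ * _), map_mul, map_sub, map_add, map_one, map_smul]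
  refine ⟨h.two, e.injective.comp h.inj, fun γ => (mat_stab b D _).2 (h.stab γ), fun g hg => ?_,
    ?_, hdet, fun W h1 h2 h3 X hX => ?_, (mat_lie b D _).2 h.lie,
    fun h0 => h.ne (e.injective (h0.trans (map_zero e).symm)), fun q => (c1 _ _ _).2 (h.cay q),
    h.sq, by rw [hr, ← map_mul, ← map_mul, h.neg, map_neg], h.inv, fun P hP h1 =>
      h.big P hP fun Z y hy => h1 (e Z) y fun q => (c1 _ _ _).2 (hy q)⟩
  · obtain ⟨g, rfl⟩ := e.surjective g
    have hu : IsUnit g := by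
      have := (IsUnit.of_mul_eq_one _ (hg.inv_eq (Ne.isUnit hdet))).map e.symm
      rwa [e.symm_apply_apply] at this
    obtain ⟨γ, hγ⟩ := h.surj g ((Module.End.isUnit_iff g).1 hu) ((mat_stab b D _).1 hg)
    exact ⟨γ, by rw [hr, hγ]⟩
  · obtain ⟨T, hT, h1⟩ := h.ani
    refine ⟨T, hT, fun v hv => ?_⟩
    obtain ⟨v, rfl⟩ := b.equivFun.surjective v
    obtain ⟨j, hj, h2⟩ := h1 v fun h0 => hv (by rw [h0, map_zero])
    exact ⟨j, hj, by rwa [Dt.iv, mat_tm, mat_tm, mat_B]⟩
  · obtain ⟨X, rfl⟩ := e.surjective X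
    refine h.irr (W.comap e.toLinearMap) (fun γ X hX => ?_) ?_ ?_ X ((mat_lie b D _).1 hX)
    · have := h1 γ (e X) hX
      rwa [hr, hr, ← map_mul, ← map_mul] at this
    · rintro Y ⟨Z, hZ⟩ X hX
      have := h2 (e Y) ⟨e Z, fun t ht => ?_⟩ (e X) hX
      · rwa [← map_mul, ← map_mul, ← map_sub] at this
      · have e1 : 1 - t • e Y + (t * t) • e Z = e (1 - t • Y + (t * t) • Z) := by
          rw [map_add, map_sub, map_one, map_smul, map_smul]
        rw [e1] at ht
        obtain ⟨γ, hγ⟩ := hZ t (by simpa using ht.map e.symm)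
        exact ⟨γ, by rw [hr, e1, ← map_mul, hγ, map_add, map_add, map_one, map_smul, map_smul]⟩
    · obtain ⟨X, h4, h5, h6⟩ := h3
      obtain ⟨X, rfl⟩ := e.surjective X
      exact ⟨X, h4, (mat_lie b D _).1 h5, fun h0 => h6 (by rw [h0, map_zero])⟩

end coord

/-- **The normal subgroup theorem.** -/
theorem MdV.main [FiniteDimensional F V] [Finite α] (hF : HasPls F) {D : Dv F V α}
    {r : Γ →* Module.End F V} {Y : Module.End F V} {x : F → Γ} {τ x0 : Γ}
    (h : MdV D r Y x τ x0) (N : Subgroup Γ) [N.Normal] :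
    (∀ m ∈ N, ∀ X, D.Lie X → r m * X = X * r m) ∨ ∃ e : ℕ, e ≠ 0 ∧ x0 ^ e ∈ N := by
  classical
  have := Fintype.ofFinite α
  let b := Module.finBasis F V
  have h1 := h.mdl b
  set e := LinearMap.toMatrixAlgEquiv b with he
  let f : (α ⊕ Fin (Module.finrank F V)) ⊕ Fin 3 → Matrix _ _ F :=
    Sum.elim (Sum.elim (D.mat b).A (D.mat b).M) ![(D.mat b).B, e (r x0), e (r x0⁻¹)]
  obtain ⟨ι, _, K, _, _, _, O, H, hO⟩ := hF _ (Set.finite_range
    fun p : _ × Fin (Module.finrank F V) × Fin (Module.finrank F V) => f p.1 p.2.1 p.2.2)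
  have hf : ∀ j, MI O (f j) := fun j a c => hO ⟨(j, a, c), rfl⟩
  refine (h1.main H ⟨fun a => hf (.inl (.inl a)), hf (.inr 0), fun k => hf (.inl (.inr k))⟩
    ⟨hf (.inr 1), hf (.inr 2)⟩ N).imp_left fun h2 m hm X hX => e.injective ?_
  rw [map_mul, map_mul]
  exact h2 m hm _ ((mat_lie b D _).2 hX)

end Vale.Agent.P011ND
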