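import Mathlib

/-!
Stabilisers of tensors: linear maps, a bilinear form and a bilinear product.
-/

open Matrix

namespace Vale.Agent.P011ND

/-- The tensors. -/
structure Dt (n ι R : Type*) where
  /-- linear maps -/
  A : ι → Matrix n n R
  /-- the bilinear form -/
  B : Matrix n n R
  /-- the structure constants of the product -/
  M : n → Matrix n n R

variable {n ι R S : Type*} [Fintype n] [DecidableEq n] [CommRing R] [CommRing S]

/-- The bilinear form of a matrix. -/
def bf (B : Matrix n n R) (x y : n → R) : R := x ⬝ᵥ B *ᵥ y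

omit [DecidableEq n] in
theorem bf_mulVec (B g h : Matrix n n R) (x y : n → R) :
    bf B (g *ᵥ x) (h *ᵥ y) = bf (gᵀ * B * h) x y := by
  simp only [bf]
  rw [← mulVec_mulVec, ← mulVec_mulVec, dotProduct_mulVec x gᵀ, vecMul_transpose]

theorem bf_single (B : Matrix n n R) (i j : n) :
    bf B (Pi.single i 1) (Pi.single j 1) = B i j := by
  simp [bf]

theorem bf_ext {B C : Matrix n n R} (h : ∀ x y, bf B x y = bf C x y) : B = C := by
  ext i j
  rw [← bf_single B, h, bf_single]

omit [DecidableEq n] in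
theorem bf_add (B C : Matrix n n R) (x y : n → R) : bf (B + C) x y = bf B x y + bf C x y := by
  simp [bf, add_mulVec]

omit [DecidableEq n] in
theorem bf_sum (c : n → R) (M : n → Matrix n n R) (x y : n → R) :
    bf (∑ l, c l • M l) x y = ∑ l, c l * bf (M l) x y := by
  simp [bf, sum_mulVec, smul_mulVec, dotProduct_sum]

omit [DecidableEq n] in
theorem bf_map (φ : R →+* S) (B : Matrix n n R) (x y : n → R) :
    bf (B.map φ) (φ ∘ x) (φ ∘ y) = φ (bf B x y) := by
  simp [bf, dotProduct, mulVec, map_sum]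

omit [DecidableEq n] in
theorem mulVec_map (φ : R →+* S) (B : Matrix n n R) (x : n → R) :
    (B.map φ) *ᵥ (φ ∘ x) = φ ∘ (B *ᵥ x) := by
  funext i
  simp [dotProduct, mulVec, map_sum]

namespace Dt

/-- Extension of scalars. -/
def map (D : Dt n ι R) (φ : R → S) : Dt n ι S :=
  ⟨fun a => (D.A a).map φ, D.B.map φ, fun k => (D.M k).map φ⟩

/-- The product. -/
def mu (D : Dt n ι R) (x y : n → R) : n → R := fun k => bf (D.M k) x y

/-- The matrix preserves the tensors. -/
def Stab (D : Dt n ι R) (g : Matrix n n R) : Prop :=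
  (∀ a, g * D.A a = D.A a * g) ∧ gᵀ * D.B * g = D.B ∧
    ∀ k, ∑ l, g k l • D.M l = gᵀ * D.M k * g

/-- The matrix preserves the tensors infinitesimally. -/
def Lie (D : Dt n ι R) (X : Matrix n n R) : Prop :=
  (∀ a, X * D.A a = D.A a * X) ∧ Xᵀ * D.B + D.B * X = 0 ∧
    ∀ k, ∑ l, X k l • D.M l = Xᵀ * D.M k + D.M k * X

variable {D : Dt n ι R}

omit [DecidableEq n] in
theorem mu_map (φ : R →+* S) (x y : n → R) :
    (D.map φ).mu (φ ∘ x) (φ ∘ y) = φ ∘ D.mu x y := by
  funext k
  exact bf_map φ _ x y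

omit [DecidableEq n] in
theorem mulVec_mu (g : Matrix n n R) (x y : n → R) (k : n) :
    (g *ᵥ D.mu x y) k = bf (∑ l, g k l • D.M l) x y := by
  rw [bf_sum]
  rfl

theorem stab_iff {g : Matrix n n R} : D.Stab g ↔ (∀ a, g * D.A a = D.A a * g) ∧
    (∀ x y, bf D.B (g *ᵥ x) (g *ᵥ y) = bf D.B x y) ∧
      ∀ x y, g *ᵥ D.mu x y = D.mu (g *ᵥ x) (g *ᵥ y) := by
  refine and_congr Iff.rfl (and_congr ⟨fun h x y => ?_, fun h => bf_ext fun x y => ?_⟩
    ⟨fun h x y => ?_, fun h k => bf_ext fun x y => ?_⟩)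
  · rw [bf_mulVec, h]
  · rw [← bf_mulVec, h]
  · funext k
    rw [mulVec_mu, h, ← bf_mulVec]
    rfl
  · rw [← mulVec_mu, h, ← bf_mulVec]
    rfl

theorem lie_iff {X : Matrix n n R} : D.Lie X ↔ (∀ a, X * D.A a = D.A a * X) ∧
    (∀ x y, bf D.B (X *ᵥ x) y + bf D.B x (X *ᵥ y) = 0) ∧
      ∀ x y, X *ᵥ D.mu x y = D.mu (X *ᵥ x) y + D.mu x (X *ᵥ y) := by
  have key : ∀ (B : Matrix n n R) x y, bf (Xᵀ * B + B * X) x y =
      bf B (X *ᵥ x) y + bf B x (X *ᵥ y) := by
    intro B x y
    have h1 := bf_mulVec B X 1 x y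
    have h2 := bf_mulVec B 1 X x y
    rw [one_mulVec, mul_one] at h1
    rw [one_mulVec, transpose_one, one_mul] at h2
    rw [bf_add, h1, h2]
  refine and_congr Iff.rfl (and_congr ⟨fun h x y => ?_, fun h => bf_ext fun x y => ?_⟩
    ⟨fun h x y => ?_, fun h k => bf_ext fun x y => ?_⟩)
  · rw [← key, h]
    simp [bf]
  · rw [key, h]
    simp [bf]
  · funext k
    rw [mulVec_mu, h, key]
    rfl
  · rw [← mulVec_mu, h, key]
    rfl

theorem Stab.one : D.Stab 1 := stab_iff.2 ⟨by simp, by simp, by simp⟩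

theorem Stab.mul {g h : Matrix n n R} (hg : D.Stab g) (hh : D.Stab h) : D.Stab (g * h) := by
  obtain ⟨g1, g2, g3⟩ := stab_iff.1 hg
  obtain ⟨h1, h2, h3⟩ := stab_iff.1 hh
  refine stab_iff.2 ⟨fun a => ?_, fun x y => ?_, fun x y => ?_⟩
  · rw [mul_assoc, h1, ← mul_assoc, g1, mul_assoc]
  · rw [← mulVec_mulVec, ← mulVec_mulVec, g2, h2]
  · rw [← mulVec_mulVec, ← mulVec_mulVec, ← mulVec_mulVec, h3, g3]

theorem Stab.inv {g h : Matrix n n R} (hg : D.Stab g) (e : g * h = 1) : D.Stab h := by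
  have e' : h * g = 1 := mul_eq_one_comm.1 e
  obtain ⟨g1, g2, g3⟩ := stab_iff.1 hg
  have k : ∀ x, g *ᵥ (h *ᵥ x) = x := fun x => by rw [mulVec_mulVec, e, one_mulVec]
  have k' : ∀ x, h *ᵥ (g *ᵥ x) = x := fun x => by rw [mulVec_mulVec, e', one_mulVec]
  refine stab_iff.2 ⟨fun a => ?_, fun x y => ?_, fun x y => ?_⟩
  · calc h * D.A a = h * D.A a * (g * h) := by rw [e, mul_one]
      _ = h * (g * D.A a) * h := by rw [g1]; simp only [mul_assoc]
      _ = _ := by rw [← mul_assoc, e', one_mul]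
  · rw [← g2, k, k]
  · conv_lhs => rw [← k x, ← k y, ← g3, k']

omit [DecidableEq n] in
theorem Stab.map {g : Matrix n n R} (hg : D.Stab g) (φ : R →+* S) :
    (D.map φ).Stab (g.map φ) := by
  obtain ⟨g1, g2, g3⟩ := hg
  refine ⟨fun a => ?_, ?_, fun k => ?_⟩
  · change g.map φ * (D.A a).map φ = (D.A a).map φ * g.map φ
    rw [← Matrix.map_mul, ← Matrix.map_mul, g1]
  · change (g.map φ)ᵀ * D.B.map φ * g.map φ = D.B.map φ
    rw [← transpose_map, ← Matrix.map_mul, ← Matrix.map_mul, g2]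
  · change ∑ l, (g.map φ) k l • (D.M l).map φ = (g.map φ)ᵀ * (D.M k).map φ * g.map φ
    rw [← transpose_map, ← Matrix.map_mul, ← Matrix.map_mul, ← g3]
    ext i j
    simp [Matrix.sum_apply, map_sum]

theorem Lie.conj {g h X : Matrix n n R} (hX : D.Lie X) (hg : D.Stab g) (e : g * h = 1) :
    D.Lie (g * X * h) := by
  have e' : h * g = 1 := mul_eq_one_comm.1 e
  obtain ⟨g1, g2, g3⟩ := stab_iff.1 hg
  obtain ⟨h1, h2, h3⟩ := stab_iff.1 (hg.inv e)
  obtain ⟨x1, x2, x3⟩ := lie_iff.1 hX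
  have k' : ∀ x, h *ᵥ (g *ᵥ x) = x := fun x => by rw [mulVec_mulVec, e', one_mulVec]
  have k : ∀ x, g *ᵥ (h *ᵥ x) = x := fun x => by rw [mulVec_mulVec, e, one_mulVec]
  refine lie_iff.2 ⟨fun a => ?_, fun x y => ?_, fun x y => ?_⟩
  · rw [mul_assoc, h1, ← mul_assoc, mul_assoc g, x1, ← mul_assoc, g1]
    simp only [mul_assoc]
  · simp only [← mulVec_mulVec]
    rw [← h2 (g *ᵥ _), ← h2 x, k', k', x2]
  · simp only [← mulVec_mulVec]
    rw [h3, x3, mulVec_add, g3, g3, k, k]

omit [DecidableEq n] in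
theorem Lie.sub {X Y : Matrix n n R} (hX : D.Lie X) (hY : D.Lie Y) : D.Lie (X - Y) := by
  obtain ⟨x1, x2, x3⟩ := hX
  obtain ⟨y1, y2, y3⟩ := hY
  refine ⟨fun a => ?_, ?_, fun k => ?_⟩
  · rw [sub_mul, mul_sub, x1, y1]
  · rw [transpose_sub, sub_mul, mul_sub, sub_add_sub_comm, x2, y2, sub_zero]
  · rw [transpose_sub, sub_mul, mul_sub, sub_add_sub_comm, ← x3, ← y3, ← Finset.sum_sub_distrib]
    exact Finset.sum_congr rfl fun l _ => by rw [Matrix.sub_apply, sub_smul]

theorem Stab.det {g : Matrix n n R} (hg : D.Stab g) (hB : IsUnit D.B.det) :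
    g.det * g.det = 1 := by
  have h := congrArg Matrix.det hg.2.1
  rw [det_mul, det_mul, det_transpose] at h
  refine hB.mul_right_cancel ?_
  rw [one_mul]
  linear_combination h

theorem Stab.inv_eq {g : Matrix n n R} (hg : D.Stab g) (hB : IsUnit D.B.det) :
    g * (D.B⁻¹ * gᵀ * D.B) = 1 := by
  rw [mul_eq_one_comm, mul_assoc, mul_assoc, ← mul_assoc gᵀ, hg.2.1, nonsing_inv_mul _ hB]

section field

variable {F K : Type*} [Field F] [Field K] [Algebra F K]

omit [DecidableEq n] in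
theorem Lie.coord {D : Dt n ι F} {X : Matrix n n K} (hX : (D.map (algebraMap F K)).Lie X)
    (f : K →ₗ[F] F) : D.Lie (X.map f) := by
  have l : ∀ C : Matrix n n F, (X * C.map (algebraMap F K)).map f = X.map f * C := by
    intro C
    ext i j
    simp only [map_apply, mul_apply, map_sum]
    exact Finset.sum_congr rfl fun l _ => by
      rw [mul_comm, ← Algebra.smul_def, map_smul, smul_eq_mul, mul_comm]
  have r : ∀ C : Matrix n n F, (C.map (algebraMap F K) * X).map f = C * X.map f := by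
    intro C
    ext i j
    simp only [map_apply, mul_apply, map_sum]
    exact Finset.sum_congr rfl fun l _ => by rw [← Algebra.smul_def, map_smul, smul_eq_mul]
  have l' : ∀ C : Matrix n n F, (Xᵀ * C.map (algebraMap F K)).map f = (X.map f)ᵀ * C := by
    intro C
    ext i j
    simp only [map_apply, mul_apply, map_sum, transpose_apply]
    exact Finset.sum_congr rfl fun l _ => by
      rw [mul_comm, ← Algebra.smul_def, map_smul, smul_eq_mul, mul_comm]
  obtain ⟨x1, x2, x3⟩ := hX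
  refine ⟨fun a => ?_, ?_, fun k => ?_⟩
  · rw [← l, ← r]
    exact congrArg (·.map f) (x1 a)
  · rw [← l', ← r, ← Matrix.map_add _ (map_add f)]
    exact (congrArg (·.map f) x2).trans (Matrix.map_zero _ (map_zero f))
  · rw [← l', ← r, ← Matrix.map_add _ (map_add f)]
    refine Eq.trans ?_ (congrArg (·.map f) (x3 k))
    ext i j
    simp only [Matrix.sum_apply, map_apply, Matrix.smul_apply, map_sum, Dt.map]
    exact Finset.sum_congr rfl fun l _ => by
      rw [smul_eq_mul, smul_eq_mul, mul_comm (X k l), ← Algebra.smul_def, map_smul, smul_eq_mul,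
        mul_comm]

omit [DecidableEq n] in
/-- The Lie algebra over an extension field is spanned by its rational elements. -/
theorem Lie.mem_of_rat {D : Dt n ι F} {X : Matrix n n K} (hX : (D.map (algebraMap F K)).Lie X)
    (U : Submodule K (Matrix n n K)) (h : ∀ Y, D.Lie Y → Y.map (algebraMap F K) ∈ U) :
    X ∈ U := by
  classical
  let b := Module.Basis.ofVectorSpace F K
  let T := Finset.univ.biUnion fun p : n × n => (b.repr (X p.1 p.2)).support
  have e : X = ∑ s ∈ T, b s • (X.map (b.coord s)).map (algebraMap F K) := by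
    ext i j
    simp only [Matrix.sum_apply, Matrix.smul_apply, map_apply, Module.Basis.coord_apply, smul_eq_mul]
    conv_lhs => rw [← b.linearCombination_repr (X i j)]
    rw [Finsupp.linearCombination_apply, Finsupp.sum_of_support_subset _ (s := T)]
    · exact Finset.sum_congr rfl fun s _ => by rw [Algebra.smul_def, mul_comm]
    · exact Finset.subset_biUnion_of_mem (fun p : n × n => (b.repr (X p.1 p.2)).support)
        (Finset.mem_univ (i, j))
    · intro s _
      rw [zero_smul]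
  rw [e]
  exact U.sum_mem fun s _ => U.smul_mem _ (h _ (hX.coord _))

end field

end Dt

end Vale.Agent.P011ND
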