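import Vale.Agent.P011.H544.Coco
import Vale.Agent.P011.H544.HaarDet
import Vale.Agent.P011ND.Ten

/-!
Bounded lattice vectors outside a hyperplane.
-/

open Matrix MeasureTheory Metric

namespace Vale.Agent.P011ND

open Vale.Agent.P011

variable {F ι : Type} [Field F] [Fintype ι] [DecidableEq ι] (K : ι → Type)
  [∀ i, NontriviallyNormedField (K i)] [∀ i, ProperSpace (K i)] [∀ i, Algebra F (K i)]

/-- A finite family of places and the corresponding ring of integers. -/
structure Pls (O : Subring F) : Prop where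
  ne : Nonempty ι
  cnt : Countable F
  disc : ∀ b : ℝ, {c | c ∈ O ∧ ‖algebraMap F (∀ i, K i) c‖ ≤ b}.Finite
  coc : ∃ b : ℝ, ∀ r : ∀ i, K i, ∃ c ∈ O, ‖r - algebraMap F (∀ i, K i) c‖ ≤ b
  dense : DenseRange (algebraMap F (∀ i, K i))
  frac : ∀ x : F, ∃ m ∈ O, m ≠ 0 ∧ m * x ∈ O

variable {K} {n : Type} [Fintype n] [DecidableEq n]

omit [∀ i, ProperSpace (K i)] in
theorem exists_box [MeasurableSpace (n → ∀ i, K i)] [BorelSpace (n → ∀ i, K i)]
    (μ : Measure (n → ∀ i, K i)) [μ.IsAddHaarMeasure] [μ.Regular] {ε : ℝ} (hε : 0 < ε) (a : n)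
    (i0 : ι) {m : ENNReal} (hm : m ≠ ⊤) : ∃ C : Set (n → ∀ i, K i), IsCompact C ∧ m < μ C ∧
      ∀ x ∈ C, ∀ b i, (b ≠ a ∨ i ≠ i0) → ‖x b i‖ < ε := by
  set P : Set (n → ∀ i, K i) := {x | ∀ b i, (b ≠ a ∨ i ≠ i0) → ‖x b i‖ < ε} with hP
  have hPo : IsOpen P := by
    simp only [hP, Set.ofPred_forall]
    exact isOpen_iInter_of_finite fun b => isOpen_iInter_of_finite fun i =>
      isOpen_iInter_of_finite fun _ => isOpen_lt (by fun_prop) continuous_const
  obtain ⟨c, hc⟩ := NormedField.exists_lt_norm (K i0) 2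
  let e : ℕ → n → ∀ i, K i := fun j => Pi.single a (Pi.single i0 (c ^ j))
  have he : ∀ j l, l < j → 1 ≤ dist (e j) (e l) := by
    intro j l h
    have h1 : dist (e j a i0) (e l a i0) ≤ dist (e j) (e l) :=
      (dist_le_pi_dist (e j a) (e l a) i0).trans (dist_le_pi_dist (e j) (e l) a)
    refine le_trans ?_ h1
    simp only [e, Pi.single_eq_same, dist_eq_norm]
    refine le_trans ?_ (norm_sub_norm_le _ _)
    rw [norm_pow, norm_pow]
    have h2 : ‖c‖ ^ (l + 1) ≤ ‖c‖ ^ j := pow_le_pow_right₀ (by linarith) h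
    have h3 : 1 ≤ ‖c‖ ^ l := one_le_pow₀ (by linarith)
    rw [pow_succ] at h2
    nlinarith
  set δ := min ε (1 / 2) with hδ
  have hδ0 : 0 < δ := lt_min hε (by norm_num)
  have hdis : Pairwise (Function.onFun Disjoint fun j => ball (e j) δ) := by
    intro j l hjl
    refine ball_disjoint_ball ?_
    have h1 : δ ≤ 1 / 2 := min_le_right _ _
    rcases lt_or_gt_of_ne hjl with h | h
    · rw [dist_comm]
      linarith [he l j h]
    · linarith [he j l h]
  have hsub : (⋃ j, ball (e j) δ) ⊆ P := by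
    intro x hx b i hbi
    obtain ⟨j, hj⟩ := Set.mem_iUnion.1 hx
    have h1 : dist (x b i) (e j b i) ≤ dist x (e j) :=
      (dist_le_pi_dist (x b) (e j b) i).trans (dist_le_pi_dist x (e j) b)
    have h2 : e j b i = 0 := by
      rcases eq_or_ne b a with rfl | h
      · simp only [e, Pi.single_eq_same]
        exact Pi.single_eq_of_ne (hbi.resolve_left fun h => h rfl) _
      · simp only [e, Pi.single_eq_of_ne h, Pi.zero_apply]
    rw [h2, dist_zero_right] at h1
    exact lt_of_lt_of_le (h1.trans_lt hj) (min_le_left _ _)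
  have htop : μ P = ⊤ := by
    refine top_unique (le_trans ?_ (measure_mono hsub))
    rw [measure_iUnion hdis fun j => measurableSet_ball]
    simp only [Measure.addHaar_ball_center]
    exact (ENNReal.tsum_const_eq_top_of_ne_zero (measure_ball_pos μ _ hδ0).ne').ge
  obtain ⟨C, h1, h2, h3⟩ := hPo.exists_lt_isCompact (μ := μ) (r := m) (by
    rw [htop]; exact hm.lt_top)
  exact ⟨C, h2, h3, fun x hx => h1 hx⟩

omit [DecidableEq ι] [∀ i, ProperSpace (K i)] in
theorem detOne : H544.DetOne (∀ i, K i) :=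
  H544.DetOne.pi fun i => H544.DetOne.field (by
    obtain ⟨c, hc⟩ := NormedField.exists_one_lt_norm (K i)
    refine ⟨c, ?_, ?_⟩ <;> rintro rfl
    · rw [norm_zero] at hc; linarith
    · rw [norm_one] at hc; linarith)

/-- If a lattice of the standard covolume has no short vectors, then there are bounded lattice
vectors outside every hyperplane. -/
theorem Pls.exists_vec {O : Subring F} (H : Pls K O) {ε : ℝ} (hε : 0 < ε) :
    ∃ T : ℝ, ∀ g : Matrix n n (∀ i, K i), g.det * g.det = 1 →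
      (∀ v : n → F, (∀ a, v a ∈ O) → v ≠ 0 → ε ≤ ‖g *ᵥ (algebraMap F (∀ i, K i) ∘ v)‖) →
      ∀ l : n → F, l ≠ 0 → ∃ v : n → F, (∀ a, v a ∈ O) ∧ l ⬝ᵥ v ≠ 0 ∧
        ‖g *ᵥ (algebraMap F (∀ i, K i) ∘ v)‖ ≤ T := by
  classical
  obtain ⟨i0⟩ := H.ne
  have := H.cnt
  let _ : MeasurableSpace (n → ∀ i, K i) := borel _
  have : BorelSpace (n → ∀ i, K i) := ⟨rfl⟩
  let μ : Measure (n → ∀ i, K i) := Measure.addHaar
  set φ := algebraMap F (∀ i, K i) with hφ
  let L : AddSubgroup (n → ∀ i, K i) :=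
    { carrier := {x | ∃ v : n → F, (∀ a, v a ∈ O) ∧ φ ∘ v = x}
      zero_mem' := ⟨0, fun _ => O.zero_mem, by funext a; simp⟩
      add_mem' := by
        rintro _ _ ⟨v, hv, rfl⟩ ⟨w, hw, rfl⟩
        exact ⟨v + w, fun a => O.add_mem (hv a) (hw a), by funext a; simp⟩
      neg_mem' := by
        rintro _ ⟨v, hv, rfl⟩
        exact ⟨-v, fun a => O.neg_mem (hv a), by funext a; simp⟩ }
  have hL : Countable L := by
    refine ((Set.countable_range fun v : n → F => φ ∘ v).mono ?_).to_subtype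
    rintro _ ⟨v, -, rfl⟩
    exact ⟨v, rfl⟩
  obtain ⟨b, hb⟩ := H.coc
  have hcov : ∀ x : n → ∀ i, K i, ∃ a ∈ L, x - a ∈ closedBall (0 : n → ∀ i, K i) |b| := by
    intro x
    choose c hc hc' using fun a => hb (x a)
    refine ⟨φ ∘ c, ⟨c, hc, rfl⟩, mem_closedBall_zero_iff.2 ?_⟩
    exact (pi_norm_le_iff_of_nonneg (abs_nonneg b)).2 fun a => (hc' a).trans (le_abs_self b)
  have hK : IsCompact (closedBall (0 : n → ∀ i, K i) |b|) := isCompact_closedBall _ _
  set N : ℝ := Fintype.card n + 1 with hN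
  have hN0 : 1 ≤ N := by simp [hN]
  choose C hC hCm hCs using fun a : n => exists_box μ (ε := ε / (2 * N)) (by positivity) a i0
    (hK.measure_lt_top (μ := μ)).ne
  obtain ⟨T, hT⟩ : ∃ T : ℝ, 0 ≤ T ∧ ∀ a, ∀ x ∈ C a, ‖x‖ ≤ T := by
    obtain ⟨T, hT⟩ := (isCompact_iUnion hC).isBounded.exists_norm_le
    exact ⟨|T|, abs_nonneg _, fun a x hx =>
      (hT x (Set.mem_iUnion.2 ⟨a, hx⟩)).trans (le_abs_self _)⟩
  refine ⟨N * (T + T), fun g hg hs l hl => ?_⟩
  have hgu : IsUnit g.det := IsUnit.of_mul_eq_one _ hg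
  -- the functional on the other side
  set l' : n → K i0 := fun a => ((φ ∘ l) ᵥ* g⁻¹) a i0 with hl'
  have hl1 : ∀ v : n → F, ∑ a, l' a * (g *ᵥ (φ ∘ v)) a i0 = algebraMap F (K i0) (l ⬝ᵥ v) := by
    intro v
    have h1 : ((φ ∘ l) ᵥ* g⁻¹) ⬝ᵥ (g *ᵥ (φ ∘ v)) = φ (l ⬝ᵥ v) := by
      rw [dotProduct_mulVec, vecMul_vecMul, nonsing_inv_mul _ hgu, vecMul_one]
      simp [dotProduct, map_sum]
    have h2 := congrFun h1 i0
    rw [dotProduct, Finset.sum_apply] at h2
    exact h2
  obtain ⟨a0, ha0⟩ := Function.ne_iff.1 hl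
  obtain ⟨a, -, ha⟩ := Finset.exists_max_image Finset.univ (fun a => ‖l' a‖) ⟨a0, by simp⟩
  have hla : l' a ≠ 0 := by
    intro h0
    have h1 : ∀ c, l' c = 0 := fun c => by
      have := ha c (Finset.mem_univ c)
      rw [h0, norm_zero] at this
      exact norm_le_zero_iff.1 this
    have h2 := hl1 (Pi.single a0 1)
    simp only [h1, zero_mul, Finset.sum_const_zero, dotProduct_single, mul_one] at h2
    exact ha0 ((map_eq_zero _).1 h2.symm)
  set c : n → ∀ i, K i := fun b => if b = a then 0 else Pi.single i0 (l' b / l' a) with hc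
  have hc1 : ∀ b, ‖c b‖ ≤ 1 := fun b => by
    simp only [hc]
    split_ifs
    · simp
    · rw [Pi.norm_single, norm_div]
      exact div_le_one_of_le₀ (ha b (Finset.mem_univ b)) (norm_nonneg _)
  set τ : Matrix n n (∀ i, K i) := 1 + vecMulVec (Pi.single a 1) c with hτ
  have hτd : τ.det = 1 := by
    rw [hτ, vecMulVec_eq Unit, det_one_add_replicateCol_mul_replicateRow]
    simp [hc]
  have hτv : ∀ y, τ *ᵥ y = y + Pi.single a (c ⬝ᵥ y) := fun y => by
    rw [hτ, add_mulVec, one_mulVec, vecMulVec_mulVec]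
    congr 1
    funext b
    by_cases h : b = a <;> simp [h]
  have hmeas := H544.haar_of_det (detOne (K := K))
    (ContinuousLinearEquiv.refl (∀ i, K i) (n → ∀ i, K i)) μ (Matrix.toLin' (τ * g))
    (by rw [LinearMap.det_toLin', det_mul, hτd, one_mul, hg]) (C a)
  obtain ⟨_, ⟨v, hv, rfl⟩, hv0, s, hs1, t, ht1, hst⟩ := H544.blich μ L hK hcov
    (S := Matrix.toLin' (τ * g) ⁻¹' C a)
    ((hC a).isClosed.preimage (LinearMap.continuous_on_pi _)).measurableSet
    (by rw [hmeas]; exact hCm a)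
  set y := g *ᵥ (φ ∘ v) with hy
  set x := τ *ᵥ y with hx
  have hxe : x = Matrix.toLin' (τ * g) s - Matrix.toLin' (τ * g) t := by
    rw [← map_sub, hst, toLin'_apply, hx, hy, mulVec_mulVec]
  have hxb : ∀ b, b ≠ a → x b = y b := fun b hb => by
    rw [hx, hτv, Pi.add_apply, Pi.single_eq_of_ne hb, add_zero]
  have hcx : c ⬝ᵥ y = c ⬝ᵥ x := Finset.sum_congr rfl fun b _ => by
    by_cases h : b = a
    · simp [hc, h]
    · rw [hxb b h]
  have hyx : ‖y‖ ≤ N * ‖x‖ := by
    have h1 : y = x - Pi.single a (c ⬝ᵥ x) := by rw [← hcx, hx, hτv, add_sub_cancel_right]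
    have h2 : ‖c ⬝ᵥ x‖ ≤ Fintype.card n * ‖x‖ := by
      refine (norm_sum_le _ _).trans ?_
      rw [← nsmul_eq_mul, ← Finset.card_univ, ← Finset.sum_const]
      exact Finset.sum_le_sum fun b _ => (norm_mul_le _ _).trans
        ((mul_le_mul (hc1 b) (norm_le_pi_norm x b) (norm_nonneg _) zero_le_one).trans
          (one_mul _).le)
    calc ‖y‖ ≤ ‖x‖ + ‖c ⬝ᵥ x‖ := by
          conv_lhs => rw [h1]
          exact (norm_sub_le _ _).trans (by rw [Pi.norm_single])
      _ ≤ _ := by rw [hN]; linarith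
  refine ⟨v, hv, fun h0 => ?_, hyx.trans (mul_le_mul_of_nonneg_left ?_ (by linarith))⟩
  · have h1 := hl1 v
    rw [h0, map_zero, ← hy] at h1
    have h2 : x a i0 = 0 := by
      rw [hx, hτv, Pi.add_apply, Pi.single_eq_same, Pi.add_apply]
      apply mul_left_cancel₀ hla
      rw [mul_zero, ← h1, dotProduct, Finset.sum_apply, mul_add, Finset.mul_sum,
        ← Finset.add_sum_erase _ _ (Finset.mem_univ a),
        ← Finset.add_sum_erase _ (fun b => l' b * y b i0) (Finset.mem_univ a)]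
      congr 1
      simp only [hc, if_true, zero_mul, Pi.zero_apply, mul_zero, zero_add]
      refine Finset.sum_congr rfl fun b hb => ?_
      rw [if_neg (Finset.ne_of_mem_erase hb), Pi.mul_apply, Pi.single_eq_same]
      field_simp
    have h3 : ‖x‖ < ε / N := by
      refine (pi_norm_lt_iff (by positivity)).2 fun b => (pi_norm_lt_iff (by positivity)).2
        fun i => ?_
      by_cases h : b ≠ a ∨ i ≠ i0
      · rw [hxe, Pi.sub_apply, Pi.sub_apply]
        refine (norm_sub_le _ _).trans_lt ?_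
        have := add_lt_add (hCs a _ hs1 b i h) (hCs a _ ht1 b i h)
        refine this.trans_le (le_of_eq ?_)
        field_simp
        norm_num
      · push Not at h
        obtain ⟨rfl, rfl⟩ := h
        rw [h2, norm_zero]
        positivity
    have h4 := hs v hv (by
      rintro rfl
      exact hv0 (by funext a; simp))
    have h5 : N * ‖x‖ < ε := by rwa [lt_div_iff₀ (by linarith), mul_comm] at h3
    linarith
  · rw [hxe]
    exact (norm_sub_le _ _).trans (add_le_add (hT.2 a _ hs1) (hT.2 a _ ht1))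

/-- A basis of bounded lattice vectors. -/
theorem Pls.exists_mat {O : Subring F} (H : Pls K O) {ε : ℝ} (hε : 0 < ε) :
    ∃ T : ℝ, ∀ g : Matrix n n (∀ i, K i), g.det * g.det = 1 →
      (∀ v : n → F, (∀ a, v a ∈ O) → v ≠ 0 → ε ≤ ‖g *ᵥ (algebraMap F (∀ i, K i) ∘ v)‖) →
      ∃ γ : Matrix n n F, (∀ a b, γ a b ∈ O) ∧ γ.det ≠ 0 ∧
        ∀ a b, ‖(g * γ.map (algebraMap F (∀ i, K i))) a b‖ ≤ T := by
  obtain ⟨T, hT⟩ := H.exists_vec (n := n) hε
  refine ⟨T, fun g hg hs => ?_⟩
  set S : Set (n → F) := {v | (∀ a, v a ∈ O) ∧ ‖g *ᵥ (algebraMap F (∀ i, K i) ∘ v)‖ ≤ T} with hS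
  have hsp : Submodule.span F S = ⊤ := by
    by_contra h
    obtain ⟨f, hf, hf'⟩ := Submodule.exists_le_ker_of_lt_top _ (lt_top_iff_ne_top.2 h)
    have hfl : ∀ v, f v = (fun a => f (Pi.single a 1)) ⬝ᵥ v := fun v => by
      conv_lhs => rw [pi_eq_sum_univ' v]
      simp [dotProduct, map_sum, mul_comm]
    obtain ⟨v, h1, h2, h3⟩ := hT g hg hs (fun a => f (Pi.single a 1)) fun h0 => hf (by
      ext a
      simpa using congrFun h0 a)
    exact h2 ((hfl v).symm.trans (hf' (Submodule.subset_span ⟨h1, h3⟩)))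
  obtain ⟨b, hb, hb1, hb2⟩ := exists_linearIndependent F S
  have hfin : b.Finite := hb2.setFinite
  have := hfin.fintype
  let B : Module.Basis b F (n → F) := Module.Basis.mk hb2 (by
    rw [Subtype.range_coe_subtype, Set.ofPred_mem_eq, hb1, hsp])
  have hcard : Fintype.card n = Fintype.card b := by
    rw [← Module.finrank_eq_card_basis B, Module.finrank_fintype_fun_eq_card]
  let e := Fintype.equivOfCardEq hcard
  refine ⟨Matrix.of fun a c => (e c : n → F) a, fun a c => (hb (e c).2).1 a, ?_, fun a c => ?_⟩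
  · refine ((isUnit_iff_isUnit_det _).1 (linearIndependent_cols_iff_isUnit.1 ?_)).ne_zero
    exact hb2.comp e e.injective
  · exact (norm_le_pi_norm (g *ᵥ (algebraMap F (∀ i, K i) ∘ (e c : n → F))) a).trans
      (hb (e c).2).2

end Vale.Agent.P011ND
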