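import Vale.Agent.P011ND.Box

/-!
Cocompactness of the integral points in the stabiliser of anisotropic tensors.
-/

open Matrix Metric Filter Topology

namespace Vale.Agent.P011ND

section ring

variable {n α R S : Type*} [Fintype n] [CommRing R] [CommRing S]

/-- Terms in one variable. -/
inductive Tm (α : Type*) where
  | var : Tm α
  | app : α → Tm α → Tm α
  | mul : Tm α → Tm α → Tm α

/-- The value of a term. -/
def Dt.tm (D : Dt n α R) : Tm α → (n → R) → n → R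
  | .var, x => x
  | .app a t, x => D.A a *ᵥ D.tm t x
  | .mul s t, x => D.mu (D.tm s x) (D.tm t x)

/-- Invariant polynomials. -/
def Dt.iv (D : Dt n α R) (j : Tm α × Tm α) (x : n → R) : R := bf D.B (D.tm j.1 x) (D.tm j.2 x)

/-- Finitely many invariant polynomials have no common zero. -/
def Dt.Ani (D : Dt n α R) : Prop :=
  ∃ T : Set (Tm α × Tm α), T.Finite ∧ ∀ v : n → R, v ≠ 0 → ∃ j ∈ T, D.iv j v ≠ 0

/-- All entries lie in the subring. -/
def MI (O : Subring R) (g : Matrix n n R) : Prop := ∀ a b, g a b ∈ O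

/-- The tensors are integral. -/
def Dt.Int (D : Dt n α R) (O : Subring R) : Prop :=
  (∀ a, MI O (D.A a)) ∧ MI O D.B ∧ ∀ k, MI O (D.M k)

/-- The tensors in another basis. -/
def Dt.lab (D : Dt n α R) (γ : Matrix n n R) : Option α ⊕ n → Matrix n n R
  | .inl none => γᵀ * D.B * γ
  | .inl (some a) => γᵀ * (D.B * D.A a) * γ
  | .inr k => γᵀ * (∑ l, (γᵀ * D.B) k l • D.M l) * γ

variable {D : Dt n α R} {O : Subring R}

theorem MI.mul {g h : Matrix n n R} (hg : MI O g) (hh : MI O h) : MI O (g * h) := fun a b => by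
  rw [mul_apply]
  exact O.sum_mem fun c _ => O.mul_mem (hg a c) (hh c b)

omit [Fintype n] in
theorem MI.transpose {g : Matrix n n R} (hg : MI O g) : MI O gᵀ := fun a b => hg b a

theorem MI.mulVec {g : Matrix n n R} (hg : MI O g) {v : n → R} (hv : ∀ a, v a ∈ O) (a : n) :
    (g *ᵥ v) a ∈ O := O.sum_mem fun c _ => O.mul_mem (hg a c) (hv c)

theorem MI.bf {g : Matrix n n R} (hg : MI O g) {v w : n → R} (hv : ∀ a, v a ∈ O)
    (hw : ∀ a, w a ∈ O) : bf g v w ∈ O :=
  O.sum_mem fun c _ => O.mul_mem (hv c) (hg.mulVec hw c)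

theorem MI.exists_map [DecidableEq n] {g : Matrix n n R} (hg : MI O g) :
    ∃ g' : Matrix n n O, O.subtype.mapMatrix g' = g :=
  ⟨Matrix.of fun a b => ⟨g a b, hg a b⟩, rfl⟩

theorem MI.det [DecidableEq n] {g : Matrix n n R} (hg : MI O g) : g.det ∈ O := by
  obtain ⟨g, rfl⟩ := hg.exists_map
  rw [← RingHom.map_det]
  exact (g.det).2

theorem MI.adj [DecidableEq n] {g : Matrix n n R} (hg : MI O g) : MI O g.adjugate := by
  obtain ⟨g, rfl⟩ := hg.exists_map
  rw [← RingHom.map_adjugate]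
  exact fun a b => (g.adjugate a b).2

omit [Fintype n] in
theorem MI.one [DecidableEq n] : MI O (1 : Matrix n n R) := fun a b => by
  rw [one_apply]
  split_ifs
  · exact O.one_mem
  · exact O.zero_mem

theorem Dt.Int.iv (h : D.Int O) (j : Tm α × Tm α) {v : n → R} (hv : ∀ a, v a ∈ O) :
    D.iv j v ∈ O := by
  have ht : ∀ s a, D.tm s v a ∈ O := by
    intro s
    induction s with
    | var => exact hv
    | app a t ih => exact (h.1 a).mulVec ih
    | mul s t h1 h2 => exact fun a => (h.2.2 a).bf h1 h2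
  exact h.2.1.bf (ht _) (ht _)

theorem Dt.Int.lab (h : D.Int O) {γ : Matrix n n R} (hγ : MI O γ) (e : Option α ⊕ n) :
    MI O (D.lab γ e) := by
  rcases e with (_ | a) | k
  · exact (hγ.transpose.mul h.2.1).mul hγ
  · exact (hγ.transpose.mul (h.2.1.mul (h.1 a))).mul hγ
  · refine (hγ.transpose.mul fun a b => ?_).mul hγ
    rw [Matrix.sum_apply]
    exact O.sum_mem fun l _ => O.mul_mem (hγ.transpose.mul h.2.1 k l) (h.2.2 l a b)

theorem Dt.iv_map (φ : R →+* S) (j : Tm α × Tm α) (v : n → R) :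
    (D.map φ).iv j (φ ∘ v) = φ (D.iv j v) := by
  have ht : ∀ s, (D.map φ).tm s (φ ∘ v) = φ ∘ D.tm s v := by
    intro s
    induction s with
    | var => rfl
    | app a t ih =>
      rw [Dt.tm, ih]
      exact mulVec_map φ _ _
    | mul s t h1 h2 =>
      rw [Dt.tm, h1, h2]
      exact Dt.mu_map φ _ _
  rw [Dt.iv, ht, ht]
  exact bf_map φ _ _ _

theorem Dt.lab_map (φ : R →+* S) (γ : Matrix n n R) (e : Option α ⊕ n) :
    (D.map φ).lab (γ.map φ) e = (D.lab γ e).map φ := by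
  rcases e with (_ | a) | k
  · simp only [Dt.lab, Dt.map, Matrix.map_mul, transpose_map]
  · simp only [Dt.lab, Dt.map, Matrix.map_mul, transpose_map]
  · simp only [Dt.lab, Dt.map, Matrix.map_mul, transpose_map]
    congr 2
    ext i j
    simp [Matrix.sum_apply, map_sum, mul_apply]

variable [DecidableEq n]

theorem Dt.Stab.iv {g : Matrix n n R} (hg : D.Stab g) (j : Tm α × Tm α) (v : n → R) :
    D.iv j (g *ᵥ v) = D.iv j v := by
  obtain ⟨g1, g2, g3⟩ := Dt.stab_iff.1 hg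
  have ht : ∀ s, D.tm s (g *ᵥ v) = g *ᵥ D.tm s v := by
    intro s
    induction s with
    | var => rfl
    | app a t ih => rw [Dt.tm, Dt.tm, ih, mulVec_mulVec, mulVec_mulVec, g1]
    | mul s t h1 h2 => rw [Dt.tm, Dt.tm, h1, h2, g3]
  rw [Dt.iv, ht, ht, g2]
  rfl

theorem Dt.bf_lab (γ : Matrix n n R) (k : n) (x y : n → R) :
    bf (D.lab γ (.inr k)) x y = bf D.B (γ *ᵥ Pi.single k 1) (D.mu (γ *ᵥ x) (γ *ᵥ y)) := by
  rw [Dt.lab, ← bf_mulVec, ← Dt.mulVec_mu]
  have := bf_mulVec D.B γ 1 (Pi.single k 1) (D.mu (γ *ᵥ x) (γ *ᵥ y))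
  rw [one_mulVec, mul_one] at this
  rw [this]
  simp [bf]

theorem Dt.Stab.lab {g : Matrix n n R} (hg : D.Stab g) (γ : Matrix n n R) :
    D.lab (g * γ) = D.lab γ := by
  obtain ⟨g1, g2, g3⟩ := Dt.stab_iff.1 hg
  funext e
  rcases e with (_ | a) | k
  · refine bf_ext fun x y => ?_
    simp only [Dt.lab, ← bf_mulVec, ← mulVec_mulVec, g2]
  · have h : gᵀ * (D.B * D.A a) * g = D.B * D.A a := by
      rw [mul_assoc, mul_assoc, ← g1, ← mul_assoc, ← mul_assoc, hg.2.1]
    simp only [Dt.lab, transpose_mul]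
    conv_rhs => rw [← h]
    simp only [mul_assoc]
  · refine bf_ext fun x y => ?_
    simp only [Dt.bf_lab, ← mulVec_mulVec, ← g3, g2]

theorem Dt.stab_of_lab (hB : IsUnit D.B.det) {γ γ' δ : Matrix n n R} (h : γ * γ' = 1)
    (hl : D.lab δ = D.lab γ) : D.Stab (δ * γ') := by
  have k : ∀ x, γ *ᵥ (γ' *ᵥ x) = x := fun x => by rw [mulVec_mulVec, h, one_mulVec]
  have hb : ∀ C : Matrix n n R, δᵀ * C * δ = γᵀ * C * γ → (δ * γ')ᵀ * C * (δ * γ') = C := by
    intro C hC
    refine bf_ext fun x y => ?_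
    rw [← bf_mulVec, ← mulVec_mulVec, ← mulVec_mulVec, bf_mulVec, hC, ← bf_mulVec, k, k]
  have h1 := hb _ (congrFun hl (.inl none))
  have hu : IsUnit ((δ * γ')ᵀ * D.B) := by
    have h2 := congrArg Matrix.det h1
    rw [det_mul] at h2
    rw [isUnit_iff_isUnit_det]
    exact isUnit_of_mul_isUnit_left (h2 ▸ hB)
  refine Dt.stab_iff.2 ⟨fun a => hu.mul_left_cancel ?_, fun x y => by rw [bf_mulVec, h1],
    fun x y => ?_⟩
  · have h2 := hb _ (congrFun hl (.inl (some a)))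
    rw [← mul_assoc, h1, ← mul_assoc, mul_assoc _ D.B, h2]
  · have h3 : ∀ z, bf D.B (δ *ᵥ z) (D.mu (δ *ᵥ (γ' *ᵥ x)) (δ *ᵥ (γ' *ᵥ y))) =
        bf D.B (γ *ᵥ z) (D.mu x y) := by
      intro z
      have h4 : ∀ c, bf D.B (δ *ᵥ Pi.single c 1) (D.mu (δ *ᵥ (γ' *ᵥ x)) (δ *ᵥ (γ' *ᵥ y))) =
          bf D.B (γ *ᵥ Pi.single c 1) (D.mu x y) := fun c => by
        rw [← Dt.bf_lab, hl, Dt.bf_lab, k, k]
      have h5 : ∀ (g : Matrix n n R) w, bf D.B (g *ᵥ z) w =
          ∑ c, z c * bf D.B (g *ᵥ Pi.single c 1) w := fun g w => by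
        conv_lhs => rw [pi_eq_sum_univ' z]
        simp only [bf, mulVec_sum, sum_dotProduct, mulVec_smul, smul_dotProduct, smul_eq_mul]
      rw [h5, h5]
      exact Finset.sum_congr rfl fun c _ => by rw [h4]
    refine mulVec_injective_of_isUnit hu ?_
    funext c
    have h6 : ∀ w, ((δ * γ')ᵀ * D.B).mulVec w c = bf D.B ((δ * γ') *ᵥ Pi.single c 1) w :=
      fun w => by
        have := bf_mulVec D.B (δ * γ') 1 (Pi.single c 1) w
        rw [one_mulVec, mul_one] at this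
        rw [this]
        simp [bf]
    rw [h6, h6, bf_mulVec, h1, ← mulVec_mulVec, ← mulVec_mulVec, ← mulVec_mulVec, h3, k]

end ring

variable {F ι : Type} [Field F] [Fintype ι] [DecidableEq ι] {K : ι → Type}
  [∀ i, NontriviallyNormedField (K i)] [∀ i, ProperSpace (K i)] [∀ i, Algebra F (K i)]
  {n α : Type} [Fintype n] [DecidableEq n] [Fintype α] {O : Subring F} {D : Dt n α F}

omit [DecidableEq ι] [∀ i, ProperSpace (K i)] in
theorem Pls.inj (H : Pls K O) : Function.Injective (algebraMap F (∀ i, K i)) := by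
  obtain ⟨i⟩ := H.ne
  have : Nontrivial (∀ i, K i) := Pi.nontrivial_at i
  exact RingHom.injective _

omit [DecidableEq ι] [∀ i, ProperSpace (K i)] [Fintype α] in
theorem Pls.systole (H : Pls K O) (hI : D.Int O) (hA : D.Ani) : ∃ ε : ℝ, 0 < ε ∧
    ∀ g, (D.map (algebraMap F (∀ i, K i))).Stab g → ∀ v : n → F, (∀ a, v a ∈ O) → v ≠ 0 →
      ε ≤ ‖g *ᵥ (algebraMap F (∀ i, K i) ∘ v)‖ := by
  set φ := algebraMap F (∀ i, K i) with hφ
  obtain ⟨ε, hε, h1⟩ : ∃ ε : ℝ, 0 < ε ∧ ∀ c ∈ O, c ≠ 0 → ε ≤ ‖φ c‖ := by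
    have h2 : (φ '' {c | c ∈ O ∧ ‖φ c‖ ≤ 1} \ {0}).Finite := ((H.disc 1).image φ).sdiff
    obtain ⟨ε, hε, h3⟩ := Metric.isOpen_iff.1 h2.isClosed.isOpen_compl 0 (by simp)
    refine ⟨min ε 1, lt_min hε one_pos, fun c hc h0 => ?_⟩
    by_contra h
    rw [not_le, lt_min_iff] at h
    exact h3 (mem_ball_zero_iff.2 h.1) ⟨⟨c, ⟨hc, h.2.le⟩, rfl⟩, fun e =>
      h0 (H.inj (e.trans (map_zero φ).symm))⟩
  obtain ⟨T, hT, hA⟩ := hA
  have h2 : ∀ᶠ x in 𝓝 (0 : n → ∀ i, K i), ∀ j ∈ T, ‖(D.map φ).iv j x‖ < ε := by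
    refine (eventually_all_finite hT).2 fun j _ => ?_
    have ht : ∀ s, Continuous ((D.map φ).tm s) ∧ (D.map φ).tm s 0 = 0 := by
      intro s
      induction s with
      | var => exact ⟨continuous_id, rfl⟩
      | app a t ih =>
        refine ⟨?_, by rw [Dt.tm, ih.2, mulVec_zero]⟩
        have := ih.1
        change Continuous fun x => (D.map φ).A a *ᵥ (D.map φ).tm t x
        fun_prop
      | mul s t h1 h2 =>
        refine ⟨?_, by
          rw [Dt.tm, h1.2]
          funext k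
          simp [Dt.mu, bf]⟩
        have := h1.1
        have := h2.1
        change Continuous fun x k => (D.map φ).tm s x ⬝ᵥ (D.map φ).M k *ᵥ (D.map φ).tm t x
        fun_prop
    have hc : Continuous fun x => ‖(D.map φ).iv j x‖ := by
      have := (ht j.1).1
      have := (ht j.2).1
      unfold Dt.iv bf
      fun_prop
    refine hc.continuousAt.eventually_lt continuousAt_const ?_
    simp [Dt.iv, (ht j.1).2, bf, hε]
  obtain ⟨δ, hδ, h3⟩ := Metric.eventually_nhds_iff.1 h2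
  refine ⟨δ, hδ, fun g hg v hv h0 => ?_⟩
  by_contra h
  obtain ⟨j, hjT, hj⟩ := hA v h0
  have h4 := h3 (y := g *ᵥ (φ ∘ v)) (by rw [dist_zero_right]; exact not_le.1 h) j hjT
  rw [hg.iv, Dt.iv_map] at h4
  exact absurd (h1 _ (hI.iv j hv) hj) (not_le.2 h4)

omit [DecidableEq ι] [∀ i, ProperSpace (K i)] in
theorem Pls.finite_mod (H : Pls K O) (d : F) :
    ∃ Z : Set F, Z.Finite ∧ (d ∈ O → d ≠ 0 → ∀ c ∈ O, ∃ z ∈ Z, ∃ m ∈ O, c = z + d * m) := by
  obtain ⟨b, hb⟩ := H.coc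
  refine ⟨_, H.disc (‖algebraMap F (∀ i, K i) d‖ * b), fun hd h0 c hc => ?_⟩
  obtain ⟨m, hm, h⟩ := hb (algebraMap F (∀ i, K i) (d⁻¹ * c))
  refine ⟨c - d * m, ⟨O.sub_mem hc (O.mul_mem hd hm), ?_⟩, m, hm, by ring⟩
  have : c - d * m = d * (d⁻¹ * c - m) := by field_simp
  rw [this, map_mul, map_sub]
  exact (norm_mul_le _ _).trans (mul_le_mul_of_nonneg_left h (norm_nonneg _))

omit [DecidableEq ι] [∀ i, ProperSpace (K i)] [DecidableEq n] in
theorem Pls.finite_mat (H : Pls K O) {C : Set (Matrix n n (∀ i, K i))} (hC : IsCompact C) :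
    {γ : Matrix n n F | MI O γ ∧ γ.map (algebraMap F (∀ i, K i)) ∈ C}.Finite := by
  have h : ∀ a b, ∃ T : ℝ, ∀ x ∈ C, ‖x a b‖ ≤ T := fun a b => by
    obtain ⟨T, hT⟩ := (hC.image (f := fun x => ‖x a b‖) (by fun_prop)).bddAbove
    exact ⟨T, fun x hx => hT ⟨x, hx, rfl⟩⟩
  choose T hT using h
  exact (Set.Finite.pi' fun a => Set.Finite.pi' fun b => H.disc (T a b)).subset
    fun γ hγ a b => ⟨hγ.1 a b, hT a b _ hγ.2⟩

/-- **Cocompactness.** -/
theorem Pls.cocompact (H : Pls K O) (hI : D.Int O) (hA : D.Ani) (hB : D.B.det ≠ 0) :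
    ∃ C : Set (Matrix n n (∀ i, K i)), IsCompact C ∧
      ∀ g, (D.map (algebraMap F (∀ i, K i))).Stab g → ∃ δ δ' : Matrix n n F, MI O δ ∧ MI O δ' ∧
        δ * δ' = 1 ∧ D.Stab δ ∧ g * δ.map (algebraMap F (∀ i, K i)) ∈ C := by
  classical
  set φ := algebraMap F (∀ i, K i) with hφ
  obtain ⟨ε, hε, hs⟩ := H.systole hI hA
  obtain ⟨T, hT⟩ := H.exists_mat (n := n) hε
  have hB' : IsUnit (D.map φ).B.det := by
    change IsUnit (φ.mapMatrix D.B).det
    rw [← RingHom.map_det]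
    exact (Ne.isUnit hB).map φ
  set G := {g // (D.map φ).Stab g}
  choose γ h1 h2 h3 using fun g : G => hT g.1 (g.2.det hB') (hs g.1 g.2)
  set C0 : Set (Matrix n n (∀ i, K i)) := {x | ∀ a b, ‖x a b‖ ≤ T} with hC0
  have hC : IsCompact C0 := by
    have := (isCompact_closedBall (0 : ∀ i, K i) T).matrix (m := n) (n := n)
    have e : C0 = (closedBall (0 : ∀ i, K i) T).matrix := by
      ext x
      simp [hC0, Set.mem_matrix]
    rwa [e]
  choose Z hZ hZ' using H.finite_mod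
  choose z hz m hm hzm using fun (g : G) a b => hZ' _ (MI.det (h1 g)) (h2 g) _ (h1 g a b)
  let Φ : G → (Option α ⊕ n → Matrix n n F) × F × Matrix n n F := fun g =>
    (D.lab (γ g), (γ g).det, Matrix.of (z g))
  have f1 : (Set.range fun g : G => D.lab (γ g)).Finite := by
    have hc : ∀ e, Continuous fun x => (D.map φ).lab x e := by
      rintro ((_ | a) | k) <;> unfold Dt.lab <;> fun_prop
    refine (Set.Finite.pi' fun e => H.finite_mat (hC.image (hc e))).subset ?_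
    rintro _ ⟨g, rfl⟩ e
    refine ⟨hI.lab (h1 g) e, _, h3 g, ?_⟩
    simp only [g.2.lab]
    exact Dt.lab_map φ _ _
  have f2 : (Set.range fun g : G => (γ g).det).Finite := by
    refine (f1.biUnion (t := fun L => {d : F | d * d * D.B.det = (L (.inl none)).det})
      fun L _ => ?_).subset ?_
    · by_cases h : ∃ d, d * d * D.B.det = (L (.inl none)).det
      · obtain ⟨d, hd⟩ := h
        refine ((Set.finite_singleton d).insert (-d)).subset fun x hx => ?_
        exact (mul_self_eq_mul_self_iff.1 (mul_right_cancel₀ hB (hx.trans hd.symm))).symm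
      · exact Set.finite_empty.subset fun x hx => h ⟨x, hx⟩
    · rintro _ ⟨g, rfl⟩
      refine Set.mem_biUnion ⟨g, rfl⟩ ?_
      simp only [Set.mem_ofPred_eq, Dt.lab, det_mul, det_transpose]
      ring
  have f3 : (Set.range fun g : G => Matrix.of (z g)).Finite := by
    refine (Set.Finite.pi' fun _ : n => Set.Finite.pi' fun _ : n =>
      f2.biUnion fun d _ => hZ d).subset ?_
    rintro _ ⟨g, rfl⟩ a b
    exact Set.mem_biUnion ⟨g, rfl⟩ (hz g a b)
  have hΦ : (Φ '' Set.univ).Finite := (f1.prod (f2.prod f3)).subset (by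
    rintro _ ⟨g, -, rfl⟩
    exact ⟨⟨g, rfl⟩, ⟨g, rfl⟩, g, rfl⟩)
  obtain ⟨R, -, hR⟩ := Set.exists_subset_bijOn Set.univ Φ
  have hRf : R.Finite := Set.Finite.of_finite_image (hR.image_eq ▸ hΦ) hR.injOn
  have key : ∀ g g' : G, Φ g = Φ g' → MI O (γ g * (γ g')⁻¹) := by
    intro g g' e
    have e2 : (γ g).det = (γ g').det := congrArg (·.2.1) e
    have e3 : Matrix.of (z g) = Matrix.of (z g') := congrArg (·.2.2) e
    have e4 : γ g = γ g' + (γ g').det • Matrix.of fun a b => m g a b - m g' a b := by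
      ext a b
      have e5 : z g a b = z g' a b := congrFun (congrFun e3 a) b
      simp only [Matrix.add_apply, Matrix.smul_apply, of_apply, smul_eq_mul]
      have e6 := hzm g a b
      have e7 := hzm g' a b
      rw [e2, e5] at e6
      linear_combination e6 - e7
    have e8 : (γ g').det • (γ g')⁻¹ = (γ g').adjugate := by
      rw [inv_def, smul_smul, Ring.mul_inverse_cancel _ (Ne.isUnit (h2 g')), one_smul]
    rw [e4, add_mul, mul_nonsing_inv _ (Ne.isUnit (h2 g')), smul_mul_assoc, ← mul_smul_comm, e8]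
    intro a b
    exact O.add_mem (MI.one a b) (MI.mul (fun a b => O.sub_mem (hm g a b) (hm g' a b))
      (MI.adj (h1 g')) a b)
  refine ⟨⋃ r ∈ R, (fun x => x * ((γ r)⁻¹).map φ) '' C0,
    hRf.isCompact_biUnion fun r _ => hC.image (by fun_prop), fun g hg => ?_⟩
  obtain ⟨r, hr, e⟩ : Φ ⟨g, hg⟩ ∈ Φ '' R := hR.image_eq ▸ ⟨_, trivial, rfl⟩
  refine ⟨_, _, key _ _ e.symm, key _ _ e, ?_, Dt.stab_of_lab (Ne.isUnit hB)
    (mul_nonsing_inv _ (Ne.isUnit (h2 r))) (congrArg (·.1) e).symm,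
    Set.mem_biUnion hr ⟨_, h3 ⟨g, hg⟩, ?_⟩⟩
  · rw [mul_assoc, ← mul_assoc (γ r)⁻¹, nonsing_inv_mul _ (Ne.isUnit (h2 r)), one_mul,
      mul_nonsing_inv _ (Ne.isUnit (h2 _))]
  · simp only [Matrix.map_mul, mul_assoc]
    rfl

end Vale.Agent.P011ND
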