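import Vale.Agent.P011ND.Grp

/-!
Cayley curves in the closure of the rational points.
-/

open Matrix Filter Topology
open scoped Matrix.Norms.Operator

namespace Vale.Agent.P011ND

theorem geo (K : Type) {A : Type} [NontriviallyNormedField K] [CompleteSpace K] [NormedRing A]
    [NormedAlgebra K A] [FiniteDimensional K A] : HasSummableGeomSeries A :=
  have := FiniteDimensional.complete K A
  inferInstance

section unit

variable {K : Type} [NontriviallyNormedField K] [CompleteSpace K] {n : Type} [Fintype n]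
  [DecidableEq n]

open Classical in
/-- A matrix as a unit. -/
noncomputable def toU (M : Matrix n n K) : (Matrix n n K)ˣ := if h : IsUnit M then h.unit else 1

omit [CompleteSpace K] in
theorem toU_val {M : Matrix n n K} (h : IsUnit M) : (toU M : Matrix n n K) = M := by
  rw [toU, dif_pos h, IsUnit.unit_spec]

theorem toU_cont {M : Matrix n n K} (h : IsUnit M) : ContinuousAt toU M := by
  have := geo K (A := Matrix n n K)
  refine (Units.isOpenEmbedding_val.isInducing.continuousAt_iff).2 ?_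
  refine continuousAt_id.congr ?_
  filter_upwards [Units.isOpen.mem_nhds h] with x hx using (toU_val hx).symm

/-- Both factors of the Cayley transform are invertible. -/
def Gd (Y : Matrix n n K) (t : K) : Prop := IsUnit (qc Y 0 t) ∧ IsUnit (qc Y 0 (-t))

omit [CompleteSpace K] in
theorem qc_cont (Y : Matrix n n K) : Continuous (qc (K := K) Y 0) := by
  unfold qc
  fun_prop

theorem Gd.open (Y : Matrix n n K) : IsOpen {t | Gd Y t} := by
  have := geo K (A := Matrix n n K)
  exact (Units.isOpen.preimage (qc_cont Y)).inter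
    (Units.isOpen.preimage ((qc_cont Y).comp continuous_neg))

omit [CompleteSpace K] in
theorem Gd.zero (Y : Matrix n n K) : Gd Y 0 := by simp [Gd, qc]

omit [CompleteSpace K] in
theorem Gd.unit {Y : Matrix n n K} {t : K} (h : Gd Y t) : IsUnit (cv Y 0 t) :=
  h.1.mul h.2.ringInverse

/-- The Cayley curve in the linear group. -/
noncomputable def cu (Y : Matrix n n K) (t : K) : (Matrix n n K)ˣ := toU (cv Y 0 t)

omit [CompleteSpace K] in
theorem Gd.val {Y : Matrix n n K} {t : K} (h : Gd Y t) : (cu Y t : Matrix n n K) = cv Y 0 t :=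
  toU_val h.unit

omit [CompleteSpace K] in
theorem cu_zero (Y : Matrix n n K) : cu Y 0 = 1 := by
  ext1
  rw [(Gd.zero Y).val, cv_zero, Units.val_one]

theorem Gd.cont {Y : Matrix n n K} {t : K} (h : Gd Y t) : ContinuousAt (cu Y) t := by
  have := geo K (A := Matrix n n K)
  refine (toU_cont h.unit).comp (f := cv Y 0) ((qc_cont Y).continuousAt.mul ?_)
  obtain ⟨u, hu⟩ := h.2
  refine ContinuousAt.comp (g := Ring.inverse) (f := fun t : K => qc Y 0 (-t)) ?_
    ((qc_cont Y).comp continuous_neg).continuousAt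
  rw [← hu]
  exact NormedRing.inverse_continuousAt u

omit [CompleteSpace K] in
theorem Gd.conj {Y : Matrix n n K} {t : K} (h : Gd Y t) {u : (Matrix n n K)ˣ}
    (hu : (u : Matrix n n K) * Y = -(Y * u)) : u * cu Y t * u⁻¹ = (cu Y t)⁻¹ := by
  have h1 : ∀ s : K, (u : Matrix n n K) * qc Y 0 s = qc Y 0 (-s) * u := fun s => by
    simp [qc, mul_add, add_mul, hu]
  obtain ⟨⟨a, ha⟩, b, hb⟩ := id h
  have h2 : cu Y t = a * b⁻¹ := by
    ext1
    rw [h.val, cv, ← ha, ← hb, Ring.inverse_unit, Units.val_mul]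
  have h3 : u * a = b * u := Units.ext (by rw [Units.val_mul, Units.val_mul, ha, hb, h1])
  have h4 : u * b = a * u := Units.ext (by
    rw [Units.val_mul, Units.val_mul, ha, hb, h1, neg_neg])
  have h5 : b⁻¹ * u⁻¹ = u⁻¹ * a⁻¹ := by rw [← _root_.mul_inv_rev, h4, _root_.mul_inv_rev]
  rw [h2, ← mul_assoc, h3, mul_assoc, h5]
  group

end unit

variable {F ι : Type} [Field F] [Fintype ι] [DecidableEq ι] {K : ι → Type}
  [∀ i, NontriviallyNormedField (K i)] [∀ i, ProperSpace (K i)] [∀ i, Algebra F (K i)]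
  {n α : Type} [Fintype n] [DecidableEq n] [Fintype α] {O : Subring F} {D : Dt n α F}
  {Γ : Type} [Group Γ] {r : Γ →* Matrix n n F}

/-- The part of a subgroup at one place. -/
def loc (M : Subgroup (GG K n)) (i : ι) : Submonoid (Matrix n n (K i)) :=
  (M.comap (MonoidHom.mulSingle (fun i => (Matrix n n (K i))ˣ) i)).toSubmonoid.map
    (Units.coeHom _)

omit [Fintype ι] [∀ i, ProperSpace (K i)] in
theorem mem_loc {M : Subgroup (GG K n)} {i : ι} {x : Matrix n n (K i)} :
    x ∈ loc M i ↔ ∃ u : (Matrix n n (K i))ˣ, Pi.mulSingle i u ∈ M ∧ ↑u = x := Iff.rfl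

theorem nbhd {M : Subgroup (GG K n)} (hM : M ≤ St K D)
    (h : ∀ i X, (D.map (algebraMap F (K i))).Lie X → X ∈ Tan (K i) (loc M i)) :
    ∀ᶠ g in 𝓝 (1 : GG K n), g ∈ St K D → g ∈ M := by
  have h1 : ∀ i, ∀ᶠ g in 𝓝 (1 : GG K n), (D.map (algebraMap F (K i))).Stab (g i) →
      (g i : Matrix n n (K i)) ∈ loc M i := fun i => by
    have h2 := (D.map (algebraMap F (K i))).open_of_tan (S := loc M i) (by
      rintro _ ⟨u, hu, rfl⟩
      have := hM hu i
      simpa using this) (h i)
    exact ((Units.continuous_val.comp (continuous_apply i)).tendsto (1 : GG K n)).eventually h2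
  filter_upwards [eventually_all.2 h1] with g hg hs
  refine Subgroup.pi_mem_of_mulSingle_mem g fun i => ?_
  obtain ⟨u, hu, e⟩ := hg i (hs i)
  rwa [← Units.ext e]

omit [Fintype ι] [∀ i, ProperSpace (K i)] in
theorem conj_single (g : GG K n) (i : ι) (u : (Matrix n n (K i))ˣ) :
    g * Pi.mulSingle i u * g⁻¹ = Pi.mulSingle i (g i * u * (g i)⁻¹) := by
  funext j
  rcases eq_or_ne j i with rfl | h
  · simp
  · simp [h]

omit [Fintype ι] [∀ i, ProperSpace (K i)] in
theorem loc_conj {M : Subgroup (GG K n)} {γ : Γ}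
    (h : ∀ m ∈ M, pp K r γ * m * (pp K r γ)⁻¹ ∈ M) (i : ι) :
    ∀ s ∈ loc M i, up (K i) (r γ) * s * up (K i) (r γ⁻¹) ∈ loc M i := by
  rintro _ ⟨u, hu, rfl⟩
  refine ⟨pp K r γ i * u * (pp K r γ i)⁻¹, ?_, ?_⟩
  · have := h _ hu
    rwa [MonoidHom.mulSingle_apply, conj_single] at this
  · simp only [Units.coeHom_apply, Units.val_mul, pp_val, pp_inv]

/-- The Cayley curves at all places. -/
noncomputable def cus (Y : Matrix n n F) (s : ∀ i, K i) : GG K n :=
  fun i => cu (up (K i) Y) (s i)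

omit [DecidableEq ι] in
theorem cus_cont {Y : Matrix n n F} {s : ∀ i, K i} (h : ∀ i, Gd (up (K i) Y) (s i)) :
    ContinuousAt (cus Y) s ∧ ∀ᶠ s' in 𝓝 s, ∀ i, Gd (up (K i) Y) (s' i) :=
  ⟨continuousAt_pi.2 fun i => (h i).cont.comp (f := fun s : ∀ i, K i => s i)
    (continuous_apply i).continuousAt, eventually_all.2 fun i =>
      (continuous_apply i).continuousAt.eventually ((Gd.open _).mem_nhds (h i))⟩

omit [Fintype ι] [DecidableEq ι] [∀ i, ProperSpace (K i)] in
theorem cus_rat {Y : Matrix n n F} {q : F} {γ : Γ} (hγ : r γ * (1 - q • Y) = 1 + q • Y)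
    (h : ∀ i, Gd (up (K i) Y) (algebraMap F (∀ i, K i) q i)) :
    cus Y (algebraMap F (∀ i, K i) q) = pp K r γ := by
  funext i
  ext1
  rw [cus, (h i).val, pp_val, ← map_zero (up (F := F) (K i))]
  refine cv_up ?_ (by simpa using hγ)
  rw [map_zero]
  exact (h i).2

omit [Fintype ι] [∀ i, ProperSpace (K i)] in
theorem cus_single (Y : Matrix n n F) (i : ι) (t : K i) :
    cus Y (Pi.single i t) = Pi.mulSingle i (cu (up (K i) Y) t) := by
  funext j
  rcases eq_or_ne j i with rfl | h
  · simp [cus]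
  · simp [cus, h, cu_zero]

theorem Pls.single_mem (H : Pls K O) {Y : Matrix n n F} {x : F → Γ}
    (hx : ∀ q, r (x q) * (1 - q • Y) = 1 + q • Y) {i : ι} {t : K i} (h : Gd (up (K i) Y) t) :
    Pi.mulSingle i (cu (up (K i) Y) t) ∈ (pp K r).range.topologicalClosure := by
  have h1 : ∀ j, Gd (up (K j) Y) ((Pi.single i t : ∀ i, K i) j) := fun j => by
    rcases eq_or_ne j i with rfl | hj
    · simpa using h
    · simpa [hj] using Gd.zero _
  obtain ⟨h2, h3⟩ := cus_cont h1
  rw [← cus_single]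
  refine mem_closure_of_frequently_of_tendsto ?_ h2
  refine ((mem_closure_iff_frequently.1 (H.dense _)).and_eventually h3).mono ?_
  rintro _ ⟨⟨q, rfl⟩, hq⟩
  exact ⟨x q, (cus_rat (hx q) hq).symm⟩

theorem Pls.exists_small (H : Pls K O) {Y : Matrix n n F} {x : F → Γ}
    (hx : ∀ q, r (x q) * (1 - q • Y) = 1 + q • Y) {U : Set (GG K n)} (hU : U ∈ 𝓝 1) :
    ∃ q ≠ 0, pp K r (x q) ∈ U := by
  obtain ⟨i⟩ := H.ne
  obtain ⟨h2, h3⟩ := cus_cont (K := K) (Y := Y) (s := 0) fun i => Gd.zero _
  have h4 : cus (K := K) Y 0 = 1 := funext fun i => cu_zero _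
  obtain ⟨V, hV, hVo, h0⟩ := mem_nhds_iff.1 (inter_mem h3 (h2.preimage_mem_nhds (h4 ▸ hU)))
  have h5 : Continuous fun t : K i => (Pi.single i t : ∀ i, K i) := continuous_single i
  obtain ⟨t, ht, ht0⟩ := Filter.nonempty_of_mem (f := 𝓝[≠] (0 : K i)) (inter_mem
    (mem_nhdsWithin_of_mem_nhds (h5.continuousAt.preimage_mem_nhds (hVo.mem_nhds (by
      simpa using h0)))) self_mem_nhdsWithin)
  obtain ⟨q, hq, hq0⟩ := H.dense.exists_mem_open (hVo.inter (isOpen_compl_singleton (x := 0)))
    ⟨_, ht, fun e => ht0 (by simpa using congrFun e i)⟩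
  refine ⟨q, fun e => hq0 (by rw [e, map_zero]; rfl), ?_⟩
  rw [← cus_rat (hx q) (hV hq).1]
  exact (hV hq).2

omit [DecidableEq ι] [∀ i, ProperSpace (K i)] in
theorem Pls.dense_at (H : Pls K O) (i : ι) : DenseRange (algebraMap F (K i)) :=
  (Function.surjective_eval i).denseRange.comp H.dense (continuous_apply i)

end Vale.Agent.P011ND
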