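import Vale.Agent.P011ND.Gen

/-!
Trialitarian groups: descent, and irreducibility of the Lie algebra.
-/

namespace Vale.Agent.P011ND

open Vale.Agent.P011 Vale.Agent.P011.MPQ Vale.Agent.P011.D4 Vale.Agent.P011.D4.Oct
open Vale.Agent.P011.D4X Vale.Agent.P011.D4.Em Vale.Agent.P011.E6
open Vale.Agent.P011.D4Y (Im)

theorem nucleus {F : Type} [Field F] [NeZero (2 : F)] {a b c : Fˣ} {u : Oct a b c}
    (h : ∀ x y, x * u * y = x * (u * y)) (h1 : bil u 1 = 0) : u = 0 := by
  have h2 : (2 : F) ≠ 0 := NeZero.ne 2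
  have k : ∀ {s t : F}, s ≠ 0 → 2 * (s * t) = 0 → t = 0 := fun hs ht => by simpa [h2, hs] using ht
  have ha := a.ne_zero
  have hb := b.ne_zero
  have e1 := congrArg Oct.snd (h gi gj)
  have e2 := congrArg Oct.snd (h gi gl)
  have e3 := congrArg Oct.snd (h gj gl)
  rw [QuaternionAlgebra.ext_iff] at e1 e2 e3
  simp [gi, gj, gl] at e1 e2 e3
  simp [bil_eq, h2] at h1
  refine ext8 h1 (k one_ne_zero ?_) (k one_ne_zero ?_) (k ha ?_) (k one_ne_zero ?_) (k ha ?_)
    (k hb ?_) (k (mul_ne_zero ha hb) ?_)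
  · linear_combination -e3.2
  · linear_combination e2.2
  · linear_combination e2.1
  · linear_combination -e1.2.2.2
  · linear_combination -e1.2.2.1
  · linear_combination e1.2.1
  · linear_combination e1.1

section avg

variable {E V : Type} [Field E] [AddCommGroup V] [Module E V]

/-- Combinations with restricted coefficients. -/
def cmb (p : E → Prop) (W : Set (Module.End E V)) : AddSubmonoid (Module.End E V) :=
  AddSubmonoid.closure {Z | ∃ e w, p e ∧ w ∈ W ∧ Z = e • w}

theorem avg2 {p q : E → Prop} {W : Set (Module.End E V)} {j : V → V} {φ : E → E}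
    (j1 : ∀ x y, j (x + y) = j x + j y) (j2 : Function.Injective j)
    (j3 : ∀ e x, j (φ e • x) = e • j x) (hW : ∀ w ∈ W, ∀ x, w (j x) = j (w x))
    (hq : ∀ e, p e → q (e + φ e)) {X : Module.End E V} (hX : X ∈ cmb p W)
    (hj : ∀ x, X (j x) = j (X x)) : X + X ∈ cmb q W := by
  have key : ∀ Z ∈ cmb p W, ∃ Z' : Module.End E V, (∀ x, j (Z' x) = Z (j x)) ∧
      Z + Z' ∈ cmb q W := by
    intro Z hZ
    induction hZ using AddSubmonoid.closure_induction with
    | mem Z hZ =>
      obtain ⟨e, w, he, hw, rfl⟩ := hZ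
      exact ⟨φ e • w, fun x => by rw [LinearMap.smul_apply, LinearMap.smul_apply, j3, hW w hw],
        AddSubmonoid.subset_closure ⟨_, w, hq e he, hw, (add_smul _ _ _).symm⟩⟩
    | zero => exact ⟨0, fun x => by simpa using j1 0 0, by simp⟩
    | add A B _ _ hA hB =>
      obtain ⟨A', a1, a2⟩ := hA
      obtain ⟨B', b1, b2⟩ := hB
      exact ⟨A' + B', fun x => by rw [LinearMap.add_apply, LinearMap.add_apply, j1, a1, b1],
        add_add_add_comm A A' B B' ▸ add_mem a2 b2⟩
  obtain ⟨Z, h1, h2⟩ := key X hX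
  rwa [show Z = X from LinearMap.ext fun x => j2 (by rw [h1, hj])] at h2

end avg

variable {k E : Type} [Field k] [Field E] [Algebra k E] {a b c : kˣ} [NeZero (2 : E)]

namespace Pm

variable {P : Pm k E} (h : P.Ok a)

include h

theorem tri_uniq {A B : Module.End E (OctL E a b c)} (hA : Sk (bl _ _ _) A)
    (hAB : ∀ x y, tri P.ρ (A x) y + tri P.ρ x (B y) = 0) : A = 0 ∧ B = 0 := by
  have r3 := Orb.omap_cube (a := a) (b := b) (c := c) h.hj.r3
  set f := fun x => omap P.ρ (star (A (star (omap P.ρ (omap P.ρ x))))) with hf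
  set g := fun x => omap P.ρ (omap P.ρ (star (B (star (omap P.ρ x))))) with hg
  have h1 : ∀ x y, f x * y + x * g y = 0 := fun x y => by
    have := hAB (star (omap P.ρ (omap P.ρ x))) (star (omap P.ρ y))
    simpa only [tri, star_star, r3] using this
  have h2 : ∀ y, g y = -(f 1 * y) := fun y => by
    have := h1 1 y
    rw [one_mul] at this
    exact eq_neg_of_add_eq_zero_right this
  have h3 : ∀ x, f x = x * f 1 := fun x => by
    have := h1 x 1
    rwa [mul_one, h2, mul_one, mul_neg, ← sub_eq_add_neg, sub_eq_zero] at this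
  have h4 : f 1 = 0 := by
    refine nucleus (fun x y => ?_) ?_
    · have := h1 x y
      rwa [h3, h2, mul_neg, ← sub_eq_add_neg, sub_eq_zero] at this
    · have := hA 1 1
      rw [bl_apply, bl_apply, bil_comm 1, ← two_mul] at this
      have e := (mul_eq_zero.1 this).resolve_left (NeZero.ne 2)
      simp only [hf, omap_one, star_one]
      conv_lhs => rw [← omap_one (a := a) (b := b) (c := c) P.ρ, bil_omap, omap_one]
      rw [bil_star_left, star_one, e, map_zero]
  constructor
  · ext1 v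
    have := congrArg (fun z => star (omap P.ρ (omap P.ρ z))) (h3 (omap P.ρ (star v)))
    rw [h4] at this
    simpa only [hf, r3, star_star, mul_zero, omap_zero, star_zero,
      LinearMap.zero_apply] using this
  · ext1 v
    have := congrArg (fun z => star (omap P.ρ z)) (h2 (omap P.ρ (omap P.ρ (star v))))
    rw [h4] at this
    simpa only [hg, r3, star_star, zero_mul, neg_zero, omap_zero, star_zero,
      LinearMap.zero_apply] using this

theorem avg3 {W : Set (Module.End E (OctL E a b c))} (hW : ∀ w ∈ W, P.Li w)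
    {X : Module.End E (OctL E a b c)} (hX : X ∈ Submodule.span E W) (hL : P.Li X) :
    X + X + X ∈ cmb (fun e => P.ρ e = e) W := by
  have key : ∀ Z ∈ Submodule.span E W, ∃ Z1 Z2 : Module.End E (OctL E a b c), Sk (bl _ _ _) Z1 ∧
      (∀ x y, Z (tri P.ρ x y) = tri P.ρ (Z1 x) y + tri P.ρ x (Z2 y)) ∧
      Z + Z1 + Z2 ∈ cmb (fun e => P.ρ e = e) W := by
    intro Z hZ
    induction hZ using Submodule.closure_induction with
    | smul_mem e w hw =>
      refine ⟨P.ρ (P.ρ e) • w, P.ρ e • w, ((hW w hw).sk h).smul _, fun x y => ?_,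
        AddSubmonoid.subset_closure ⟨e + P.ρ (P.ρ e) + P.ρ e, w, ?_, hw, by module⟩⟩
      · simp only [LinearMap.smul_apply, (hW w hw).1, tri_smul_left, tri_smul_right, h.hj.r3,
          smul_add]
      · simp only [map_add, h.hj.r3]
        ring
    | zero => exact ⟨0, 0, fun x y => by simp, fun x y => by simp, by simp⟩
    | add A B _ _ hA hB =>
      obtain ⟨A1, A2, a1, a2, a3⟩ := hA
      obtain ⟨B1, B2, b1, b2, b3⟩ := hB
      refine ⟨A1 + B1, A2 + B2, a1.add b1, fun x y => ?_, ?_⟩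
      · simp only [LinearMap.add_apply, a2, b2, tri_add_left, tri_add_right]
        abel
      · convert add_mem a3 b3 using 1
        abel
  obtain ⟨Z1, Z2, h1, h2, h3⟩ := key X hX
  obtain ⟨h4, h5⟩ := tri_uniq h (A := Z1 + -X) (B := Z2 + -X) (h1.add (hL.neg.sk h)) fun x y => by
    simp only [LinearMap.add_apply, LinearMap.neg_apply, tri_add_left, tri_add_right, tri_neg_left,
      tri_neg_right]
    rw [add_add_add_comm, ← h2, ← neg_add, ← hL.1, add_neg_cancel]
  rwa [add_neg_eq_zero.1 h4, add_neg_eq_zero.1 h5] at h3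

theorem J_inj : Function.Injective (P.J : OctL E a b c → OctL E a b c) := by
  have j := h.hj
  have u : ∀ t : E, t ≠ 0 → IsUnit (mq a b P.α t) ∧ IsUnit (star (mq a b P.α t)) := fun t ht => by
    have h1 : IsUnit (mq a b P.α t) := ⟨⟨mq a b P.α t, t⁻¹ • star (mq a b P.α t), by
      rw [mul_smul_comm, mq_star j.al, smul_smul, inv_mul_cancel₀ ht, one_smul], by
      rw [smul_mul_assoc, star_mq_mul j.al, smul_smul, inv_mul_cancel₀ ht, one_smul]⟩, rfl⟩
    exact ⟨h1, h1.star⟩
  have u1 := u _ j.q_ne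
  have u2 := u _ (mul_ne_zero j.q_ne j.q1_ne)
  intro x y hxy
  have h1 := u1.1.mul_left_cancel (u2.1.mul_right_cancel (congrArg Oct.fst hxy))
  have h2 := (u1.1.mul u2.2).mul_right_cancel (congrArg Oct.snd hxy)
  exact Oct.ext (by rw [← j.qinv x.fst, h1, j.qinv]) (by rw [← j.qinv x.snd, h2, j.qinv])

theorem descent [CharZero k] {W : AddSubgroup (Module.End E (OctL E a b c))}
    (hW : ∀ w ∈ W, P.Li w) (hk : ∀ t : k, ∀ w ∈ W, algebraMap k E t • w ∈ W)
    {X : Module.End E (OctL E a b c)} (hX : X ∈ Submodule.span E (W : Set _)) (hL : P.Li X) :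
    X ∈ W := by
  have h1 := avg3 h hW hX hL
  have l1 := (hL.add hL).add hL
  have h2 := avg2 (q := fun e => P.ρ e = e ∧ P.σ e = e) (j := P.J) (φ := P.σ) (Jq_add _ _)
    (J_inj h) (fun e x => by rw [J, Jq_smul, h.hj.s2, J]) (fun w hw => (hW w hw).2.1)
    (fun e he => ⟨by rw [map_add, h.hj.rs, he], by rw [map_add, h.hj.s2, add_comm]⟩) h1 l1.2.1
  have h3 : ∀ Z ∈ cmb (fun e => P.ρ e = e ∧ P.σ e = e ∧ (P.fl → P.ι e = e)) (W : Set _),
      Z ∈ W := fun Z hZ => by
    refine (AddSubmonoid.closure_le (S := W.toAddSubmonoid)).2 ?_ hZ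
    rintro _ ⟨e, w, ⟨h4, h5, h6⟩, hw, rfl⟩
    obtain ⟨t, rfl⟩ := h.fix e h4 h5 h6
    exact hk t w hw
  have h4 : X + X + X + (X + X + X) + (X + X + X + (X + X + X)) ∈ W := by
    by_cases hf : P.fl
    · have i2 : ∀ x : OctL E a b c, Im P.ι (Im P.ι x) = x := fun x => by
        rw [Im, Im, ← omap_star, star_star]
        apply ext8 <;> exact h.i2 hf _
      refine h3 _ (avg2 (j := Im P.ι) (φ := P.ι) (D4Y.Ch.Im_add _)
        (Function.LeftInverse.injective i2) (fun e x => by rw [D4Y.Ch.Im_smul, h.i2 hf])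
        (fun w hw => (hW w hw).2.2 hf) (fun e he => ⟨?_, ?_, fun _ => ?_⟩) h2 ((l1.add l1).2.2 hf))
      · have := congrArg P.ρ (h.ir hf e)
        rw [he.1, h.hj.r3] at this
        rw [map_add, he.1, this]
      · rw [map_add, h.si hf, he.2]
      · rw [map_add, h.i2 hf, add_comm]
    · have h5 := h3 _ (AddSubmonoid.closure_mono (by
        rintro _ ⟨e, w, he, hw, rfl⟩
        exact ⟨e, w, ⟨he.1, he.2, fun h0 => absurd h0 hf⟩, hw, rfl⟩) h2)
      exact add_mem h5 h5
  convert hk 12⁻¹ _ h4 using 1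
  have h5 : algebraMap k E 12⁻¹ * 12 = 1 := by
    rw [← map_ofNat (algebraMap k E) 12, ← map_mul, inv_mul_cancel₀ (by norm_num), map_one]
  rw [show X + X + X + (X + X + X) + (X + X + X + (X + X + X)) = (12 : E) • X by module, smul_smul,
    h5, one_smul]

/-- A map which commutes with the Lie algebra is a scalar. -/
theorem scalar {g : Module.End E (OctL E a b c)} (hg : ∀ X, P.Good X → g * X = X * g) :
    ∃ t : E, ∀ v, g v = t • v :=
  (ob_bl _ _ _).scalar (gen h (br_cen g) hg)

/-- **Irreducibility.** -/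
theorem irr [CharZero k] {W : AddSubgroup (Module.End E (OctL E a b c))}
    (hW : ∀ Y, P.Good Y → ∀ X ∈ W, Y * X - X * Y ∈ W) {X0 : Module.End E (OctL E a b c)}
    (h0 : X0 ∈ W) (h1 : P.Li X0) (h2 : X0 ≠ 0) {X : Module.End E (OctL E a b c)} (hX : P.Li X) :
    X ∈ W := by
  set S : Set (Module.End E (OctL E a b c)) :=
    {Z | ∃ Y X, P.Good Y ∧ X ∈ W ∧ P.Li X ∧ Z = Y * X - X * Y} with hS
  have w1 : ∀ w ∈ AddSubgroup.closure S, w ∈ W ∧ P.Li w ∧
      ∀ t : k, algebraMap k E t • w ∈ AddSubgroup.closure S := fun w hw => by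
    induction hw using AddSubgroup.closure_induction with
    | mem w hw =>
      obtain ⟨Y, Z, a1, a2, a3, rfl⟩ := hw
      exact ⟨hW Y a1 Z a2, a1.1.br a3, fun t => AddSubgroup.subset_closure ⟨_, Z, a1.smul t, a2, a3,
        by rw [smul_sub, smul_mul_assoc, mul_smul_comm]⟩⟩
    | zero => exact ⟨zero_mem _, Li.zero, fun t => by simp⟩
    | add A B _ _ hA hB =>
      exact ⟨add_mem hA.1 hB.1, hA.2.1.add hB.2.1, fun t => by
        rw [smul_add]; exact add_mem (hA.2.2 t) (hB.2.2 t)⟩
    | neg A _ hA => exact ⟨neg_mem hA.1, hA.2.1.neg, fun t => by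
        rw [smul_neg]; exact neg_mem (hA.2.2 t)⟩
  have w2 := gen h (br_nor (Submodule.span E (AddSubgroup.closure S :
      Set (Module.End E (OctL E a b c))))) fun Y hY Z hZ => by
    induction hZ using Submodule.span_induction with
    | mem Z hZ => exact Submodule.subset_span (AddSubgroup.subset_closure
        ⟨Y, Z, hY, (w1 Z hZ).1, (w1 Z hZ).2.1, rfl⟩)
    | zero => simp
    | add A B _ _ hA hB =>
      convert add_mem hA hB using 1
      noncomm_ring
    | smul t A _ hA =>
      rw [mul_smul_comm, smul_mul_assoc, ← smul_sub]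
      exact Submodule.smul_mem _ _ hA
  obtain ⟨Y, y1, y2⟩ : ∃ Y, P.Good Y ∧ Y * X0 - X0 * Y ≠ 0 := by
    by_contra hn
    push Not at hn
    exact h2 ((ob_bl _ _ _).sk_zero (h1.sk h)
      (gen h (br_cen X0) fun Y hY => (sub_eq_zero.1 (hn Y hY)).symm))
  exact (w1 X (descent h (fun w hw => (w1 w hw).2.1) (fun t w hw => (w1 w hw).2.2 t)
    ((ob_bl _ _ _).simple w2 (Submodule.subset_span (AddSubgroup.subset_closure
      ⟨Y, X0, y1, h0, h1, rfl⟩)) ((y1.1.br h1).sk h) y2 (hX.sk h)) hX)).1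

end Pm

end Vale.Agent.P011ND
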