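import Vale.Agent.P011ND.E6s
import Vale.Agent.P011NE.Ani
import Vale.Agent.P011.H500.Rl.Sgl
import Vale.Agent.P011.H500.Rl.Trp
import Vale.Agent.P011.H327.Star.Fin
import Vale.Agent.P011.E6W.H964.N0
import Vale.Agent.P011.E6X.Her
import Vale.Agent.P011.H138.Rl.EmbG

/-!
The outer groups of type `E₆`: irreducibility of the Lie algebra.
-/

open Matrix

namespace Vale.Agent.P011ND

open Vale.Agent.P011 Vale.Agent.P011.MPQ Vale.Agent.P011.D4 Vale.Agent.P011.D4.Oct
open Vale.Agent.P011.E6 Vale.Agent.P011.E6.Alb Vale.Agent.P011.E6O Vale.Agent.P011.H500.Rl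
open Vale.Agent.P011.H327.Star hiding star
open Vale.Agent.P011.E6H (IsSextic IsForm)
open Vale.Agent.P011.E6W.H964 (Xm Xm_mul Sy Gm conj_trip)
open Vale.Agent.P011.E6X.H493 (her_add_left her_smul_left)

section alg

variable {F : Type} [Field F] {a b c : Fˣ}

/-- The quadratic term. -/
def ZZ (y : Matrix (Fin 3) (Fin 3) F) : Module.End F (Alb a b c) where
  toFun v := ofMV (Xm a b 0 y * mat v * (Xm a b 0 y)ᴴ) 0
  map_add' u v := by rw [← ofMV_add, mat_add, Matrix.mul_add, Matrix.add_mul, add_zero]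
  map_smul' t v := by
    rw [RingHom.id_apply, ← ofMV_smul, mat_smul, Matrix.mul_smul, Matrix.smul_mul, smul_zero]

theorem cay_act (y : Matrix (Fin 3) (Fin 3) F) (t : F) (v : Alb a b c) :
    (1 + t • DD y + (t * t) • ZZ y : Module.End F (Alb a b c)) v =
      actM (Xm a b 1 (t • y)) (Xm a b 1 (-(t • y))) v := by
  have := act_expand v (t • (0, y))
  rw [map_smul, map_smul (F2 v), LinearMap.smul_apply, map_smul, smul_smul] at this
  refine Eq.trans this.symm ?_
  simp [xm, ng]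

theorem actM_mul [NeZero (2 : F)] (m m' n n' : Matrix (Fin 3) (Fin 3) (Qt a b)) (v : Alb a b c) :
    actM m m' (actM n n' v) = actM (m * n) (n' * m') v := by
  rw [actM, actM, actM, H64.mat_ofMV two_ne_zero (H64.conj_isHermitian (H64.mat_isHermitian v) n),
    H64.vec_ofMV, vecMul_vecMul, conjTranspose_mul]
  simp only [Matrix.mul_assoc]

theorem det_ne [NeZero (2 : F)] {y : Matrix (Fin 3) (Fin 3) F} (h : ∀ v : Alb a b c,
    actM (Xm a b 1 (-y)) (Xm a b 1 y) v = 0 → v = 0) : (Dl y (b : F)).det ≠ 0 := by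
  intro h0
  obtain ⟨w, hw, h1⟩ := Matrix.exists_vecMul_eq_zero_iff.2 h0
  have e : ∀ x y i, vecMul (fun i => (⟨w i, 0, 0, 0⟩ : Qt a b)) (Xm a b x y) i =
      ⟨vecMul w x i, 0, vecMul w y i, 0⟩ := fun x y i => by
    ext <;> simp [vecMul, dotProduct, Fin.sum_univ_three, Xm]
  have h2 := congrArg Alb.vec (h (ofMV 0 (vecMul (fun i => (⟨w i, 0, 0, 0⟩ : Qt a b))
    (Xm a b 1 (-y)))) (by
      rw [actM, H64.mat_ofMV two_ne_zero isHermitian_zero, H64.vec_ofMV, vecMul_vecMul, Xm_mul, Matrix.mul_zero,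
        Matrix.zero_mul]
      simp only [Matrix.one_mul, Matrix.mul_one, Matrix.neg_mul, smul_neg, ← sub_eq_add_neg]
      rw [funext (e _ _), ← Dl, h1]
      ext1 <;> simp [ofMV] <;> rfl))
  rw [H64.vec_ofMV] at h2
  refine hw (funext fun i => ?_)
  have := congrArg QuaternionAlgebra.re ((e _ _ i).symm.trans (congrFun h2 i))
  fin_cases i <;> simpa [Alb.vec] using this

theorem cay_eq {y : Matrix (Fin 3) (Fin 3) F} (hd : (Dl y (b : F)).det ≠ 0) :
    Xm a b (xc y b) (yc y b) * Xm a b 1 (-y) = Xm a b 1 y ∧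
      Xm a b 1 y * Xm a b (xc y b) (-yc y b) = Xm a b 1 (-y) := by
  have hu : (Dl y (b : F))⁻¹ * (1 - (b : F) • (y * y)) = 1 := nonsing_inv_mul _ (Ne.isUnit hd)
  have h1 := (Dli_comm hd).symm
  have h2 : y * ((Dl y (b : F))⁻¹ * y) = (Dl y (b : F))⁻¹ * (y * y) := by
    rw [← Matrix.mul_assoc, h1, Matrix.mul_assoc]
  rw [Matrix.mul_sub, Matrix.mul_smul, Matrix.mul_one] at hu
  constructor <;> rw [Xm_mul] <;> congr 1 <;>
    simp only [xc, yc, Matrix.mul_sub, Matrix.sub_mul, Matrix.mul_smul, Matrix.smul_mul, h1, h2,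
      Matrix.mul_neg, Matrix.mul_one, Matrix.one_mul, Matrix.mul_assoc]
  · linear_combination (norm := module) (2 : F) • hu
  · module
  · linear_combination (norm := module) (2 : F) • hu
  · module

theorem six_mapE {a' b' c' : Fˣ} {f : Oct a' b' c' ≃ₗ[F] Oct a b c} [NeZero (2 : F)]
    (hf : ∀ x y, f (x * y) = f x * f y) (u1 u2 u3 v1 v2 v3 : Oct a' b' c') :
    (mapE f).conjAlgEquiv F (six u1 u2 u3 v1 v2 v3) =
      six (f u1) (f u2) (f u3) (f v1) (f v2) (f v3) := by
  refine LinearMap.ext ((mapE f).surjective.forall.2 fun v => ?_)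
  rw [LinearEquiv.conjAlgEquiv_apply, LinearMap.comp_apply, LinearMap.comp_apply,
    LinearEquiv.coe_coe, LinearEquiv.coe_coe, LinearEquiv.symm_apply_apply]
  simp only [six_apply, mapE_apply, omapA, ← hom_star hf, hom_bil hf, map_add, map_smul, ← hf]

end alg

variable {k E : Type} [Field k] [Field E] [Algebra k E] {ρ σ : E ≃ₐ[k] E} {lam : Eˣ}
  {g : Fin 3 → Eˣ} {kap a b c : kˣ}

variable (ρ σ lam g) in
/-- The Lie algebra. -/
def LiE (X : Module.End E (AlbL E a b c)) : Prop :=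
  Dr X ∧ (∀ x, X (ph ρ lam x) = ph ρ lam (X x)) ∧ ∀ x y, her σ g (X x) y + her σ g x (X y) = 0

variable (ρ σ lam g) in
/-- The direction of a rational curve. -/
def CvE (Y : Module.End E (AlbL E a b c)) : Prop :=
  ∃ Z : Module.End E (AlbL E a b c), ∀ t : k,
    IsUnit (1 - algebraMap k E t • Y + (algebraMap k E t * algebraMap k E t) • Z) →
      ∃ φ ∈ GO ρ σ lam g a b c, φ.toLinearMap *
        (1 - algebraMap k E t • Y + (algebraMap k E t * algebraMap k E t) • Z) =
          1 + algebraMap k E t • Y + (algebraMap k E t * algebraMap k E t) • Z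

variable (ρ σ lam g) in
/-- The sum of root operators attached to `e`. -/
def yy (e : E) (q : OctL E a b c) : Module.End E (AlbL E a b c) :=
  six (ρ e • q) ((lam * ρ (ρ e)) • q) (e • q) ((g 1 / g 2 * σ (ρ e)) • q)
    ((g 2 / g 0 * σ (lam * ρ (ρ e))) • q) ((g 0 / g 1 * σ e) • q)

theorem her_add_right (x y z : AlbL E a b c) :
    her σ g x (y + z) = her σ g x y + her σ g x z := by
  rw [her, her, her, amap_add, tf_add_right]

theorem her_smul_right (t : E) (x y : AlbL E a b c) :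
    her σ g x (t • y) = σ t * her σ g x y := by
  rw [her, her, amap_smul, tf_smul_right]

theorem rho_g (hg : IsForm ρ σ lam g) : ∃ s : E, s ≠ 0 ∧ ρ (g 0) = g 1 / s ∧ ρ (g 1) = g 2 / s ∧
    ρ (g 2) = g 0 / (lam * σ lam * s) := by
  obtain ⟨s, -, g1, g2, g0⟩ := hg.rel
  have hs : s ≠ 0 := fun h => (g 1).ne_zero (by rw [g1, h, zero_mul])
  have hl : σ lam ≠ 0 := by simp
  refine ⟨s, hs, ?_, ?_, ?_⟩ <;> rw [eq_div_iff (by simp [hs]), mul_comm, eq_comm] <;> assumption

variable [NumberField k] [NumberField E]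

omit [NumberField k] in
theorem cv_DD {y : Matrix (Fin 3) (Fin 3) E} (hy : InD0 ρ lam y) (hs : Sy σ g y) :
    CvE ρ σ lam g (DD y : Module.End E (AlbL E a b c)) := by
  refine ⟨ZZ y, fun t ht => ?_⟩
  have e := cay_act (a := up E a) (b := up E b) (c := up E c) y (-algebraMap k E t)
  simp only [neg_smul, neg_neg, neg_mul_neg, ← sub_eq_add_neg] at e
  have hd := det_ne fun v hv => ((Module.End.isUnit_iff _).1 ht).1 (by rw [e, hv, map_zero])
  obtain ⟨φ, h1, h2⟩ := exists_cay (a := a) (c := c) (inD0_smul (ρ.commutes t) hy)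
    (Sy_smul (σ.commutes t) hs) hd
  refine ⟨φ, h1, LinearMap.ext fun v => ?_⟩
  rw [Module.End.mul_apply, e, cay_act, LinearEquiv.coe_coe, h2, act_eq, actM_mul]
  exact congrArg₂ (actM · · v) (cay_eq hd).1 (cay_eq hd).2

theorem CvE.trip {a' b' c' : kˣ} {i j l : Oct a b c} (T : Trip a' b' c' i j l)
    {Y : Module.End E (AlbL E a' b' c')} (hY : CvE ρ σ lam g Y) :
    CvE ρ σ lam g ((tripA E T).conjAlgEquiv E Y) := by
  set C := (tripA E T).conjAlgEquiv E with hC
  obtain ⟨Z, h2⟩ := hY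
  refine ⟨C Z, fun t ht => ?_⟩
  have e1 : ∀ s : E, 1 - s • C Y + (s * s) • C Z = C (1 - s • Y + (s * s) • Z) := fun s => by
    rw [map_add, map_sub, map_one, map_smul, map_smul]
  rw [e1] at ht ⊢
  obtain ⟨φ, g1, g3⟩ := h2 t (by simpa using ht.map C.symm)
  refine ⟨_, conj_trip T g1, (map_mul C φ.toLinearMap _).symm.trans ?_⟩
  rw [g3, map_add, map_add, map_one, map_smul, map_smul]

theorem cv_yy (hS : IsSextic ρ σ kap) (hg : IsForm ρ σ lam g) (e : E) {m : Fin 8} (hm : m ≠ 0) :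
    CvE ρ σ lam g (yy ρ σ lam g e (H24.ob m : OctL E a b c)) := by
  obtain ⟨a', b', c', i, j, l, T, hj⟩ := exists_trip_ob (F := k) (a := a) (b := b) (c := c) m hm
  obtain ⟨s, hs, g0, g1, g2⟩ := rho_g hg
  have hl : σ lam ≠ 0 := by simp
  have h := CvE.trip T (cv_DD (ρ := ρ) (σ := σ) (lam := lam) (g := g)
    (y := !![0, e, g 2 / g 0 * σ (lam * ρ (ρ e)); g 0 / g 1 * σ e, 0, ρ e;
      lam * ρ (ρ e), g 1 / g 2 * σ (ρ e), 0]) ?_ ?_)
  · convert h using 1
    have h1 : tripO E T gj = H24.ob m := by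
      rw [tripO_apply, ← H24.oup_ob, ← hj]
      simp [emb, qemb, gj]
    rw [yy, ← h1, tripA]
    simp only [← map_smul]
    rw [← six_mapE (tripO_mul T)]
    congr 1
    refine (six_smul ![_, _, _, _, _, _] _ _ _ _ _ _).trans ?_
    simp only [Fin.sum_univ_six, ← P1_eq, ← P2_eq, ← P3_eq, ← M1_eq, ← M2_eq, ← M3_eq, ← DD_P1,
      ← DD_P2, ← DD_P3, ← DD_M1, ← DD_M2, ← DD_M3]
    simp only [Matrix.cons_val, ← DD_smul, ← DD_add]
    congr 1
    ext i j
    fin_cases i <;> fin_cases j <;> simp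
  · ext i j
    fin_cases i <;> fin_cases j <;>
      simp [um, Matrix.mul_apply, Fin.sum_univ_three, hS.ρ3, hg.ρlam, hS.comm, g0, g1, g2] <;>
      field_simp
    simp
  · ext i j
    fin_cases i <;> fin_cases j <;> simp [Gm, hS.σ2, hg.σg] <;> field_simp

omit [NumberField k] [NumberField E] in
theorem li_yy (hS : IsSextic ρ σ kap) (hg : IsForm ρ σ lam g) (e : E) {q : OctL E a b c}
    (h1 : star q = -q) (h2 : omap ρ q = q) (h3 : omap σ q = q) :
    LiE ρ σ lam g (yy ρ σ lam g e q) := by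
  obtain ⟨s, hs, g0, g1, g2⟩ := rho_g hg
  have hl : σ lam ≠ 0 := by simp
  refine ⟨dr_six _ _ _ _ _ _, fun x => ?_, fun x y => ?_⟩
  · have k : ∀ v, ρ (bil q v) = bil q (omap ρ v) := fun v => by rw [← bil_om, h2]
    ext1 <;> simp only [yy, six_apply, ph, star_smul_oct, h1, bil_smul_left, bil_smul_right,
      bil_neg_left, map_add, map_mul, map_neg, k, omap_add, omap_smul, omap_star, omap_mul, h2,
      smul_mul_oct, mul_smul_oct, smul_neg, omap_neg, map_div₀, hS.ρ3, hg.ρlam, hS.comm, g0, g1, g2,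
      Units.val_inv_eq_inv_val]
    iterate 3 field_simp
    all_goals match_scalars <;> field_simp
  · have k : ∀ v, σ (bil q v) = bil q (omap σ v) := fun v => by rw [← bil_om, h3]
    have k1 : ∀ u v : OctL E a b c, bil (star (q * u)) v = -bil u (q * star v) := fun u v => by
      rw [bil_star_left, bil_mul_left, h1, neg_mul, bil_neg_right]
    have k2 : ∀ u v : OctL E a b c, bil u (star (q * v)) = -bil (q * star u) v := fun u v => by
      rw [bil_comm, k1, bil_comm]
    simp only [her, tf, wt, amap, yy, six_apply, star_smul_oct, h1, bil_smul_left, bil_smul_right,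
      bil_neg_left, bil_neg_right, bil_add_left, bil_add_right, map_add, map_mul, map_neg, k,
      omap_add, omap_smul, omap_star, omap_mul, h3, smul_mul_oct, smul_neg, omap_neg, map_div₀,
      hS.σ2, hg.σg, k1, k2, bil_comm _ q, mul_smul_oct]
    field_simp
    ring

omit [NumberField k] [NumberField E] in
theorem LiE.add {X Y : Module.End E (AlbL E a b c)} (hX : LiE ρ σ lam g X) (hY : LiE ρ σ lam g Y) :
    LiE ρ σ lam g (X + Y) := by
  refine ⟨hX.1.add hY.1, fun x => ?_, fun x y => ?_⟩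
  · simp only [LinearMap.add_apply, hX.2.1, hY.2.1, ph_add]
  · simp only [LinearMap.add_apply, her_add_left, her_add_right]
    linear_combination hX.2.2 x y + hY.2.2 x y

omit [NumberField k] [NumberField E] in
theorem LiE.smul {X : Module.End E (AlbL E a b c)} (hX : LiE ρ σ lam g X) (t : k) :
    LiE ρ σ lam g (algebraMap k E t • X) := by
  refine ⟨hX.1.smul _, fun x => ?_, fun x y => ?_⟩
  · simp only [LinearMap.smul_apply, hX.2.1, ph_smul, AlgEquiv.commutes]
  · simp only [LinearMap.smul_apply, her_smul_left, her_smul_right, AlgEquiv.commutes]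
    linear_combination algebraMap k E t * hX.2.2 x y

omit [NumberField k] in
theorem LiE.br {X Y : Module.End E (AlbL E a b c)} (hX : LiE ρ σ lam g X) (hY : LiE ρ σ lam g Y) :
    LiE ρ σ lam g (X * Y - Y * X) := by
  have h : X * Y - Y * X = X * Y + (-1 : E) • (Y * X) := by module
  refine ⟨hX.1.brk hY.1, fun x => ?_, fun x y => ?_⟩ <;> rw [h]
  · simp only [LinearMap.add_apply, LinearMap.smul_apply, Module.End.mul_apply, hX.2.1, hY.2.1,
      ph_add, ph_smul, map_neg, map_one]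
  · simp only [LinearMap.add_apply, LinearMap.smul_apply, Module.End.mul_apply, her_add_left,
      her_add_right, her_smul_left, her_smul_right, map_neg, map_one]
    linear_combination hX.2.2 (Y x) y - hY.2.2 (X x) y + hX.2.2 x (Y y) - hY.2.2 x (X y)

omit [NumberField k] [NumberField E] in
theorem CvE.smul {Y : Module.End E (AlbL E a b c)} (hY : CvE ρ σ lam g Y) (s : k) :
    CvE ρ σ lam g (algebraMap k E s • Y) := by
  obtain ⟨Z, h2⟩ := hY
  refine ⟨(algebraMap k E s * algebraMap k E s) • Z, fun t => ?_⟩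
  have := h2 (t * s)
  rwa [map_mul, mul_smul _ _ Y, mul_mul_mul_comm, mul_smul _ _ Z] at this

variable (hS : IsSextic ρ σ kap) (hg : IsForm ρ σ lam g)

include hS hg

/-- **Generation.** -/
theorem genE {N : Submodule E (Module.End E (AlbL E a b c))} (hB : Br N)
    (hN : ∀ Y, LiE ρ σ lam g Y → CvE ρ σ lam g Y → Y ∈ N) {X : Module.End E (AlbL E a b c)}
    (hX : Dr X) : X ∈ N := by
  obtain ⟨θ, h1, h2, h3⟩ := hS.sq
  have h0 : 2 * θ ≠ 0 := mul_ne_zero two_ne_zero fun h =>
    (map_ne_zero _).2 kap.ne_zero (by rw [← h1, h, sq, mul_zero])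
  obtain ⟨w, hw⟩ := hS.hρ
  have n1 : ρ (ρ w) ≠ ρ w := ρ.injective.ne hw
  have n2 : w ≠ ρ (ρ w) := by simpa only [hS.ρ3] using ρ.injective.ne n1
  have hc : Function.Injective ![ρ w, ρ (ρ w), w] := fun i j h => by
    fin_cases i <;> fin_cases j
    exacts [rfl, (n1 h.symm).elim, (hw h).elim, (n1 h).elim, rfl, (n2 h.symm).elim,
      (hw h.symm).elim, (n2 h).elim, rfl]
  have key : ∀ m : Fin 8, m ≠ 0 → Has N (H24.ob m) := fun m hm => by
    have k0 := fun e => hN _ (li_yy hS hg e (q := H24.ob m)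
      (star_neg_of_pure (by fin_cases m <;> simp [bil_eq, H24.ob] at hm ⊢))
      (by rw [← H24.oup_ob, omap_oup]) (by rw [← H24.oup_ob, omap_oup])) (cv_yy hS hg e hm)
    generalize (H24.ob m : OctL E a b c) = q at k0
    have k1 := fun e => (six_smul ![_, _, _, _, _, _] q q q q q q).subst
      (motive := fun Y => Y ∈ N) (k0 e)
    simp only [Fin.sum_univ_six, Matrix.cons_val] at k1
    have a1 := fun i => vand (U := N) hc Finset.univ ![P1 q, (lam : E) • P2 q, P3 q] (fun n => by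
      refine (N.smul_mem_iff h0).1 ?_
      convert add_mem (N.smul_mem θ (k1 (w ^ n))) (k1 (θ * w ^ n)) using 1
      simp only [Fin.sum_univ_three, Matrix.cons_val, map_mul, map_pow, h2, h3]
      module) i (Finset.mem_univ _)
    have a2 := fun i => vand (U := N) (σ.injective.comp hc) Finset.univ
      ![(g 1 / g 2 : E) • M1 q, (g 2 / g 0 * σ lam : E) • M2 q, (g 0 / g 1 : E) • M3 q] (fun n => by
      refine (N.smul_mem_iff h0).1 ?_
      convert sub_mem (N.smul_mem θ (k1 (w ^ n))) (k1 (θ * w ^ n)) using 1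
      simp only [Fin.sum_univ_three, Matrix.cons_val, map_mul, map_pow, h2, h3, Function.comp]
      module) i (Finset.mem_univ _)
    exact ⟨a1 0, (N.smul_mem_iff lam.ne_zero).1 (a1 1), a1 2, (N.smul_mem_iff (by simp)).1 (a2 0),
      (N.smul_mem_iff (by simp)).1 (a2 1), (N.smul_mem_iff (by simp)).1 (a2 2)⟩
  refine star_main hB (fun q hq => ?_) hX
  have z := (key 1 (by decide)).lin (key 1 (by decide)) 0 0
  simp only [zero_smul, add_zero] at z
  rw [← H24.sum_oc q]
  refine Finset.sum_induction _ _ (fun u v hu hv => by simpa using hu.lin hv 1 1) z fun m _ => ?_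
  by_cases hm : m = 0
  · have : H24.oc q 0 = 0 := by simpa [bil_eq, H24.oc] using hq
    rwa [hm, this, zero_smul]
  · simpa using (key m hm).lin z _ 0

omit [NumberField k] [NumberField E] hg in
theorem her_nd {y : AlbL E a b c} [NeZero (2 : E)] :
    ((∀ x, her σ g y x = 0) → y = 0) ∧ ((∀ x, her σ g x y = 0) → y = 0) := by
  refine ⟨fun h => H408.wt_inj (g := g) ?_, fun h => H408.amap_inj hS.σ2 (H408.wt_inj (g := g) ?_)⟩
  · rw [wt_zero]
    exact eq_zero_of_tf fun z => by rw [← h (amap σ z), her, amap_amap σ hS.σ2]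
  · rw [amap_zero, wt_zero]
    exact eq_zero_of_tf fun z => by rw [← h z, H408.her_eq, tf_comm]

theorem descE {W : AddSubgroup (Module.End E (AlbL E a b c))}
    (hW : ∀ w ∈ W, LiE ρ σ lam g w) (hk : ∀ t : k, ∀ w ∈ W, algebraMap k E t • w ∈ W)
    {X : Module.End E (AlbL E a b c)} (hX : X ∈ Submodule.span E (W : Set _))
    (hL : LiE ρ σ lam g X) : X ∈ W := by
  obtain ⟨n, e, w, h⟩ := Submodule.mem_span_set'.1 hX
  have l : ∀ i, LiE ρ σ lam g (w i).1 := fun i => hW _ (w i).2
  have r1 : ∀ e : Fin n → E, ∑ i, e i • (w i).1 = X → ∑ i, ρ (e i) • (w i).1 = X := fun e h => by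
    have h1 : ∀ x, (∑ i, ρ (e i) • (w i).1) (ph ρ lam x) = X (ph ρ lam x) := fun x => by
      rw [hL.2.1, ← h, LinearMap.sum_apply, LinearMap.sum_apply]
      refine Eq.symm ((map_sum (AddMonoidHom.mk' (ph ρ lam) ph_add) _ _).trans ?_)
      exact Finset.sum_congr rfl fun i _ => (ph_smul _ _).trans (by rw [← (l i).2.1]; rfl)
    refine LinearMap.ext fun x => smul_right_injective _ lam.ne_zero ?_
    simpa only [Ani.ph3 hS.ρ3 hg.ρlam, map_smul] using h1 (ph ρ lam (ph ρ lam x))
  have r2 : ∑ i, σ (e i) • (w i).1 = X := by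
    refine LinearMap.ext fun x => sub_eq_zero.1 ((her_nd hS (g := g)).1 fun y => ?_)
    have h1 := hL.2.2 x y
    nth_rewrite 2 [← h] at h1
    rw [LinearMap.sum_apply] at h1 ⊢
    have h2 := map_sum (AddMonoidHom.mk' (her σ g x) (her_add_right x)) fun i => (e i • (w i).1) y
    have h3 := map_sum (AddMonoidHom.mk' (her σ g · y) (her_add_left · · y))
      fun i => (σ (e i) • (w i).1) x
    simp only [AddMonoidHom.mk'_apply, LinearMap.smul_apply, her_smul_left, her_smul_right]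
      at h1 h2 h3 ⊢
    rw [sub_eq_add_neg, ← neg_one_smul E, her_add_left, her_smul_left, h3,
      eq_neg_of_add_eq_zero_left h1, h2, mul_neg, neg_mul, one_mul, neg_neg,
      ← Finset.sum_add_distrib]
    exact Finset.sum_eq_zero fun i _ => by rw [← mul_add, (l i).2.2, mul_zero]
  have : IsGalois k E := IsGalois.of_card_aut_eq_finrank k E
    ((H138.Rl.closure_eq_top hS).2.trans hS.h6.symm)
  have h6 : ∀ i, ∃ t : k, algebraMap k E t = 6⁻¹ * (e i + ρ (e i) + ρ (ρ (e i)) +
      (σ (e i) + ρ (σ (e i)) + ρ (ρ (σ (e i))))) := fun i => by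
    refine (IsGalois.mem_range_algebraMap_iff_fixed _).2 fun f => ?_
    have hf : f ∈ Subgroup.closure {ρ, σ} := (H138.Rl.closure_eq_top hS).1 ▸ Subgroup.mem_top f
    refine (Subgroup.closure_le (K := MulAction.stabilizer _ _)).2 ?_ hf
    rintro _ (rfl | rfl) <;> change _ = _ <;>
      simp only [AlgEquiv.smul_def, map_mul, map_add, map_inv₀, map_ofNat, hS.ρ3, ← hS.comm,
        hS.σ2] <;> ring
  choose t ht using h6
  convert sum_mem fun i (_ : i ∈ Finset.univ) => hk (t i) _ (w i).2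
  simp only [ht, mul_smul, add_smul, ← Finset.smul_sum, Finset.sum_add_distrib, h, r1 _ h,
    r1 _ (r1 _ h), r2, r1 _ r2, r1 _ (r1 _ r2)]
  match_scalars
  norm_num

/-- **Irreducibility.** -/
theorem irrE {W : AddSubgroup (Module.End E (AlbL E a b c))}
    (hW : ∀ Y, CvE ρ σ lam g Y → ∀ X ∈ W, Y * X - X * Y ∈ W) {X0 : Module.End E (AlbL E a b c)}
    (h0 : X0 ∈ W) (h1 : LiE ρ σ lam g X0) (h2 : X0 ≠ 0) {X : Module.End E (AlbL E a b c)}
    (hX : LiE ρ σ lam g X) : X ∈ W := by
  set S : Set (Module.End E (AlbL E a b c)) := {Z | ∃ Y X, LiE ρ σ lam g Y ∧ CvE ρ σ lam g Y ∧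
    X ∈ W ∧ LiE ρ σ lam g X ∧ Z = Y * X - X * Y} with hS'
  have w1 : ∀ w ∈ AddSubgroup.closure S, w ∈ W ∧ LiE ρ σ lam g w ∧
      ∀ t : k, algebraMap k E t • w ∈ AddSubgroup.closure S := fun w hw => by
    induction hw using AddSubgroup.closure_induction with
    | mem w hw =>
      obtain ⟨Y, Z, a0, a1, a2, a3, rfl⟩ := hw
      exact ⟨hW Y a1 Z a2, a0.br a3, fun t => AddSubgroup.subset_closure ⟨_, Z, a0.smul t,
        a1.smul t, a2, a3, by rw [smul_sub, smul_mul_assoc, mul_smul_comm]⟩⟩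
    | zero => exact ⟨zero_mem _, by simpa using h1.smul 0, fun t => by simp⟩
    | add A B _ _ hA hB =>
      exact ⟨add_mem hA.1 hB.1, hA.2.1.add hB.2.1, fun t => by
        rw [smul_add]; exact add_mem (hA.2.2 t) (hB.2.2 t)⟩
    | neg A _ hA => exact ⟨neg_mem hA.1, by simpa using hA.2.1.smul (-1), fun t => by
        rw [smul_neg]; exact neg_mem (hA.2.2 t)⟩
  have w2 := fun Z => genE hS hg (X := Z) (br_nor (Submodule.span E (AddSubgroup.closure S :
      Set (Module.End E (AlbL E a b c))))) fun Y hY hY' Z hZ => by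
    induction hZ using Submodule.span_induction with
    | mem Z hZ => exact Submodule.subset_span (AddSubgroup.subset_closure
        ⟨Y, Z, hY, hY', (w1 Z hZ).1, (w1 Z hZ).2.1, rfl⟩)
    | zero => simp
    | add A B _ _ hA hB =>
      convert add_mem hA hB using 1
      noncomm_ring
    | smul t A _ hA =>
      rw [mul_smul_comm, smul_mul_assoc, ← smul_sub]
      exact Submodule.smul_mem _ _ hA
  obtain ⟨Y, y1, y2, y3⟩ : ∃ Y, LiE ρ σ lam g Y ∧ CvE ρ σ lam g Y ∧ Y * X0 - X0 * Y ≠ 0 := by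
    by_contra hn
    push Not at hn
    exact h2 (dr_zero h1.1 fun Z => genE hS hg (br_cen X0) fun Y hY hY' =>
      (sub_eq_zero.1 (hn Y hY hY')).symm)
  exact (w1 X (descE hS hg (fun w hw => (w1 w hw).2.1) (fun t w hw => (w1 w hw).2.2 t)
    (dr_simple w2 (Submodule.subset_span (AddSubgroup.subset_closure
      ⟨Y, X0, y1, y2, h0, h1, rfl⟩)) (y1.br h1).1 y3 hX.1) hX)).1

end Vale.Agent.P011ND
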