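import Vale.Agent.P011NM.Link
import Vale.Agent.P011.D4.Emb

/-!
The Cayley curve in the norm one group of a quaternion algebra, and an involution of the octonion
algebra which inverts it.
-/

open NumberField

namespace Vale.Agent.P011ND

open Vale.Agent.P011 Vale.Agent.P011.MPQ Vale.Agent.P011.D4 Vale.Agent.P011.D4.Oct
open Vale.Agent.P011.D4.B.FI

variable {k : Type} [Field k] {a b : kˣ}

theorem den_ne (hab : Aniso a b) (t : k) : 1 - b * t ^ 2 ≠ 0 := fun h => by
  have := congrArg QuaternionAlgebra.re (hab ⟨1, 0, t, 0⟩ (by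
    simp only [nrd]
    linear_combination h))
  simp at this

/-- The Cayley curve. -/
def cj (hab : Aniso a b) (t : k) : SL1 a b :=
  H24.mkSL ⟨(1 + b * t ^ 2) / (1 - b * t ^ 2), 0, 2 * t / (1 - b * t ^ 2), 0⟩ (by
    have := den_ne hab t
    simp only [nrd]
    field_simp
    ring)

theorem cj_val (hab : Aniso a b) (t : k) : ((cj hab t : (Qt a b)ˣ) : Qt a b) =
    ⟨(1 + b * t ^ 2) / (1 - b * t ^ 2), 0, 2 * t / (1 - b * t ^ 2), 0⟩ := rfl

theorem cj_mul (hab : Aniso a b) (t : k) : ((cj hab t : (Qt a b)ˣ) : Qt a b) *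
    (1 - t • ⟨0, 0, 1, 0⟩) = 1 + t • ⟨0, 0, 1, 0⟩ := by
  have := den_ne hab t
  rw [cj_val]
  ext <;> simp <;> field_simp <;> ring

theorem center_im [CharZero k] (hab : Aniso a b) {x : SL1 a b} (hx : x ∈ Subgroup.center _) :
    ((x : (Qt a b)ˣ) : Qt a b).imI = 0 ∧ ((x : (Qt a b)ˣ) : Qt a b).imJ = 0 ∧
      ((x : (Qt a b)ˣ) : Qt a b).imK = 0 := by
  have h1 := one_sub_ne hab 1
  have h2 := den_ne hab 1
  rw [one_pow, mul_one] at h1 h2
  have n1 : nrd (⟨(1 + a) / (1 - a), 2 / (1 - a), 0, 0⟩ : Qt a b) = 1 := by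
    simp only [nrd]
    field_simp
    ring
  have hct := Subgroup.mem_center_iff.1 hx
  have c1 := congrArg (fun x : SL1 a b => ((x : (Qt a b)ˣ) : Qt a b)) (hct (cj hab 1))
  have c2 := congrArg (fun x : SL1 a b => ((x : (Qt a b)ˣ) : Qt a b)) (hct (H24.mkSL _ n1))
  simp only [Subgroup.coe_mul, Units.val_mul, H24.coe_mkSL, cj_val] at c1 c2
  have d1 := congrArg QuaternionAlgebra.imK c1
  have d2 := congrArg QuaternionAlgebra.imK c2
  have d3 := congrArg QuaternionAlgebra.imJ c2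
  simp at d1 d2 d3
  have u0 : (2 : k) / (1 - b) ≠ 0 := div_ne_zero two_ne_zero h2
  have v0 : (2 : k) / (1 - a) ≠ 0 := div_ne_zero two_ne_zero h1
  exact ⟨mul_left_cancel₀ (mul_ne_zero two_ne_zero u0) (by linear_combination -d1),
    mul_left_cancel₀ (mul_ne_zero two_ne_zero v0) (by linear_combination d2),
    mul_left_cancel₀ (mul_ne_zero two_ne_zero (mul_ne_zero a.ne_zero v0))
      (by linear_combination d3)⟩

theorem cj_nc [CharZero k] (hab : Aniso a b) {t : k} (ht : t ≠ 0) :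
    cj hab t ∉ Subgroup.center _ := fun h =>
  div_ne_zero (mul_ne_zero two_ne_zero ht) (den_ne hab t) (center_im hab h).2.1

theorem tr_int [CharZero k] (hab : Aniso a b) {x : SL1 a b} {e : ℕ} (he : e ≠ 0)
    (hx : x ^ e ∈ Subgroup.center _) : IsIntegral ℤ (2 * ((x : (Qt a b)ˣ) : Qt a b).re) := by
  obtain ⟨h1, h2, h3⟩ := center_im hab hx
  have h4 : nrd (((x ^ e : SL1 a b) : (Qt a b)ˣ) : Qt a b) = 1 := (x ^ e).2
  rw [Subgroup.coe_pow, Units.val_pow_eq_pow_val] at h1 h2 h3 h4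
  set s := ((x : (Qt a b)ˣ) : Qt a b) with hs
  obtain ⟨n, hn⟩ : ∃ n, e + e = n + 1 := ⟨e + e - 1, by omega⟩
  have h5 : s ^ (n + 1) = 1 := by
    rw [← hn, pow_add]
    simp only [nrd, h1, h2, h3] at h4
    ext <;> simp [h1, h2, h3]
    linear_combination h4
  have h6 : star s = s ^ n := by
    rw [← mul_one (star s), ← h5, pow_succ', ← mul_assoc, Em.SL1.star_mul, one_mul]
  have h7 : IsIntegral ℤ s := ⟨Polynomial.X ^ (n + 1) - 1,
    Polynomial.monic_X_pow_sub_C 1 n.succ_ne_zero, by simp [h5]⟩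
  have h8 := IsIntegral.of_mem_of_fg _ h7.fg_adjoin_singleton (s + s ^ n)
    (add_mem (Algebra.self_mem_adjoin_singleton ℤ s)
      (pow_mem (Algebra.self_mem_adjoin_singleton ℤ s) n))
  have h9 : s + s ^ n = algebraMap k (Qt a b) (2 * s.re) := by
    rw [← h6]
    ext <;> simp [two_mul]
  exact (isIntegral_algebraMap_iff (algebraMap k (Qt a b)).injective).1 (h9 ▸ h8)

/-- A point of infinite order on the Cayley curve. -/
theorem exists_inf [NumberField k] (hab : Aniso a b) :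
    ∃ t, ∀ e : ℕ, e ≠ 0 → cj hab t ^ e ∉ Subgroup.center _ := by
  by_contra hn
  push Not at hn
  set M := ∑ φ : k →+* ℂ, ‖φ b‖ with hM
  have hb : ∀ φ : k →+* ℂ, ‖φ b‖ ≤ M := fun φ =>
    Finset.single_le_sum (f := fun φ : k →+* ℂ => ‖φ b‖) (fun _ _ => norm_nonneg _)
      (Finset.mem_univ φ)
  obtain ⟨m, hm⟩ := exists_nat_ge M
  have hd : ∀ n : ℕ, ((n + m + 1 : ℕ) : k) ^ 2 - b ≠ 0 := fun n h => by
    have h0 : ((n + m + 1 : ℕ) : k) ≠ 0 := Nat.cast_ne_zero.2 (by omega)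
    refine den_ne hab ((n + m + 1 : ℕ) : k)⁻¹ ?_
    field_simp
    linear_combination h
  refine Set.infinite_of_injective_forall_mem
    (f := fun n : ℕ => 4 * (b : k) / (((n + m + 1 : ℕ) : k) ^ 2 - b)) (fun n n' h => ?_)
    (fun n => ?_) (Embeddings.finite_of_norm_le k ℂ (4 * M))
  · rw [div_eq_div_iff (hd n) (hd n')] at h
    have h1 := sub_left_injective (mul_left_cancel₀ (mul_ne_zero (by norm_num) b.ne_zero) h)
    have h2 : (n' + m + 1) ^ 2 = (n + m + 1) ^ 2 := by exact_mod_cast h1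
    have h3 := Nat.pow_left_injective two_ne_zero h2
    omega
  refine ⟨?_, fun φ => ?_⟩
  · obtain ⟨e, he, h1⟩ := hn ((n + m + 1 : ℕ) : k)⁻¹
    have h2 := (tr_int hab he h1).sub (isIntegral_algebraMap (R := ℤ) (x := 2))
    have h0 : ((n + m + 1 : ℕ) : k) ≠ 0 := Nat.cast_ne_zero.2 (by omega)
    have h3 := hd n
    rw [cj_val, map_ofNat] at h2
    refine Eq.subst (motive := fun x : k => IsIntegral ℤ x) ?_ h2
    field_simp
    ring
  · have h1 : (1 : ℝ) ≤ ‖((n + m + 1 : ℕ) : ℂ) ^ 2 - φ b‖ := by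
      refine le_trans ?_ (norm_sub_norm_le _ _)
      rw [norm_pow, Complex.norm_natCast]
      have h2 := hb φ
      have h3 : (0 : ℝ) ≤ n := n.cast_nonneg
      have h4 : (0 : ℝ) ≤ m := m.cast_nonneg
      push_cast
      nlinarith
    rw [map_div₀, map_mul, map_sub, map_pow, map_natCast, map_ofNat, norm_div, _root_.norm_mul,
      Complex.norm_ofNat]
    exact (div_le_self (by positivity) h1).trans (by linarith [hb φ])

/-- Conjugation by the first generator. -/
def ci (x : Qt a b) : Qt a b := ⟨x.re, x.imI, -x.imJ, -x.imK⟩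

theorem ci_mul (x y : Qt a b) : ci (x * y) = ci x * ci y := by ext <;> simp [ci] <;> ring

theorem ci_ci (x : Qt a b) : ci (ci x) = x := by ext <;> simp [ci]

variable (a b) in
/-- The involution. -/
def tau (c : kˣ) : fixI a b c :=
  ⟨⟨{ toFun := fun x => ⟨ci x.fst, ci x.snd⟩
      invFun := fun x => ⟨ci x.fst, ci x.snd⟩
      left_inv := fun x => Oct.ext (ci_ci _) (ci_ci _)
      right_inv := fun x => Oct.ext (ci_ci _) (ci_ci _)
      map_add' := fun x y => by apply ext8 <;> simp [ci, add_comm]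
      map_smul' := fun t x => by apply ext8 <;> simp [ci] }, fun x y => by
    apply ext8 <;> simp [ci] <;> ring⟩, by
    change (⟨ci _, ci _⟩ : Oct a b c) = gi
    apply ext8 <;> simp [ci, gi]⟩

theorem tau_apply (c : kˣ) (x : Oct a b c) : (tau a b c).1.1 x = ⟨ci x.fst, ci x.snd⟩ := rfl

theorem tau_sq (c : kˣ) : tau a b c * tau a b c = 1 :=
  Subtype.ext (Subtype.ext (LinearEquiv.ext fun _ => Oct.ext (ci_ci _) (ci_ci _)))

theorem tau_inv (hab : Aniso a b) (c : kˣ) (t : k) :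
    tau a b c * longI a b c (cj hab t) * (tau a b c)⁻¹ = (longI a b c (cj hab t))⁻¹ := by
  rw [← map_inv, mul_inv_eq_iff_eq_mul]
  refine Subtype.ext (Subtype.ext (LinearEquiv.ext fun x => Oct.ext rfl ?_))
  change ci (((cj hab t : (Qt a b)ˣ) : Qt a b) * x.snd) =
    star ((cj hab t : (Qt a b)ˣ) : Qt a b) * ci x.snd
  rw [ci_mul, cj_val]
  congr 1
  ext <;> simp [ci]

end Vale.Agent.P011ND
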