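import Vale.Agent.P011ND.Desc
import Vale.Agent.P011ND.Qc
import Vale.Agent.P011ND.Abs
import Vale.Agent.P011NT.Pls
import Vale.Agent.P011NT.Ani
import Vale.Agent.P011NM.Defs
import Vale.Agent.P011.D4X.H62.Aniso
import Vale.Agent.P011.D4X.H657.Bas

/-!
Trialitarian groups: a noncentral normal subgroup meets the long subgroup noncentrally.
-/

open NumberField

namespace Vale.Agent.P011ND

open Vale.Agent.P011 Vale.Agent.P011.MPQ Vale.Agent.P011.D4 Vale.Agent.P011.D4.Oct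
open Vale.Agent.P011.D4X Vale.Agent.P011.D4.Em Vale.Agent.P011.E6
open Vale.Agent.P011.D4Y (Im)
open Vale.Agent.P011.D4.B.FI (fixI longI fixI_top_of)

section rat

variable {E V M : Type} [Field E] [AddCommGroup V] [Module E V] [Module ℚ V] [AddCommGroup M]
  [Module ℚ M]

/-- A biadditive map, as a bilinear map. -/
def bi (f : V → V → M) (h1 : ∀ x y z, f (x + y) z = f x z + f y z)
    (h2 : ∀ x y z, f x (y + z) = f x y + f x z) : V →ₗ[ℚ] V →ₗ[ℚ] M :=
  (AddMonoidHom.mk' (fun x => (AddMonoidHom.mk' (f x) (h2 x)).toRatLinearMap)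
    fun x y => LinearMap.ext (h1 x y)).toRatLinearMap

variable (E V) in
/-- Restriction of scalars. -/
def rs : Module.End E V →+* Module.End ℚ V where
  toFun f := f.toAddMonoidHom.toRatLinearMap
  map_one' := rfl
  map_mul' _ _ := rfl
  map_zero' := rfl
  map_add' _ _ := rfl

theorem rs_apply (f : Module.End E V) (x : V) : rs E V f x = f x := rfl

theorem rs_inj : Function.Injective (rs E V) := fun _ _ h =>
  LinearMap.ext fun x => LinearMap.congr_fun h x

variable [NumberField E]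

theorem rs_smul (t : ℚ) (f : Module.End E V) : rs E V ((t : E) • f) = t • rs E V f :=
  LinearMap.ext fun x => Rat.cast_smul_eq_qsmul E t (f x)

theorem exists_rs {g : Module.End ℚ V}
    (h : ∀ n x, g (Module.finBasis ℚ E n • x) = Module.finBasis ℚ E n • g x) :
    ∃ f, rs E V f = g :=
  ⟨{ toFun := g
     map_add' := g.map_add
     map_smul' := fun t x => by
      rw [← (Module.finBasis ℚ E).sum_repr t]
      simp only [Finset.sum_smul, map_sum, smul_assoc, map_smul, h, RingHom.id_apply] }, rfl⟩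

theorem tr_zero {z : E} (h : ∀ n, Algebra.trace ℚ E (Module.finBasis ℚ E n * z) = 0) : z = 0 := by
  refine (traceForm_nondegenerate ℚ E).2 z fun y => ?_
  rw [Algebra.traceForm_apply, ← (Module.finBasis ℚ E).sum_repr y]
  simp only [Finset.sum_mul, map_sum, smul_mul_assoc, map_smul, h, smul_zero,
    Finset.sum_const_zero]

end rat

variable {k E : Type} [Field k] [Field E] [Algebra k E] {a b c : kˣ}

theorem ext_long (t : SL1 a b) : (extE E (long a b c t).1).toLinearMap =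
    lr 1 1 (qup E ((t : (Qt a b)ˣ) : Qt a b)) 1 := by
  refine extL_unique fun x => (extE_oup _ x).trans (Oct.ext ?_ ?_)
  · rw [lr_fst, mul_one, one_mul]
    rfl
  · rw [lr_snd, mul_one]
    exact qup_mul _ _

namespace Pm

variable (P : Pm k E)

open Classical in
/-- The second semilinear map. -/
noncomputable def I (x : OctL E a b c) : OctL E a b c := if P.fl then Im P.ι x else x

theorem I_add (x y : OctL E a b c) : P.I (x + y) = P.I x + P.I y := by
  unfold I
  split_ifs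
  · exact D4Y.Ch.Im_add _ _ _
  · rfl

theorem cm_iff (f : Module.End E (OctL E a b c)) :
    P.Cm f ↔ (∀ x, f (P.J x) = P.J (f x)) ∧ ∀ x, f (P.I x) = P.I (f x) := by
  by_cases h : P.fl <;> simp [Cm, I, h]

theorem kk_oup (w : Qt a b) (x : Oct a b c) :
    P.kk 0 (qup E w) (oup E x) = oup E (⟨0, w * x.snd⟩ : Oct a b c) := by
  ext1 <;> simp [kk_fst, kk_snd, qup_mul]

variable (a b c) in
/-- Anisotropy. -/
def An : Prop := ∀ v : OctL E a b c, (∀ (m n : Fin 4) (s t : OctL E a b c),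
  (s = v ∨ s = tri P.ρ v v) → (t = v ∨ t = tri P.ρ v v) →
    bil ((![id, P.J, fun x => P.J (P.I x), fun x => P.J (P.I (P.J (P.I x)))] :
      Fin 4 → OctL E a b c → OctL E a b c) m s)
      ((![id, P.J, fun x => P.J (P.I x), fun x => P.J (P.I (P.J (P.I x)))] :
        Fin 4 → OctL E a b c → OctL E a b c) n t) = 0) → v = 0

variable [NumberField E] [Module ℚ (OctL E a b c)]

variable (a b c) in
/-- The tensors. -/
noncomputable def dv : Dv ℚ (OctL E a b c) (Fin (Module.finrank ℚ E) ⊕ Bool) where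
  A := Sum.elim (fun n => rs E _ (Module.finBasis ℚ E n • 1)) fun s =>
    bif s then (AddMonoidHom.mk' P.J (Jq_add _ _)).toRatLinearMap
      else (AddMonoidHom.mk' P.I P.I_add).toRatLinearMap
  B := bi (fun x y => Algebra.trace ℚ E (bil x y)) (fun x y z => by rw [bil_add_left, map_add])
    fun x y z => by rw [bil_add_right, map_add]
  μ := bi (tri P.ρ) tri_add_left tri_add_right

variable {P}

theorem dv_B (x y : OctL E a b c) : (P.dv a b c).B x y = Algebra.trace ℚ E (bil x y) := rfl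

theorem dv_mu (x y : OctL E a b c) : (P.dv a b c).μ x y = tri P.ρ x y := rfl

theorem dv_e (n : Fin (Module.finrank ℚ E)) (x : OctL E a b c) :
    (P.dv a b c).A (.inl n) x = Module.finBasis ℚ E n • x := rfl

theorem dv_J (x : OctL E a b c) : (P.dv a b c).A (.inr true) x = P.J x := rfl

theorem dv_I (x : OctL E a b c) : (P.dv a b c).A (.inr false) x = P.I x := rfl

theorem comm_A {g : Module.End ℚ (OctL E a b c)} :
    (∀ n x, g ((P.dv a b c).A n x) = (P.dv a b c).A n (g x)) ↔ ∃ f, rs E _ f = g ∧ P.Cm f := by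
  constructor
  · intro h
    obtain ⟨f, rfl⟩ := exists_rs (E := E) fun n => h (.inl n)
    exact ⟨f, rfl, (P.cm_iff f).2 ⟨h (.inr true), h (.inr false)⟩⟩
  · rintro ⟨f, rfl, h⟩ (n | _ | _) x
    · exact f.map_smul _ x
    · exact ((P.cm_iff f).1 h).2 x
    · exact h.1 x

theorem ani (h : P.An a b c) : (P.dv a b c).Ani := by
  let o : Fin 4 → Tm (Fin (Module.finrank ℚ E) ⊕ Bool) → Tm (Fin (Module.finrank ℚ E) ⊕ Bool) :=
    ![id, .app (.inr true), fun t => .app (.inr true) (.app (.inr false) t),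
      fun t => .app (.inr true) (.app (.inr false) (.app (.inr true) (.app (.inr false) t)))]
  let s : Bool → Tm (Fin (Module.finrank ℚ E) ⊕ Bool) := fun s => bif s then .var else .mul .var .var
  refine ⟨_, Set.finite_range fun j : Fin (Module.finrank ℚ E) × (Fin 4 × Bool) × Fin 4 × Bool =>
    (.app (.inl j.1) (o j.2.1.1 (s j.2.1.2)), o j.2.2.1 (s j.2.2.2)), fun v hv => ?_⟩
  by_contra hn
  push Not at hn
  have h1 : ∀ t, t = v ∨ t = tri P.ρ v v → ∃ u, (P.dv a b c).tm (s u) v = t := by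
    rintro _ (rfl | rfl)
    · exact ⟨true, rfl⟩
    · exact ⟨false, dv_mu _ _⟩
  have h2 : ∀ m t, (P.dv a b c).tm (o m t) v = (![id, P.J, fun x => P.J (P.I x),
      fun x => P.J (P.I (P.J (P.I x)))] : Fin 4 → OctL E a b c → OctL E a b c) m
        ((P.dv a b c).tm t v) := fun m t => by
    fin_cases m <;> simp [o, Dv.tm, dv_J, dv_I]
  refine hv (h v fun m n x y hx hy => tr_zero fun e => ?_)
  obtain ⟨x, rfl⟩ := h1 x hx
  obtain ⟨y, rfl⟩ := h1 y hy
  have h3 := hn _ ⟨(e, (m, x), n, y), rfl⟩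
  rwa [dv_B, Dv.tm, dv_e, bil_smul_left, h2, h2] at h3

variable [NeZero (2 : E)]

theorem nd (y : OctL E a b c) (hy : ∀ x, (P.dv a b c).B x y = 0) : y = 0 := by
  refine eq_zero_of_bil fun x => tr_zero fun e => ?_
  rw [bil_comm, ← bil_smul_left, ← dv_B (P := P), hy]

variable (h : P.Ok a)

include h

omit [NeZero (2 : E)] in
theorem lie_iff {X : Module.End ℚ (OctL E a b c)} :
    (P.dv a b c).Lie X ↔ ∃ f, rs E _ f = X ∧ P.Li f := by
  constructor
  · rintro ⟨h1, -, h2⟩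
    obtain ⟨f, rfl, h3⟩ := comm_A.1 h1
    exact ⟨f, rfl, h2, h3⟩
  · rintro ⟨f, rfl, h1⟩
    refine ⟨comm_A.2 ⟨f, rfl, h1.2⟩, fun x y => ?_, h1.1⟩
    rw [dv_B, dv_B, ← map_add]
    exact (congrArg _ (h1.sk h x y)).trans (map_zero _)

omit [NeZero (2 : E)] in
theorem stab {f : Module.End E (OctL E a b c)} (h1 : P.St f) (h2 : Function.Injective f) :
    (P.dv a b c).Stab (rs E _ f) := by
  refine ⟨comm_A.2 ⟨_, rfl, h1.2⟩, fun x y => ?_, h1.1⟩
  rw [dv_B, dv_B, rs_apply, rs_apply, h1.bil h h2]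

theorem irrV [CharZero k] {Γ : Type} [Group Γ] {r : Γ →* Module.End ℚ (OctL E a b c)}
    (hs : ∀ f : Module.End E (OctL E a b c), Function.Bijective f → P.St f →
      ∃ γ, r γ = rs E _ f) : IrrV (P.dv a b c) r := by
  intro W _ h2 h3 X hX
  have hc : ∀ t : ℚ, algebraMap k E (t : k) = (t : E) := fun t => map_ratCast _ t
  obtain ⟨X, rfl, h8⟩ := (lie_iff h).1 hX
  obtain ⟨X0, h4, h5, h6⟩ := h3
  obtain ⟨X0, rfl, h7⟩ := (lie_iff h).1 h5
  refine irr h (W := W.toAddSubgroup.comap (rs E _).toAddMonoidHom) ?_ (X0 := X0) h4 h7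
    (fun h0 => h6 (by rw [h0, map_zero])) h8
  rintro Y ⟨-, Z, hZ⟩ X' hX'
  refine h2 (rs E _ Y) ⟨rs E _ Z, fun t ht => ?_⟩ (rs E _ X') hX'
  have e1 : 1 + t • rs E _ Y + (t * t) • rs E _ Z =
      rs E _ (1 + (t : E) • Y + ((t : E) * t) • Z) := by
    rw [map_add, map_add, map_one, ← Rat.cast_mul, rs_smul, rs_smul]
  have e2 : 1 - t • rs E _ Y + (t * t) • rs E _ Z =
      rs E _ (1 - (t : E) • Y + ((t : E) * t) • Z) := by
    rw [map_add, map_sub, map_one, ← Rat.cast_mul, rs_smul, rs_smul]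
  rw [e2] at ht
  have ht' := (Module.End.isUnit_iff _).1 ht
  obtain ⟨g, g1, g2, g3⟩ := hZ t (by
    rw [hc]
    exact (Module.End.isUnit_iff _).2 ht')
  obtain ⟨γ, hγ⟩ := hs g ((Module.End.isUnit_iff _).1 g2) g1
  rw [hc] at g3
  exact ⟨γ, by rw [hγ, e1, e2, ← map_mul, g3]⟩

omit [NumberField E] [Module ℚ (OctL E a b c)] in
theorem good_j : P.Good (P.kk 0 (qup E ⟨0, 0, 1, 0⟩) : Module.End E (OctL E a b c)) :=
  good_kk h (by simp [Tw]) (fun φ => qmap_qup φ _) (by simp) (by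
    rw [← qup_star, ← qup_neg]
    congr 1
    ext <;> simp)

omit [NumberField E] [Module ℚ (OctL E a b c)] [NeZero (2 : E)] h in
theorem cay_j (hab : Aniso a b) (t : k) : (extE E (long a b c (cj hab t)).1).toLinearMap *
    (1 - algebraMap k E t • P.kk 0 (qup E ⟨0, 0, 1, 0⟩)) =
      1 + algebraMap k E t • P.kk 0 (qup E ⟨0, 0, 1, 0⟩) := by
  have h1 := congrArg (qup E) (cj_mul hab t)
  rw [qup_mul, qup_sub, qup_add, qup_smul, qup_one] at h1
  rw [ext_long]
  refine LinearMap.ext fun y => Oct.ext ?_ ?_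
  · simp [lr_fst, kk_fst]
  · have h2 := congrArg (· * y.snd) h1
    simp only [mul_assoc, sub_mul, add_mul, one_mul, smul_mul_assoc] at h2
    simpa [lr_snd, kk_snd, mul_sub, -algebraMap_smul] using h2

omit [NumberField E] [Module ℚ (OctL E a b c)] [NeZero (2 : E)] h in
theorem neg_j : (extE E (tau a b c).1.1).toLinearMap * P.kk 0 (qup E ⟨0, 0, 1, 0⟩) =
    -(P.kk 0 (qup E ⟨0, 0, 1, 0⟩) * (extE E (tau a b c).1.1).toLinearMap) := by
  refine extL_unique fun x => ?_
  change extE E _ (P.kk 0 _ (oup E x)) = -P.kk 0 _ (extE E _ (oup E x))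
  rw [kk_oup, extE_oup, extE_oup, kk_oup, ← oup_neg, tau_apply, tau_apply]
  congr 1
  apply ext8 <;> simp [ci]

theorem meet' [NumberField k] (hdiv : Division a b c) (hA : P.An a b c)
    {G : Subgroup (OctL E a b c ≃ₗ[E] OctL E a b c)} (hG : ∀ g, g ∈ G ↔ P.St g.toLinearMap)
    {ex : fixI a b c →* G} (hex : ∀ g, (ex g).1 = extE E g.1.1) (N : Subgroup G) [N.Normal]
    (hN : ¬ N ≤ Subgroup.center G) :
    ∃ t : SL1 a b, t ∉ Subgroup.center (SL1 a b) ∧ ex (longI a b c t) ∈ N := by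
  have hab := hdiv.aniso
  have : FiniteDimensional ℚ (OctL E a b c) := Module.Finite.trans E _
  obtain ⟨r, hr⟩ : ∃ r : G →* Module.End ℚ (OctL E a b c), ∀ g, r g = rs E _ g.1.toLinearMap :=
    ⟨⟨⟨fun g => rs E _ g.1.toLinearMap, rfl⟩, fun _ _ => rfl⟩, fun _ => rfl⟩
  have hs : ∀ f : Module.End E (OctL E a b c), Function.Bijective f → P.St f →
      ∃ γ, r γ = rs E _ f := fun f h1 h2 => ⟨⟨LinearEquiv.ofBijective f h1, (hG _).2 h2⟩, hr _⟩
  obtain ⟨t0, ht0⟩ := exists_inf hab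
  have hcay : ∀ t : ℚ, r (ex (longI a b c (cj hab t))) *
      (1 - t • rs E _ (P.kk 0 (qup E ⟨0, 0, 1, 0⟩))) =
        1 + t • rs E _ (P.kk 0 (qup E ⟨0, 0, 1, 0⟩)) := fun t => by
    rw [hr, hex, ← rs_smul, ← map_one (rs E _), ← map_sub, ← map_add, ← map_mul,
      ← map_ratCast (algebraMap k E)]
    exact congrArg _ (cay_j hab _)
  have M : MdV (P.dv a b c) r (rs E _ (P.kk 0 (qup E ⟨0, 0, 1, 0⟩)))
      (fun t => ex (longI a b c (cj hab t))) (ex (tau a b c)) (ex (longI a b c (cj hab t0))) := by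
    refine ⟨two_ne_zero, fun g g' e => ?_, fun g => ?_, fun g h1 h2 => ?_, ani hA, nd, irrV h hs,
      (lie_iff h).2 ⟨_, rfl, (good_j h).1⟩, fun h0 => ?_, hcay,
      by rw [← map_mul, tau_sq, map_one], ?_,
      by rw [← map_inv, ← map_mul, ← map_mul, tau_inv, map_inv], fun Q hQ h1 => ?_⟩
    · rw [hr, hr] at e
      exact Subtype.ext (LinearEquiv.toLinearMap_injective (rs_inj e))
    · rw [hr]
      exact stab h ((hG _).1 g.2) g.1.injective
    · obtain ⟨f, rfl, h3⟩ := comm_A.1 h2.1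
      exact hs f h1 ⟨h2.2.2, h3⟩
    · have := congrArg (fun z => z.snd.imJ) (LinearMap.congr_fun h0 (oup E Oct.gl))
      simp [rs_apply, kk_snd, Oct.gl] at this
    · rw [hr, hex, ← map_mul, ← map_mul, ← map_neg, neg_j]
    · obtain ⟨t, h2, h3⟩ := h1 _ _ hcay
      have h4 := fixI_top_of hdiv (Q.comap ex) (hQ.comap _) fun h5 =>
        cj_nc hab (Rat.cast_ne_zero.2 h2) (h5 h3)
      exact ⟨h4.ge (Subgroup.mem_top _), h4.ge (Subgroup.mem_top _)⟩
  rcases M.main NT.hasPls_rat N with h1 | ⟨e, he, h1⟩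
  · refine absurd (fun m hm => Subgroup.mem_center_iff.2 fun g => ?_) hN
    obtain ⟨t, ht⟩ := scalar h (g := m.1.toLinearMap) fun X hX => by
      have h2 := h1 m hm _ ((lie_iff h).2 ⟨_, rfl, hX.1⟩)
      rw [hr, ← map_mul, ← map_mul] at h2
      exact rs_inj h2
    refine Subtype.ext (LinearEquiv.ext fun v => ?_)
    exact ((congrArg g.1 (ht v)).trans (map_smul _ _ _)).trans (ht _).symm
  · exact ⟨_, ht0 e he, by rwa [map_pow, map_pow]⟩

end Pm

/-- **The cyclic case.** -/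
theorem meetT : NM.MeetT := by
  intro k L E _ _ _ _ _ _ _ _ _ ρ σ ρL α a b c q H N hN h
  have : FiniteDimensional k L := Module.finite_of_finrank_eq_succ H.h3
  have : FiniteDimensional L E := Module.finite_of_finrank_eq_succ H.h2
  have : FiniteDimensional k E := Module.Finite.trans L E
  have : NumberField E := NumberField.of_module_finite k E
  let _ : Module ℚ (OctL E a b c) := Module.compHom _ (algebraMap ℚ E)
  refine Pm.meet' (P := ⟨False, ρ, σ, σ, α, algebraMap L E q⟩) (G := GT ρ σ α a b c q) ⟨H.hj, False.elim, False.elim,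
    False.elim, False.elim, False.elim, fun x h1 h2 _ => H369.fixE H h1 h2, ?_⟩ H.hdiv
    (fun v hv => ?_) (fun g => ⟨fun hg => ⟨hg.1, hg.2, False.elim⟩, fun hg => ⟨hg.1, hg.2.1⟩⟩)
    (fun _ => rfl) N h
  · obtain ⟨t, ht⟩ := DFunLike.ne_iff.1 H.ρ1
    exact ⟨algebraMap L E t, ⟨H.σL t, False.elim⟩, fun h1 =>
      ht ((algebraMap L E).injective ((H.ρL' t).symm.trans h1))⟩
  · by_contra h0
    exact D4X.aniso H h0 (hv 0 1 v v (.inl rfl) (.inl rfl))

/-- **The noncyclic case.** -/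
theorem meetI : NM.MeetI := by
  intro k L E _ _ _ _ _ _ _ _ _ ρ σ ι α a b c q H N hN h
  have : NumberField E := H.numberField
  let _ : Module ℚ (OctL E a b c) := Module.compHom _ (algebraMap ℚ E)
  obtain ⟨t, ht⟩ := H.ρL
  obtain ⟨P, p0, p1, p2, p3, p4, p5⟩ : ∃ P : Pm k E, P.fl ∧ P.ρ = ρ ∧ P.σ = σ ∧ P.ι = ι ∧ P.α = α ∧
    P.q = algebraMap L E q := ⟨⟨True, ρ, σ, ι, α, algebraMap L E q⟩, trivial, rfl, rfl, rfl, rfl, rfl⟩
  subst p1 p2 p3 p4
  have hJ : (P.J : OctL E a b c → OctL E a b c) = Jm P.ρ P.σ P.α q := funext fun x => by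
    rw [Pm.J, p5, Jm_Jq]
  have hI : (P.I : OctL E a b c → OctL E a b c) = Im P.ι := funext fun x => if_pos p0
  refine Pm.meet' (P := P) ⟨p5 ▸ H.hj, fun _ => H.ι2, fun _ => H.σι, fun _ => H.ιρ,
    fun _ => p5 ▸ H.ιL _, fun _ => H.ια, fun x h1 h2 h3 => H.fixk x h1 h2 (h3 p0),
    _, ⟨H.σL t, fun _ => H.ιL t⟩, ht⟩ H.hdiv (fun v hv => NT.aniI H v ?_) (fun g => ?_)
    (fun _ => rfl) N h
  · rwa [hJ, hI] at hv
  · rw [Pm.St, Pm.cm_iff, hJ, hI]
    rfl

/-- The inputs for the trialitarian groups. -/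
theorem hyp : NM.Hyp := ⟨fun _ _ _ a b => P011NQ.index_ne_zero a b, meetT, meetI⟩

end Vale.Agent.P011ND
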