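import Vale.Agent.P011ND.E6g
import Vale.Agent.P011ND.Mod
import Vale.Agent.P011NE.Short
import Vale.Agent.P011.D4.IF.Asm

/-!
The outer groups of type `E₆`: a noncentral normal subgroup contains the automorphisms of the
octonion algebra.
-/

namespace Vale.Agent.P011ND

open Vale.Agent.P011 Vale.Agent.P011.MPQ Vale.Agent.P011.D4 Vale.Agent.P011.D4.Oct
open Vale.Agent.P011.E6 Vale.Agent.P011.E6.Alb Vale.Agent.P011.E6O
open Vale.Agent.P011.H327.Star (Dr)
open Vale.Agent.P011.E6H (IsSextic IsForm)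
open Vale.Agent.P011.E6O.H408 (sp map_sp)
open Vale.Agent.P011.E6O.Ani (her_sp)
open Vale.Agent.P011.E6X.H493 (her_add_left her_smul_left)

variable {k E : Type} [Field k] [Field E] [Algebra k E] {ρ σ : E ≃ₐ[k] E} {lam : Eˣ}
  {g : Fin 3 → Eˣ} {kap a b c : kˣ}

theorem top_of_long [NumberField k] (hC : Division a b c) {N : Subgroup (AutC a b c)}
    (hN : N.Normal) {s : SL1 a b} (hs : s ∉ Subgroup.center _) (h : long a b c s ∈ N) : N = ⊤ := by
  refine (IF.autC_simple hC N hN).resolve_left fun h0 => hs ?_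
  rw [h0, Subgroup.mem_bot] at h
  have h1 := congrArg (fun f : AutC a b c => (f.1 ⟨0, 1⟩).snd) h
  rw [show s = 1 from Subtype.ext (Units.ext ((mul_one _).symm.trans h1))]
  exact one_mem _

/-- The direction of the Cayley curve. -/
def yj : Module.End E (AlbL E a b c) where
  toFun x := ⟨0, 0, 0, ⟨0, qup E ⟨0, 0, 1, 0⟩ * x.x1.snd⟩, ⟨0, qup E ⟨0, 0, 1, 0⟩ * x.x2.snd⟩,
    ⟨0, qup E ⟨0, 0, 1, 0⟩ * x.x3.snd⟩⟩
  map_add' x y := by ext1 <;> simp [mul_add, Oct.ext_iff]
  map_smul' t x := by ext1 <;> simp [Oct.ext_iff]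

theorem yj_apply (x : AlbL E a b c) : yj x = ⟨0, 0, 0, ⟨0, qup E ⟨0, 0, 1, 0⟩ * x.x1.snd⟩,
    ⟨0, qup E ⟨0, 0, 1, 0⟩ * x.x2.snd⟩, ⟨0, qup E ⟨0, 0, 1, 0⟩ * x.x3.snd⟩⟩ := rfl

variable [NumberField E]

theorem cay_yj [CharZero k] (hab : Aniso a b) (t : k) :
    (autO ρ σ lam g a b c (long a b c (cj hab t))).1.toLinearMap * (1 - algebraMap k E t • yj) =
      1 + algebraMap k E t • yj := by
  have h1 := congrArg (qup E) (cj_mul hab t)
  rw [qup_mul, qup_sub, qup_add, qup_smul, qup_one] at h1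
  have h2 := fun y => congrArg (· * y) h1
  simp only [mul_assoc, sub_mul, add_mul, one_mul, smul_mul_assoc] at h2
  refine LinearMap.ext fun y => ?_
  rw [Module.End.mul_apply, LinearEquiv.coe_coe, autO_long]
  ext1 <;> simp [omapA, yj_apply, Oct.ext_iff, h2, -algebraMap_smul]

theorem li_yj [CharZero k] (hab : Aniso a b) :
    LiE ρ σ lam g (yj : Module.End E (AlbL E a b c)) := by
  have h := fun t x => LinearMap.congr_fun (cay_yj (ρ := ρ) (σ := σ) (lam := lam) (g := g)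
    (c := c) hab t) x
  simp only [Module.End.mul_apply, LinearMap.add_apply, LinearMap.smul_apply,
    Module.End.one_apply, LinearEquiv.coe_coe, sub_eq_add_neg, ← neg_smul] at h
  refine ⟨fun x => ?_, fun x => ?_, fun x y => ?_⟩
  · have h1 := fun t => ((autO ρ σ lam g a b c (long a b c (cj hab t))).2.1 _).symm.trans
      (congrArg cub (h t x))
    have h2 := h1 1
    have h3 := h1 2
    simp only [cub_add, adj_smul, cub_smul, tf_smul_right, map_one, map_ofNat] at h2 h3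
    linear_combination (1 / 12 : E) * h3 - (2 / 3 : E) * h2
  · ext1 <;> simp [ph, yj_apply, omap, Oct.ext_iff, qmap_mul]
  · have h1 := ((autO ρ σ lam g a b c (long a b c (cj hab 1))).2.2.2 _ _).symm.trans
      (congrArg₂ (her σ g) (h 1 x) (h 1 y))
    simp only [her_add_left, her_add_right, her_smul_left, her_smul_right, map_one, map_neg] at h1
    linear_combination (-1 / 2 : E) * h1

theorem neg_yj [CharZero k] : (autO ρ σ lam g a b c (tau a b c).1).1.toLinearMap * yj =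
    -(yj * (autO ρ σ lam g a b c (tau a b c).1).1.toLinearMap) := by
  have h : ∀ x : Alb a b c, yj (aup E x) = aup E ⟨0, 0, 0, ⟨0, ⟨0, 0, 1, 0⟩ * x.x1.snd⟩,
      ⟨0, ⟨0, 0, 1, 0⟩ * x.x2.snd⟩, ⟨0, ⟨0, 0, 1, 0⟩ * x.x3.snd⟩⟩ := fun x => by
    ext1 <;> simp [yj_apply, aup, Oct.ext_iff, qup_mul]
  refine Rl.alb_unique fun x => ?_
  change (autO ρ σ lam g a b c _).1 (yj _) = -yj ((autO ρ σ lam g a b c _).1 _)
  rw [h, autO_aup, autO_aup, h, ← aup_neg]
  congr 1
  ext1 <;> simp only [omapA, tau_apply, d1_neg, d2_neg, d3_neg, x1_neg, x2_neg, x3_neg, neg_zero]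
  all_goals apply ext8 <;> simp [ci]

theorem sp_iff (hS : IsSextic ρ σ kap) (hg : IsForm ρ σ lam g) {X : Module.End E (AlbL E a b c)}
    (h : ∀ x y, her σ g (X x) y + her σ g x (X y) = 0) :
    (∀ x y, X (sp σ g x y) = sp σ g (X x) y + sp σ g x (X y)) ↔ Dr X := by
  have k : ∀ x y z, her σ g (X (sp σ g x y) + (-1 : E) • (sp σ g (X x) y + sp σ g x (X y))) z =
      -σ (tf (cross x y) (X z) + tf (cross y z) (X x) + tf (cross z x) (X y)) := fun x y z => by
    rw [her_add_left, her_smul_left, her_add_left, eq_neg_of_add_eq_zero_left (h _ _), her_sp hg.σg,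
      her_sp hg.σg, her_sp hg.σg, tf_cross (X x), tf_comm (X x), tf_cross_comm x (X y),
      cross_comm z, map_add, map_add]
    ring
  refine ⟨fun h1 x => ?_, fun h1 x y => ?_⟩
  · have h2 := k x x x
    rw [h1, neg_one_smul, add_neg_cancel, her, wt_zero, tf_zero_left, Alb.cross_self, tf_smul_left,
      eq_comm, neg_eq_zero, map_eq_zero] at h2
    linear_combination (1 / 6 : E) * h2
  · rw [← sub_eq_zero, sub_eq_add_neg, ← neg_one_smul E]
    exact (her_nd hS).1 fun z => by rw [k, h1.pol, map_zero, neg_zero]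

variable [Module ℚ (AlbL E a b c)]

variable (ρ σ lam g a b c) in
/-- The tensors. -/
noncomputable def dvE : Dv ℚ (AlbL E a b c) (Option (Fin (Module.finrank ℚ E))) where
  A n := n.elim (AddMonoidHom.mk' (ph ρ lam) ph_add).toRatLinearMap
    fun n => rs E _ (Module.finBasis ℚ E n • 1)
  B := bi (fun x y => Algebra.trace ℚ E (her σ g x y)) (fun x y z => by rw [her_add_left, map_add])
    fun x y z => by rw [her_add_right, map_add]
  μ := bi (sp σ g) (fun x y z => by rw [sp, sp, sp, cross_add_left, wt_add, amap_add])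
    fun x y z => by rw [sp, sp, sp, cross_add_right, wt_add, amap_add]

theorem dvE_B (x y : AlbL E a b c) :
    (dvE ρ σ lam g a b c).B x y = Algebra.trace ℚ E (her σ g x y) := rfl

theorem dvE_mu (x y : AlbL E a b c) : (dvE ρ σ lam g a b c).μ x y = sp σ g x y := rfl

theorem dvE_e (n : Fin (Module.finrank ℚ E)) (x : AlbL E a b c) :
    (dvE ρ σ lam g a b c).A (some n) x = Module.finBasis ℚ E n • x := rfl

theorem dvE_ph (x : AlbL E a b c) : (dvE ρ σ lam g a b c).A none x = ph ρ lam x := rfl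

theorem comm_E {X : Module.End ℚ (AlbL E a b c)} :
    (∀ n x, X ((dvE ρ σ lam g a b c).A n x) = (dvE ρ σ lam g a b c).A n (X x)) ↔
      ∃ f, rs E _ f = X ∧ ∀ x, f (ph ρ lam x) = ph ρ lam (f x) := by
  constructor
  · intro h
    obtain ⟨f, rfl⟩ := exists_rs (E := E) fun n => h (some n)
    exact ⟨f, rfl, h none⟩
  · rintro ⟨f, rfl, h⟩ (_ | n) x
    · exact h x
    · exact f.map_smul _ x

theorem ani_E (hA : ∀ v : AlbL E a b c, her σ g v v = 0 → her σ g (sp σ g v v) v = 0 →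
    (∀ p, p = v ∨ p = sp σ g v v →
      her σ g (sp σ g p (ph ρ lam p)) (ph ρ lam (ph ρ lam p)) = 0) → v = 0) :
    (dvE ρ σ lam g a b c).Ani := by
  let s : Bool → Tm (Option (Fin (Module.finrank ℚ E))) := fun s =>
    bif s then .var else .mul .var .var
  refine ⟨_, Set.finite_range fun j : Fin (Module.finrank ℚ E) × Bool × Bool => bif j.2.1 then
    (.app (some j.1) (s j.2.2), .var) else (.app (some j.1) (.mul (s j.2.2) (.app none (s j.2.2))),
      .app none (.app none (s j.2.2))), fun v hv => ?_⟩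
  by_contra hn
  push Not at hn
  have h := fun n i j => hn _ ⟨(n, i, j), rfl⟩
  refine hv (hA v (tr_zero fun n => ?_) (tr_zero fun n => ?_) fun p hp => tr_zero fun n => ?_)
  · simpa only [s, cond_true, Dv.tm, dvE_B, dvE_e, her_smul_left] using h n true true
  · simpa only [s, cond_true, cond_false, Dv.tm, dvE_B, dvE_e, dvE_mu, her_smul_left]
      using h n true false
  · rcases hp with rfl | rfl
    · simpa only [s, cond_true, cond_false, Dv.tm, dvE_B, dvE_e, dvE_mu, dvE_ph, her_smul_left]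
        using h n false true
    · simpa only [s, cond_false, Dv.tm, dvE_B, dvE_e, dvE_mu, dvE_ph, her_smul_left]
        using h n false false

variable (hS : IsSextic ρ σ kap) (hg : IsForm ρ σ lam g)

include hS

theorem nd_E (y : AlbL E a b c) (hy : ∀ x, (dvE ρ σ lam g a b c).B x y = 0) : y = 0 :=
  (her_nd hS (g := g)).2 fun x => tr_zero fun n => by rw [← her_smul_left, ← dvE_B, hy]

theorem stab_E {φ : AlbL E a b c ≃ₗ[E] AlbL E a b c} (h : φ ∈ GO ρ σ lam g a b c) :
    (dvE ρ σ lam g a b c).Stab (rs E _ φ.toLinearMap) := by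
  refine ⟨comm_E.2 ⟨_, rfl, h.2.1⟩, fun x y => ?_, map_sp hS.σ2 h.1 h.2.2⟩
  rw [dvE_B, dvE_B]
  exact congrArg _ (h.2.2 x y)

include hg

omit hS in
theorem surj_E {X : Module.End ℚ (AlbL E a b c)} (h1 : Function.Bijective X)
    (h2 : (dvE ρ σ lam g a b c).Stab X) :
    ∃ φ ∈ GO ρ σ lam g a b c, rs E _ φ.toLinearMap = X := by
  obtain ⟨f, rfl, h3⟩ := comm_E.1 h2.1
  have h4 : ∀ x y, her σ g (f x) (f y) = her σ g x y := fun x y => sub_eq_zero.1 (tr_zero fun n => by
    have := h2.2.1 (Module.finBasis ℚ E n • x) y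
    rw [dvE_B, dvE_B, rs_apply, rs_apply, map_smul, her_smul_left, her_smul_left] at this
    rw [mul_sub, map_sub, this, sub_self])
  refine ⟨LinearEquiv.ofBijective f h1, ⟨fun x => ?_, h3, h4⟩, rfl⟩
  have h5 := h4 (sp σ g x x) x
  rw [show f (sp σ g x x) = sp σ g (f x) (f x) from h2.2.2 x x, her_sp hg.σg, her_sp hg.σg,
    σ.injective.eq_iff, Alb.cross_self, Alb.cross_self, tf_smul_left, tf_smul_left, tf_adj_self,
    tf_adj_self] at h5
  exact mul_left_cancel₀ three_ne_zero (mul_left_cancel₀ two_ne_zero h5)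

theorem lie_E {X : Module.End ℚ (AlbL E a b c)} :
    (dvE ρ σ lam g a b c).Lie X ↔ ∃ f, rs E _ f = X ∧ LiE ρ σ lam g f := by
  constructor
  · rintro ⟨h1, h2, h3⟩
    obtain ⟨f, rfl, h4⟩ := comm_E.1 h1
    have h5 : ∀ x y, her σ g (f x) y + her σ g x (f y) = 0 := fun x y => tr_zero fun n => by
      have := h2 (Module.finBasis ℚ E n • x) y
      rwa [dvE_B, dvE_B, rs_apply, rs_apply, map_smul, her_smul_left, her_smul_left, ← map_add,
        ← mul_add] at this
    exact ⟨f, rfl, (sp_iff hS hg h5).1 h3, h4, h5⟩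
  · rintro ⟨f, rfl, h1⟩
    refine ⟨comm_E.2 ⟨f, rfl, h1.2.1⟩, fun x y => ?_, fun x y => ?_⟩
    · rw [dvE_B, dvE_B, ← map_add, rs_apply, rs_apply, h1.2.2, map_zero]
    · simp only [dvE_mu, rs_apply, (sp_iff hS hg h1.2.2).2 h1.1 x y]

variable [NumberField k]

theorem irr_E {r : GO ρ σ lam g a b c →* Module.End ℚ (AlbL E a b c)}
    (hr : ∀ φ, r φ = rs E _ φ.1.toLinearMap) : IrrV (dvE ρ σ lam g a b c) r := by
  intro W _ h2 h3 X hX
  have hc : ∀ t : ℚ, algebraMap k E (t : k) = (t : E) := fun t => map_ratCast _ t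
  obtain ⟨X, rfl, h8⟩ := (lie_E hS hg).1 hX
  obtain ⟨X0, h4, h5, h6⟩ := h3
  obtain ⟨X0, rfl, h7⟩ := (lie_E hS hg).1 h5
  refine irrE hS hg (W := W.toAddSubgroup.comap (rs E _).toAddMonoidHom) ?_ (X0 := X0) h4 h7
    (fun h0 => h6 (by rw [h0, map_zero])) h8
  rintro Y ⟨Z, hZ⟩ X' hX'
  refine h2 (rs E _ Y) ⟨rs E _ Z, fun t ht => ?_⟩ (rs E _ X') hX'
  have e1 : 1 + t • rs E _ Y + (t * t) • rs E _ Z =
      rs E _ (1 + (t : E) • Y + ((t : E) * t) • Z) := by
    rw [map_add, map_add, map_one, ← Rat.cast_mul, rs_smul, rs_smul]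
  have e2 : 1 - t • rs E _ Y + (t * t) • rs E _ Z =
      rs E _ (1 - (t : E) • Y + ((t : E) * t) • Z) := by
    rw [map_add, map_sub, map_one, ← Rat.cast_mul, rs_smul, rs_smul]
  rw [e2] at ht
  have ht' := (Module.End.isUnit_iff _).1 ht
  obtain ⟨φ, g1, g3⟩ := hZ t (by
    rw [hc]
    exact (Module.End.isUnit_iff _).2 ht')
  rw [hc] at g3
  exact ⟨⟨φ, g1⟩, by rw [hr, e1, e2, ← map_mul, g3]⟩

omit [Module ℚ (AlbL E a b c)] in
/-- **A noncentral normal subgroup contains the automorphisms of the octonion algebra.** -/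
theorem meetE (hC : Division a b c)
    (hA : ∀ v : AlbL E a b c, her σ g v v = 0 → her σ g (sp σ g v v) v = 0 →
      (∀ p, p = v ∨ p = sp σ g v v →
        her σ g (sp σ g p (ph ρ lam p)) (ph ρ lam (ph ρ lam p)) = 0) → v = 0)
    (N : Subgroup (GO ρ σ lam g a b c)) [hN : N.Normal] (h : ¬ N ≤ Subgroup.center _)
    (f : AutC a b c) : autO ρ σ lam g a b c f ∈ N := by
  let _ : Module ℚ (AlbL E a b c) := Module.compHom _ (algebraMap ℚ E)
  have hab := hC.aniso
  have : FiniteDimensional ℚ (AlbL E a b c) := Module.Finite.trans E _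
  obtain ⟨r, hr⟩ : ∃ r : GO ρ σ lam g a b c →* Module.End ℚ (AlbL E a b c),
      ∀ φ, r φ = rs E _ φ.1.toLinearMap :=
    ⟨⟨⟨fun φ => rs E _ φ.1.toLinearMap, rfl⟩, fun _ _ => rfl⟩, fun _ => rfl⟩
  obtain ⟨t0, ht0⟩ := exists_inf hab
  have hcay : ∀ t : ℚ, r (autO ρ σ lam g a b c (long a b c (cj hab t))) * (1 - t • rs E _ yj) =
      1 + t • rs E _ yj := fun t => by
    rw [hr, ← rs_smul, ← map_one (rs E _), ← map_sub, ← map_add, ← map_mul,
      ← map_ratCast (algebraMap k E)]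
    exact congrArg _ (cay_yj hab _)
  have M : MdV (dvE ρ σ lam g a b c) r (rs E _ yj)
      (fun t => autO ρ σ lam g a b c (long a b c (cj hab t))) (autO ρ σ lam g a b c (tau a b c).1)
      (autO ρ σ lam g a b c (long a b c (cj hab t0))) := by
    refine ⟨two_ne_zero, fun φ ψ e => ?_, fun φ => hr φ ▸ stab_E hS φ.2, fun X h1 h2 => ?_,
      ani_E hA, nd_E hS, irr_E hS hg hr, (lie_E hS hg).2 ⟨_, rfl, li_yj hab⟩, fun h0 => ?_, hcay,
      by rw [← map_mul, ← Subgroup.coe_mul, tau_sq, OneMemClass.coe_one, map_one], ?_, ?_,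
      fun Q hQ h1 => ?_⟩
    · rw [hr, hr] at e
      exact Subtype.ext (LinearEquiv.toLinearMap_injective (rs_inj e))
    · obtain ⟨φ, h3, h4⟩ := surj_E hg h1 h2
      exact ⟨⟨φ, h3⟩, (hr _).trans h4⟩
    · have := congrArg (fun z => z.x1.snd.imJ)
        (LinearMap.congr_fun h0 ⟨0, 0, 0, ⟨0, 1⟩, 0, 0⟩)
      simp [rs_apply, yj_apply] at this
    · rw [hr, ← map_mul, ← map_mul, ← map_neg, neg_yj]
    · rw [← map_inv, ← map_inv, ← map_mul, ← map_mul]
      exact congrArg _ (congrArg Subtype.val (tau_inv hab c t0))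
    · obtain ⟨t, h2, h3⟩ := h1 _ _ hcay
      have h4 := top_of_long hC (hQ.comap (autO ρ σ lam g a b c))
        (cj_nc hab (Rat.cast_ne_zero.2 h2)) h3
      exact ⟨h4.ge (Subgroup.mem_top _), h4.ge (Subgroup.mem_top _)⟩
  rcases M.main NT.hasPls_rat N with h1 | ⟨e, he, h1⟩
  · refine absurd (fun m hm => Subgroup.mem_center_iff.2 fun φ => ?_) h
    obtain ⟨t, ht⟩ := dr_scalar (g := m.1.toLinearMap) fun X =>
      genE hS hg (br_cen _) fun X hX _ => by
        have h2 := h1 m hm _ ((lie_E hS hg).2 ⟨_, rfl, hX⟩)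
        rw [hr, ← map_mul, ← map_mul] at h2
        exact rs_inj h2
    refine Subtype.ext (LinearEquiv.ext fun v => ?_)
    exact ((congrArg φ.1 (ht v)).trans (map_smul _ _ _)).trans (ht _).symm
  · rw [← map_pow, ← map_pow] at h1
    exact (top_of_long hC (hN.comap (autO ρ σ lam g a b c)) (ht0 e he) h1).ge (Subgroup.mem_top f)

end Vale.Agent.P011ND
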