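import Vale.Agent.P011ND.So
import Vale.Agent.P011.H327.Star.Main

/-!
Simplicity of the Lie algebra of the cubic norm.
-/

namespace Vale.Agent.P011ND

open Vale.Agent.P011 Vale.Agent.P011.MPQ Vale.Agent.P011.D4 Vale.Agent.P011.D4.Oct
open Vale.Agent.P011.E6 Vale.Agent.P011.E6.Alb Vale.Agent.P011.H327.Star

variable {F : Type} [Field F] {a b c : Fˣ}

theorem vand {M ι : Type} [AddCommGroup M] [Module F M] {U : Submodule F M} {c : ι → F}
    (hc : Function.Injective c) (s : Finset ι) :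
    ∀ v : ι → M, (∀ n : ℕ, ∑ i ∈ s, c i ^ n • v i ∈ U) → ∀ i ∈ s, v i ∈ U := by
  classical
  induction s using Finset.induction_on with
  | empty => simp
  | insert j s hj ih =>
    intro v h
    have h2 : ∀ i ∈ s, v i ∈ U := fun i hi => by
      refine (U.smul_mem_iff (sub_ne_zero.2 (hc.ne (ne_of_mem_of_not_mem hi hj)))).1
        (ih (fun i => (c i - c j) • v i) (fun n => ?_) i hi)
      convert sub_mem (h (n + 1)) (U.smul_mem (c j) (h n)) using 1
      rw [Finset.smul_sum, ← Finset.sum_sub_distrib, Finset.sum_insert hj, smul_smul, ← pow_succ',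
        sub_self, zero_add]
      exact Finset.sum_congr rfl fun i _ => by module
    have h3 := h 0
    simp only [pow_zero, one_smul, Finset.sum_insert hj] at h3
    exact Finset.forall_mem_insert .. |>.2 ⟨(add_mem_cancel_right (sum_mem h2)).1 h3, h2⟩

/-- The diagonal maps. -/
def hh (r s t : F) : Module.End F (Alb a b c) where
  toFun x := ⟨2 * r * x.d1, 2 * s * x.d2, 2 * t * x.d3, (s + t) • x.x1, (t + r) • x.x2,
    (r + s) • x.x3⟩
  map_add' x y := by ext1 <;> simp [mul_add]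
  map_smul' t x := by ext1 <;> simp [mul_left_comm, smul_comm t]

theorem hh_apply (r s t : F) (x : Alb a b c) : hh r s t x = ⟨2 * r * x.d1, 2 * s * x.d2,
    2 * t * x.d3, (s + t) • x.x1, (t + r) • x.x2, (r + s) • x.x3⟩ := rfl

theorem dr_hh {r s t : F} (h : r + s + t = 0) : Dr (hh r s t : Module.End F (Alb a b c)) := by
  intro x
  have h1 := tri1 x.x1 x.x2 x.x3
  have h2 := tri2 x.x1 x.x2 x.x3
  have h3 := tri3 x.x1 x.x2 x.x3
  simp only [tf, adj, hh_apply, bil_sub_left, bil_smul_left, bil_smul_right, bil_self, h1, h2, h3]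
  linear_combination (2 * (x.d1 * x.d2 * x.d3 - x.d1 * norm x.x1 - x.d2 * norm x.x2 -
    x.d3 * norm x.x3 + bil (x.x1 * x.x2 * x.x3) 1)) * h

/-- A sum of root operators. -/
def six (u1 u2 u3 v1 v2 v3 : Oct a b c) : Module.End F (Alb a b c) :=
  P1 u1 + P2 u2 + P3 u3 + M1 v1 + M2 v2 + M3 v3

theorem dr_six (u1 u2 u3 v1 v2 v3 : Oct a b c) : Dr (six u1 u2 u3 v1 v2 v3) :=
  (((((dr_P1 _).add (dr_P2 _)).add (dr_P3 _)).add (dr_M1 _)).add (dr_M2 _)).add (dr_M3 _)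

theorem six_apply (u1 u2 u3 v1 v2 v3 : Oct a b c) (x : Alb a b c) : six u1 u2 u3 v1 v2 v3 x =
    ⟨bil u3 x.x3 + bil (star v2) x.x2, bil u1 x.x1 + bil (star v3) x.x3,
      bil u2 x.x2 + bil (star v1) x.x1,
      x.d3 • u1 + star (u2 * x.x3) + x.d2 • star v1 + v3 * star x.x2,
      x.d1 • u2 + star (u3 * x.x1) + v1 * star x.x3 + x.d3 • star v2,
      star (u1 * x.x2) + x.d2 • u3 + v2 * star x.x1 + x.d1 • star v3⟩ := by
  ext1 <;> simp [six, P1_apply, P2_apply, P3_apply, M1_apply, M2_apply, M3_apply]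

variable [CharZero F]

theorem brk_hh {r s t : F} (h : r + s + t = 0) {X : Module.End F (Alb a b c)} (hX : Dr X) :
    hh r s t * X - X * hh r s t = six ((s - t) • (X e3).x1) ((t - r) • (X e1).x2)
      ((r - s) • (X e2).x3) ((t - s) • star (X e2).x1) ((r - t) • star (X e3).x2)
      ((s - r) • star (X e1).x3) := by
  obtain ⟨p1, p2, p3⟩ := hX.at1
  obtain ⟨q1, q2, q3⟩ := hX.at2
  obtain ⟨r1, r2, r3⟩ := hX.at3
  have k1 : hh r s t (e1 : Alb a b c) = (2 * r) • e1 := by ext1 <;> simp [hh_apply, e1]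
  have k2 : hh r s t (e2 : Alb a b c) = (2 * s) • e2 := by ext1 <;> simp [hh_apply, e2]
  have k3 : hh r s t (e3 : Alb a b c) = (2 * t) • e3 := by ext1 <;> simp [hh_apply, e3]
  have k4 : ∀ w, hh r s t (o3 w : Alb a b c) = (r + s) • o3 w := fun w => by
    ext1 <;> simp [hh_apply, o3]
  refine sub_eq_zero.1 ((((dr_hh h).brk hX).sub (dr_six _ _ _ _ _ _)).eq_zero ⟨?_, ?_, ?_⟩ fun w => ?_) <;>
    simp only [LinearMap.sub_apply, Module.End.mul_apply, k1, k2, k3, k4, map_smul] <;>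
    rw [hh_apply, six_apply]
  · ext1 <;> simp [p1, p2, p3, star_smul_oct] <;> simp [e1] <;> module
  · ext1 <;> simp [q1, q2, q3, star_smul_oct] <;> simp [e2] <;> module
  · ext1 <;> simp [r1, r2, r3, star_smul_oct] <;> simp [e3] <;> module
  · simp [o3]

theorem brk_six {r s t : F} (h : r + s + t = 0) (u1 u2 u3 v1 v2 v3 : Oct a b c) :
    hh r s t * six u1 u2 u3 v1 v2 v3 - six u1 u2 u3 v1 v2 v3 * hh r s t =
      six ((s - t) • u1) ((t - r) • u2) ((r - s) • u3) ((t - s) • v1) ((r - t) • v2)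
        ((s - r) • v3) := by
  rw [brk_hh h (dr_six _ _ _ _ _ _)]
  simp [six_apply, e1, e2, e3]

omit [CharZero F] in
theorem six_smul (t : Fin 6 → F) (u1 u2 u3 v1 v2 v3 : Oct a b c) :
    six (t 0 • u1) (t 1 • u2) (t 2 • u3) (t 3 • v1) (t 4 • v2) (t 5 • v3) =
      ∑ i, t i • ![P1 u1, P2 u2, P3 u3, M1 v1, M2 v2, M3 v3] i := by
  have h1 := P1_lin (t 0) 0 u1 0
  have h2 := P2_lin (t 1) 0 u2 0
  have h3 := P3_lin (t 2) 0 u3 0
  have h4 := M1_lin (t 3) 0 v1 0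
  have h5 := M2_lin (t 4) 0 v2 0
  have h6 := M3_lin (t 5) 0 v3 0
  simp only [zero_smul, add_zero] at h1 h2 h3 h4 h5 h6
  simp [six, Fin.sum_univ_six, h1, h2, h3, h4, h5, h6]

theorem oct_simple {p : Oct a b c → Prop}
    (h1 : ∀ (s t : F) u v, p u → p v → p (s • u + t • v)) (h2 : ∀ u v w, p u → p (w * (u * v)))
    {u : Oct a b c} (hu : p u) (h0 : u ≠ 0) (v : Oct a b c) : p v := by
  have key : ∀ u, p u → u ≠ 0 → star u = -u → p v := fun u hu h0 h => by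
    obtain ⟨w, hw⟩ : ∃ w, bil u w ≠ 0 := by
      by_contra hn
      push Not at hn
      exact h0 (eq_zero_of_bil hn)
    convert h2 _ 1 v (h1 (bil u w)⁻¹ (-(bil u w)⁻¹) _ _ (h2 _ (star w) 1 hu) (h2 _ 1 w hu)) using 1
    rw [one_mul, mul_one, mul_one, neg_smul, ← smul_neg, ← smul_add, ← mul_neg, ← h,
      mul_star_add, smul_smul, inv_mul_cancel₀ hw, one_smul, mul_one]
  have k : ∀ w, p ((1 : F) • (w * (u * 1)) + (-1 : F) • (1 * (u * w))) := fun w =>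
    h1 _ _ _ _ (h2 _ _ _ hu) (h2 _ _ _ hu)
  by_contra hn
  have k1 := not_not.1 fun h => hn (key _ (k gi) h (by apply ext8 <;> simp [gi]))
  have k2 := not_not.1 fun h => hn (key _ (k gj) h (by apply ext8 <;> simp [gj]))
  have e : u = u.fst.re • 1 := by
    simp only [Oct.ext_iff, QuaternionAlgebra.ext_iff] at k1 k2 ⊢
    simp [gi, gj] at k1 k2 ⊢
    tauto
  have e1 : u.fst.re ≠ 0 := fun h => h0 (by rw [e, h, zero_smul])
  refine hn ?_
  convert h1 (u.fst.re)⁻¹ 0 _ _ (h2 _ 1 v hu) hu using 1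
  rw [zero_smul, add_zero, mul_one, ← mul_smul_oct, e, smul_smul]
  simp [e1]

section nor

variable {U : Submodule F (Module.End F (Alb a b c))} (hU : ∀ Z, Dr Z → Z ∈ nor U)

include hU

theorem roots {u1 u2 u3 v1 v2 v3 : Oct a b c} (h : six u1 u2 u3 v1 v2 v3 ∈ U) (i : Fin 6) :
    ![P1 u1, P2 u2, P3 u3, M1 v1, M2 v2, M3 v3] i ∈ U := by
  have h0 : (3 : F) + -1 + -2 = 0 := by norm_num
  refine vand (c := ![1, -5, 4, -1, 5, -4]) (fun i j h => ?_) Finset.univ _ (fun n => ?_) i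
    (Finset.mem_univ _)
  · fin_cases i <;> fin_cases j <;> first | rfl | norm_num at h
  rw [← six_smul]
  induction n with
  | zero => simpa using h
  | succ n ih =>
    have := hU _ (dr_hh h0) _ ih
    rw [brk_six h0] at this
    convert this using 2 <;> rw [smul_smul, pow_succ'] <;> simp <;> norm_num

omit [CharZero F] in
theorem cyc (u v : Oct a b c) : (P3 u ∈ U → M2 (u * v) ∈ U) ∧ (M2 u ∈ U → P1 (v * u) ∈ U) ∧
    (P1 u ∈ U → M3 (u * v) ∈ U) ∧ (M3 u ∈ U → P2 (v * u) ∈ U) ∧ (P2 u ∈ U → M1 (u * v) ∈ U) ∧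
    (M1 u ∈ U → P3 (v * u) ∈ U) :=
  have hb : ∀ X ∈ U, ∀ Z, Dr Z → X * Z - Z * X ∈ U := fun X hX Z hZ =>
    neg_sub (Z * X) _ ▸ neg_mem (hU Z hZ X hX)
  ⟨fun h => brk_P3_P1 u v ▸ hb _ h _ (dr_P1 v), fun h => brk_M3_M2 v u ▸ hU _ (dr_M3 v) _ h,
    fun h => brk_P1_P2 u v ▸ hb _ h _ (dr_P2 v), fun h => brk_M1_M3 v u ▸ hU _ (dr_M1 v) _ h,
    fun h => brk_P2_P3 u v ▸ hb _ h _ (dr_P3 v), fun h => brk_M2_M1 v u ▸ hU _ (dr_M2 v) _ h⟩

theorem full {u : Oct a b c} (h : P3 u ∈ U) (hu : u ≠ 0) {X : Module.End F (Alb a b c)}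
    (hX : Dr X) : X ∈ U := by
  let D : Submodule F (Module.End F (Alb a b c)) :=
    ⟨⟨⟨{X | Dr X}, Dr.add⟩, fun x => tf_zero_right _⟩, fun t _ => Dr.smul t⟩
  have c := fun u => cyc hU u 1
  simp only [mul_one, one_mul] at c
  have h1 : ∀ v, P3 v ∈ U := oct_simple (p := fun u => P3 u ∈ U) (fun s t u v h1 h2 =>
    P3_lin s t u v ▸ add_mem (U.smul_mem s h1) (U.smul_mem t h2)) (fun u v w h =>
      (c _).2.2.2.2.2 ((c _).2.2.2.2.1 ((c _).2.2.2.1 ((c _).2.2.1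
        ((cyc hU _ w).2.1 ((cyc hU u v).1 h)))))) h hu
  refine (star_main (V := U ⊓ D) (fun X hX Y hY => ⟨hU X hX.2 Y hY.1, Dr.brk hX.2 hY.2⟩)
    (fun q _ => ?_) hX).1
  have a1 := (c _).1 (h1 q)
  have a2 := (c _).2.1 a1
  have a3 := (c _).2.2.1 a2
  have a4 := (c _).2.2.2.1 a3
  exact ⟨⟨a2, dr_P1 _⟩, ⟨a4, dr_P2 _⟩, ⟨h1 q, dr_P3 _⟩, ⟨(c _).2.2.2.2.1 a4, dr_M1 _⟩,
    ⟨a1, dr_M2 _⟩, a3, dr_M3 _⟩

end nor

/-- A map which commutes with all derivations is a scalar. -/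
theorem dr_scalar {g : Module.End F (Alb a b c)} (hg : ∀ X, Dr X → g * X = X * g) :
    ∃ t : F, ∀ x, g x = t • x := by
  have h : ∀ X, Dr X → ∀ x, g (X x) = X (g x) := fun X hX => LinearMap.congr_fun (hg X hX)
  have h1 := h _ (dr_hh (r := 2) (s := -1) (t := -1) (by norm_num)) e1
  have k1 : hh 2 (-1) (-1) (e1 : Alb a b c) = (4 : F) • e1 := by
    ext1 <;> simp [hh_apply, e1]
    norm_num
  rw [k1, map_smul, ← sub_eq_zero] at h1
  obtain ⟨t, h2⟩ : ∃ t : F, g e1 = t • e1 := by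
    refine ⟨(g e1).d1, ?_⟩
    generalize g e1 = y at h1
    simp only [Alb.ext_iff, hh_apply] at h1 ⊢
    simp only [e1, d1_sub, d2_sub, d3_sub, x1_sub, x2_sub, x3_sub, d1_smul, d2_smul, d3_smul,
      x1_smul, x2_smul, x3_smul, ← sub_smul, ← sub_mul, d1_zero, d2_zero, d3_zero, x1_zero, x2_zero,
      x3_zero, smul_eq_zero, mul_eq_zero] at h1 ⊢
    norm_num at h1 ⊢
    exact h1
  refine ⟨t, fun x => ?_⟩
  have e : x = x.d1 • e1 + (x.d2 / 2) • M3 1 (M3 1 e1) + (x.d3 / 2) • P2 1 (P2 1 e1) +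
      M3 1 (P2 (star x.x1) e1) + P2 x.x2 e1 + M3 (star x.x3) e1 := by
    ext1 <;> simp [P2_apply, M3_apply, e1, bil_one_one]
  conv_lhs => rw [e]
  conv_rhs => rw [e]
  simp only [map_add, map_smul, h _ (dr_P2 _), h _ (dr_M3 _), h2]
  module

theorem dr_zero {g : Module.End F (Alb a b c)} (h : Dr g) (hg : ∀ X, Dr X → g * X = X * g) :
    g = 0 := by
  obtain ⟨t, ht⟩ := dr_scalar hg
  have h1 := h.sum
  simp only [ht, e1, e2, e3, d1_smul, d2_smul, d3_smul, mul_one] at h1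
  have h2 : t = 0 := by linear_combination h1 / 3
  exact LinearMap.ext fun x => by rw [ht, h2, zero_smul, LinearMap.zero_apply]

/-- **Simplicity.** -/
theorem dr_simple {U : Submodule F (Module.End F (Alb a b c))} (hU : ∀ Z, Dr Z → Z ∈ nor U)
    {X0 : Module.End F (Alb a b c)} (h0 : X0 ∈ U) (h1 : Dr X0) (h2 : X0 ≠ 0)
    {X : Module.End F (Alb a b c)} (hX : Dr X) : X ∈ U := by
  by_contra hn
  have e0 : (3 : F) + -1 + -2 = 0 := by norm_num
  have k : ∀ u, P3 u ∈ U → u = 0 := fun u h => by_contra fun h' => hn (full hU h h' hX)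
  set C : Submodule F (Module.End F (Alb a b c)) := ⨅ X ∈ {X | X ∈ U ∧ Dr X}, cen X with hC
  have c := fun u => cyc hU u 1
  simp only [mul_one, one_mul] at c
  have m : ∀ Y, Y ∈ C ↔ ∀ X, X ∈ U ∧ Dr X → X * Y = Y * X := fun Y => by
    simp only [hC, Submodule.mem_iInf]
    rfl
  have hN : ∀ Z, Dr Z → Z ∈ nor C := fun Z hZ Y hY => (m _).2 fun X hX => by
    have a1 := (m _).1 hY _ hX
    have a2 := (m _).1 hY _ ⟨hU Z hZ X hX.1, hZ.brk hX.2⟩
    linear_combination (norm := noncomm_ring) Z * a1 - a1 * Z - a2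
  have h3 : hh 3 (-1) (-2) ∈ C := (m _).2 fun X hX => by
    have a1 := hU _ (dr_hh e0) _ hX.1
    rw [eq_comm, ← sub_eq_zero]
    rw [brk_hh e0 hX.2] at a1 ⊢
    have a6 := fun u h => k u ((c u).2.2.2.2.2 h)
    have a5 := fun u h => a6 u ((c u).2.2.2.2.1 h)
    have a4 := fun u h => a5 u ((c u).2.2.2.1 h)
    have a3 := fun u h => a4 u ((c u).2.2.1 h)
    rw [a3 _ (roots hU a1 0), a5 _ (roots hU a1 1), k _ (roots hU a1 2), a6 _ (roots hU a1 3),
      a3 _ ((c _).2.1 (roots hU a1 4)), a4 _ (roots hU a1 5)]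
    exact LinearMap.ext fun x => by ext1 <;> simp [six_apply]
  have h4 := neg_mem (hN _ (dr_six 1 1 1 1 1 1) _ h3)
  rw [neg_sub, brk_six e0] at h4
  refine h2 (dr_zero h1 fun Z hZ => (m _).1 (full hN (roots hN h4 2) (fun h5 => ?_) hZ) _ ⟨h0, h1⟩)
  have := congrArg (fun z => z.fst.re) h5
  norm_num at this

end Vale.Agent.P011ND
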