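import Vale.Agent.P011ND.Kk

/-!
Trialitarian groups: the directions of rational curves generate the orthogonal Lie algebra.
-/

namespace Vale.Agent.P011ND

open Vale.Agent.P011 Vale.Agent.P011.MPQ Vale.Agent.P011.D4 Vale.Agent.P011.D4.Oct
open Vale.Agent.P011.D4X Vale.Agent.P011.D4.Em Vale.Agent.P011.E6
open Vale.Agent.P011.D4Y (Im)

theorem bl_apply {F : Type} [Field F] {a b c : Fˣ} (x y : Oct a b c) : bl a b c x y = bil x y := rfl

theorem ob_bl {F : Type} [Field F] [NeZero (2 : F)] (a b c : Fˣ) : Ob (bl a b c) ob := by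
  have h2 : (2 : F) ≠ 0 := NeZero.ne 2
  refine ⟨h2, bil_comm, fun m n h => ?_, fun m => ?_, fun v => ⟨_, sum_oc v⟩⟩
  · fin_cases m <;> fin_cases n <;> simp [bl_apply, bil_eq, ob] at h ⊢
  · fin_cases m <;> simp [bl_apply, bil_eq, ob, h2]

theorem vdm {E M : Type} [Field E] [AddCommGroup M] [Module E M] {N : Submodule E M} {A B C : M}
    {x y z : E} (h0 : A + B + C ∈ N) (h1 : x • A + y • B + z • C ∈ N)
    (h2 : (x * x) • A + (y * y) • B + (z * z) • C ∈ N) (hy : x ≠ y) (hz : x ≠ z) : A ∈ N := by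
  have h3 := N.smul_mem ((x - y) * (x - z))⁻¹
    (add_mem (sub_mem h2 (N.smul_mem (y + z) h1)) (N.smul_mem (y * z) h0))
  have h4 : (x * x) • A + (y * y) • B + (z * z) • C - (y + z) • (x • A + y • B + z • C) +
      (y * z) • (A + B + C) = ((x - y) * (x - z)) • A := by module
  rwa [h4, smul_smul, inv_mul_cancel₀ (mul_ne_zero (sub_ne_zero.2 hy) (sub_ne_zero.2 hz)),
    one_smul] at h3

variable {k E : Type} [Field k] [Field E] [Algebra k E] {a b c b' c' : kˣ}

/-- A quaternion with given coordinates. -/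
def q4 (a b : kˣ) (r s t u : E) : Qt (up E a) (up E b) := ⟨r, s, t, u⟩

@[simp] theorem q4_re (r s t u : E) : (q4 a b r s t u).re = r := rfl
@[simp] theorem q4_imI (r s t u : E) : (q4 a b r s t u).imI = s := rfl
@[simp] theorem q4_imJ (r s t u : E) : (q4 a b r s t u).imJ = t := rfl
@[simp] theorem q4_imK (r s t u : E) : (q4 a b r s t u).imK = u := rfl

theorem mk4_q4 (α s s' t t' : E) : D4X.mk4 (up E a) (up E b) α s s' t t' =
    q4 a b ((s + s') / 2) ((s - s') / (2 * α)) ((t + t') / 2) ((t - t') / (2 * α)) := rfl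

theorem stsm (t : E) (x : Qt (up E a) (up E b)) : star (t • x) = t • star x :=
  QuaternionAlgebra.star_smul _ _

theorem wd_fst (x y : Qt (up E a) (up E b)) :
    (2 : E) • wd (bl (up E a) (up E b) (up E c)) ⟨x, 0⟩ ⟨y, 0⟩ =
      lr (x * star y - star (x * star y)) 1 0 0 + lr 1 (star y * x - star (star y * x)) 0 0 := by
  refine LinearMap.ext fun v => ?_
  apply ext8 <;> simp [wd_apply, bl_apply, bil_eq, lr_fst, lr_snd] <;> ring

theorem wd_snd (x y : Qt (up E a) (up E b)) :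
    (2 : E) • wd (bl (up E a) (up E b) (up E c)) ⟨0, x⟩ ⟨0, y⟩ = (-algebraMap k E c) •
      (lr 0 0 (x * star y - star (x * star y)) 1 + lr 0 0 1 (star y * x - star (star y * x))) := by
  refine LinearMap.ext fun v => ?_
  apply ext8 <;> simp [wd_apply, bl_apply, bil_eq, lr_fst, lr_snd, -algebraMap_smul] <;> ring

namespace Pm

variable {P : Pm k E}

theorem Li.add {X Y : Module.End E (OctL E a b c)} (hX : P.Li X) (hY : P.Li Y) : P.Li (X + Y) := by
  refine ⟨fun x y => ?_, fun x => ?_, fun hf x => ?_⟩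
  · simp only [LinearMap.add_apply, hX.1, hY.1, tri_add_left, tri_add_right]
    abel
  · rw [LinearMap.add_apply, LinearMap.add_apply, hX.2.1, hY.2.1, J, J, J, Jq_add]
  · rw [LinearMap.add_apply, LinearMap.add_apply, hX.2.2 hf, hY.2.2 hf, D4Y.Ch.Im_add]

theorem Li.smul {X : Module.End E (OctL E a b c)} (hX : P.Li X) (t : k) :
    P.Li (algebraMap k E t • X) := by
  refine ⟨fun x y => ?_, fun x => ?_, fun hf x => ?_⟩
  · simp only [LinearMap.smul_apply, hX.1, tri_smul_left, tri_smul_right, AlgEquiv.commutes,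
      smul_add]
  · rw [LinearMap.smul_apply, LinearMap.smul_apply, hX.2.1, J, J, Jq_smul, AlgEquiv.commutes]
  · rw [LinearMap.smul_apply, LinearMap.smul_apply, hX.2.2 hf, D4Y.Ch.Im_smul, AlgEquiv.commutes]

theorem Li.neg {X : Module.End E (OctL E a b c)} (hX : P.Li X) : P.Li (-X) := by
  simpa using hX.smul (-1)

theorem Li.zero : P.Li (0 : Module.End E (OctL E a b c)) := by
  refine ⟨fun x y => by simp, fun x => ?_, fun hf x => ?_⟩
  · simpa [J] using (Jq_smul (σ := P.σ) (α := P.α) P.q (P.ρ P.q) 0 x).symm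
  · simpa using (D4Y.Ch.Im_smul P.ι 0 x).symm

theorem Li.br {X Y : Module.End E (OctL E a b c)} (hX : P.Li X) (hY : P.Li Y) :
    P.Li (X * Y - Y * X) := by
  have h1 : ∀ x y : OctL E a b c, P.J (x - y) = P.J x - P.J y := fun x y => by
    rw [eq_sub_iff_add_eq, J, J, J, ← Jq_add, sub_add_cancel]
  have h2 : ∀ x y : OctL E a b c, Im P.ι (x - y) = Im P.ι x - Im P.ι y := fun x y => by
    rw [eq_sub_iff_add_eq, ← D4Y.Ch.Im_add, sub_add_cancel]
  refine ⟨fun x y => ?_, fun x => ?_, fun hf x => ?_⟩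
  · simp only [LinearMap.sub_apply, Module.End.mul_apply, hX.1, hY.1, tri_sub_left, tri_sub_right,
      map_add]
    abel
  · simp only [LinearMap.sub_apply, Module.End.mul_apply, hX.2.1, hY.2.1, h1]
  · simp only [LinearMap.sub_apply, Module.End.mul_apply, hX.2.2 hf, hY.2.2 hf, h2]

theorem Good.smul {Y : Module.End E (OctL E a b c)} (hY : P.Good Y) (s : k) :
    P.Good (algebraMap k E s • Y) := by
  obtain ⟨h1, Z, h2⟩ := hY
  refine ⟨h1.smul s, (algebraMap k E s * algebraMap k E s) • Z, fun t => ?_⟩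
  have := h2 (t * s)
  rwa [map_mul, mul_smul _ _ Y, mul_mul_mul_comm, mul_smul _ _ Z] at this

theorem smul_one_zero {t : E} (h : t • (1 : OctL E a b c) = 0) : t = 0 := by
  simpa using congrArg (fun z : OctL E a b c => z.fst.re) h

theorem Li.sk (h : P.Ok a) {X : Module.End E (OctL E a b c)} (hX : P.Li X) :
    Sk (bl (up E a) (up E b) (up E c)) X := fun x z => by
  have p := polar1 (a := a) (b := b) (c := c) h.hj.r3
  have h1 := congrArg X (p x 1 z)
  simp only [map_add, map_smul, hX.1, tri_add_left] at h1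
  have h2 : (P.ρ (P.ρ (bil (X x) z + bil x (X z)))) • (1 : OctL E a b c) = 0 := by
    rw [map_add, map_add, add_smul, ← p, ← p, ← sub_eq_zero.2 h1, ← p]
    abel
  exact (map_eq_zero P.ρ).1 ((map_eq_zero P.ρ).1 (smul_one_zero h2))

theorem St.bil (h : P.Ok a) {g : Module.End E (OctL E a b c)} (hg : P.St g)
    (hi : Function.Injective g) (x z : OctL E a b c) : bil (g x) (g z) = bil x z := by
  have p := polar1 (a := a) (b := b) (c := c) h.hj.r3
  have h1 := congrArg g (p x 1 z)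
  rw [map_add, map_smul, hg.1, hg.1, hg.1, hg.1, p] at h1
  have h2 : g 1 ≠ 0 := fun h0 => one_ne_zero (smul_one_zero (a := a) (b := b) (c := c)
    ((one_smul E _).trans (hi (h0.trans (map_zero g).symm))))
  simpa using smul_left_injective E h2 h1

variable (P) in
/-- An isomorphism of models. -/
structure Iso (Φ : OctL E a b' c' ≃ₗ[E] OctL E a b c) : Prop where
  tr : ∀ x y, Φ (tri P.ρ x y) = tri P.ρ (Φ x) (Φ y)
  jj : ∀ x, Φ (P.J x) = P.J (Φ x)
  ii : ∀ x, Φ (Im P.ι x) = Im P.ι (Φ x)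
  bi : ∀ x y, bil (Φ x) (Φ y) = bil x y

theorem Iso.good {Φ : OctL E a b' c' ≃ₗ[E] OctL E a b c} (H : P.Iso Φ)
    {Y : Module.End E (OctL E a b' c')} (hY : P.Good Y) : P.Good (Φ.conjAlgEquiv E Y) := by
  set C := Φ.conjAlgEquiv E with hC
  have e : ∀ f x, C f (Φ x) = Φ (f x) := fun f x => by simp [hC]
  have hs := Φ.surjective
  have h0 : ∀ f, P.Cm f → P.Cm (C f) := fun f hf =>
    ⟨hs.forall.2 fun x => by rw [← H.jj, e, e, hf.1, H.jj],
      fun h => hs.forall.2 fun x => by rw [← H.ii, e, e, hf.2 h, H.ii]⟩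
  obtain ⟨h1, Z, h2⟩ := hY
  refine ⟨⟨hs.forall₂.2 fun x y => by rw [← H.tr, e, e, e, h1.1, map_add, H.tr, H.tr], h0 _ h1.2⟩,
    C Z, fun t ht => ?_⟩
  have e1 : ∀ s : E, 1 - s • C Y + (s * s) • C Z = C (1 - s • Y + (s * s) • Z) := fun s => by
    rw [map_add, map_sub, map_one, map_smul, map_smul]
  rw [e1] at ht
  obtain ⟨g, g1, g2, g3⟩ := h2 t (by simpa using ht.map C.symm)
  exact ⟨C g, ⟨hs.forall₂.2 fun x y => by rw [← H.tr, e, e, e, g1.1, H.tr], h0 _ g1.2⟩, g2.map C,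
    by rw [e1, ← map_mul, g3, map_add, map_add, map_one, map_smul, map_smul]⟩

theorem Iso.wd {Φ : OctL E a b' c' ≃ₗ[E] OctL E a b c} (H : P.Iso Φ) (x y : OctL E a b' c') :
    Φ.conjAlgEquiv E (wd (bl _ _ _) x y) = wd (bl _ _ _) (Φ x) (Φ y) := by
  refine LinearMap.ext (Φ.surjective.forall.2 fun v => ?_)
  simp [wd_apply, bl_apply, H.bi]

variable [NeZero (2 : E)]

theorem iso_trip {j l : Oct a b c} (T : Trip a b' c' gi j l) : P.Iso (tripO E T) := by
  have h1 : ∀ {b c : kˣ} (x : OctL E a b c), P.J x = (⟨mq a b P.α P.q, 0⟩ : OctL E a b c) *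
      omap P.σ x * ⟨mq a b P.α (P.q * P.ρ P.q), 0⟩ := fun x => by
    ext1
    · simp only [J, Jq, fst_mul, snd_mul, omap, star_zero, zero_mul, mul_zero, smul_zero, add_zero]
    · simp only [J, Jq, fst_mul, snd_mul, omap, zero_mul, mul_zero, zero_add, add_zero, mul_assoc]
  exact ⟨tripO_tri _ T, fun x => by
    rw [h1, h1, tripO_mul, tripO_mul, tripO_mq, tripO_mq, tripO_omap], D4Y.tripO_Im _ T,
    hom_bil (tripO_mul T)⟩

variable (h : P.Ok a)

include h

theorem pure_ind {p : Qt (up E a) (up E b) → Prop} (h1 : ∀ u v, p u → p v → p (u + v))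
    (h2 : ∀ (e : E) u, p u → p (e • u)) (h3 : ∀ u, P.Tw u → star u = -u → p u)
    {v : Qt (up E a) (up E b)} (hv : star v = -v) : p v := by
  have j := h.hj
  have a0 := al_ne (a := up E a) j.al
  have q0 := j.q_ne
  have t0 : (2 : E) ≠ 0 := NeZero.ne 2
  have r0 : v.re = 0 := by
    have := congrArg QuaternionAlgebra.re hv
    simp only [QuaternionAlgebra.re_star, QuaternionAlgebra.re_neg] at this
    exact mul_left_cancel₀ t0 (by linear_combination this)
  have mm := mk4_mul (a := up E a) (b := up E b) j.al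
  have u0 : p (q4 a b 0 1 0 0) :=
    h3 _ ⟨by ext <;> simp [mq_eq, mk4_q4], fun _ => by ext <;> simp⟩ (by ext <;> simp)
  have u1 : p (D4X.mk4 _ _ P.α 0 0 P.q 1) := h3 _ ⟨by
      simp [mq_eq, qmap_mk4' j.sa, mm, j.s0], fun hf => by
      simp [qmap_mk4 j.ra, qmap_mk4 (h.ia hf), h.iq hf]⟩ (by
        ext <;> simp [mk4_q4])
  have u2 : p (D4X.mk4 _ _ P.α 0 0 (-(P.q * P.α)) P.α) := h3 _ ⟨by
      simp [mq_eq, qmap_mk4' j.sa, mm, j.s0, j.sa, mul_comm], fun hf => by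
      simp [qmap_mk4 j.ra, qmap_mk4 (h.ia hf), h.iq hf, j.ra, h.ia hf]⟩ (by
        ext <;> simp [mk4_q4])
  convert h1 _ _ (h2 v.imI _ u0) (h1 _ _
    (h2 (((v.imJ + v.imK * P.α) / P.q + (v.imJ - v.imK * P.α)) / 2) _ u1)
    (h2 (((v.imJ - v.imK * P.α) - (v.imJ + v.imK * P.α) / P.q) / (2 * P.α)) _ u2)) using 1
  ext <;> simp [mk4_q4, r0] <;> field_simp <;> ring

theorem parts {N : Submodule E (Module.End E (OctL E a b c))} (hN : ∀ Y, P.Good Y → Y ∈ N)
    {v : Qt (up E a) (up E b)} (hv : star v = -v) :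
    lr v 1 0 0 ∈ N ∧ lr 1 v 0 0 ∈ N ∧ lr 0 0 1 v ∈ N ∧ lr 0 0 v 1 ∈ N := by
  obtain ⟨θ, hθ, h1⟩ := h.th
  have h2 : P.ρ (P.ρ θ) ≠ P.ρ θ := P.ρ.injective.ne h1
  have h3 : θ ≠ P.ρ (P.ρ θ) := by simpa only [h.hj.r3] using P.ρ.injective.ne h2
  have key : ∀ u : Qt (up E a) (up E b), P.Tw u → star u = -u → lr u 1 0 0 ∈ N ∧
      lr 1 (star (qmap P.ρ (qmap P.ρ u))) 0 0 ∈ N ∧ lr 0 0 1 (star (qmap P.ρ u)) ∈ N := by
    intro u hu su
    have k0 : ∀ e, P.LE e → e • lr u 1 0 0 + P.ρ (P.ρ e) • lr 1 (star (qmap P.ρ (qmap P.ρ u))) 0 0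
        + P.ρ e • lr 0 0 1 (star (qmap P.ρ u)) ∈ N := fun e he => by
      convert hN _ (good_kk h (w := 0) (hu.smul he) (fun φ => qmap_zero φ) (by
        rw [QuaternionAlgebra.star_smul, su, smul_neg]) (by simp)) using 1
      refine LinearMap.ext fun y => Oct.ext ?_ ?_ <;>
        simp only [kk_fst, kk_snd, lr_fst, lr_snd, qmap_smul, stsm, LinearMap.add_apply,
          LinearMap.smul_apply, fst_add, snd_add, fst_smul, snd_smul, mul_one, one_mul, mul_zero,
          zero_mul, smul_zero, add_zero, zero_add, smul_mul_assoc, mul_smul_comm]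
    have k1 := k0 _ (LE.alg 1)
    have k2 := k0 _ hθ
    have k3 := k0 _ (hθ.mul hθ)
    simp only [map_one, one_smul, map_mul] at k1 k3
    refine ⟨vdm k1 k2 k3 h3 h1.symm, ?_, ?_⟩
    · rw [add_comm (lr u 1 0 0)] at k1
      rw [add_comm (θ • _)] at k2
      rw [add_comm ((θ * θ) • _)] at k3
      exact vdm k1 k2 k3 h3.symm h2
    · rw [add_comm, ← add_assoc] at k1 k2 k3
      exact vdm k1 k2 k3 h1 h2.symm
  have s1 : ∀ φ : E ≃ₐ[k] E, ∀ {v : Qt (up E a) (up E b)}, star v = -v →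
      star (qmap φ v) = -qmap φ v := fun φ v hv => by rw [← qmap_star, hv, qmap_neg]
  have s2 : star (star v) = -star v := by rw [hv, star_neg, hv]
  have ad : ∀ (f : Qt (up E a) (up E b) → Module.End E (OctL E a b c)) (φ : E → E),
      (∀ u v, f (u + v) = f u + f v) → (∀ (e : E) u, f (e • u) = φ e • f u) →
      (∀ u, P.Tw u → star u = -u → f u ∈ N) → ∀ v, star v = -v → f v ∈ N :=
    fun f φ f1 f2 f3 v hv => pure_ind h (p := fun v => f v ∈ N)
      (fun u v hu hv => f1 u v ▸ add_mem hu hv) (fun e u hu => f2 e u ▸ N.smul_mem _ hu) f3 hv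
  refine ⟨ad (fun u => lr u 1 0 0) id (fun u v => ?_) (fun e u => ?_) (fun u h1 h2 =>
    (key u h1 h2).1) v hv, ?_, ?_, ?_⟩
  · refine LinearMap.ext fun y => Oct.ext ?_ ?_ <;> simp [lr_fst, lr_snd, add_mul]
  · refine LinearMap.ext fun y => Oct.ext ?_ ?_ <;> simp [lr_fst, lr_snd]
  · have := ad (fun u => lr 1 (star (qmap P.ρ (qmap P.ρ u))) 0 0) (fun e => P.ρ (P.ρ e))
      (fun u v => ?_) (fun e u => ?_) (fun u h1 h2 => (key u h1 h2).2.1) _ (s1 P.ρ s2)
    · simpa only [h.hj.qcube, star_star] using this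
    · refine LinearMap.ext fun y => Oct.ext ?_ ?_ <;> simp [lr_fst, lr_snd, mul_add, qmap_add]
    · refine LinearMap.ext fun y => Oct.ext ?_ ?_ <;>
        simp only [lr_fst, lr_snd, qmap_smul, stsm, LinearMap.smul_apply, fst_smul, snd_smul,
          mul_zero, smul_zero, mul_smul_comm]
  · have := ad (fun u => lr 0 0 1 (star (qmap P.ρ u))) (fun e => P.ρ e)
      (fun u v => ?_) (fun e u => ?_) (fun u h1 h2 => (key u h1 h2).2.2) _ (s1 P.ρ (s1 P.ρ s2))
    · simpa only [h.hj.qcube, star_star] using this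
    · refine LinearMap.ext fun y => Oct.ext ?_ ?_ <;> simp [lr_fst, lr_snd, mul_add, qmap_add]
    · refine LinearMap.ext fun y => Oct.ext ?_ ?_ <;>
        simp only [lr_fst, lr_snd, qmap_smul, stsm, LinearMap.smul_apply, fst_smul, snd_smul,
          mul_zero, smul_zero, mul_smul_comm]
  · have r0 : v.re = 0 := by
      have := congrArg QuaternionAlgebra.re hv
      simp only [QuaternionAlgebra.re_star, QuaternionAlgebra.re_neg] at this
      exact mul_left_cancel₀ (NeZero.ne (2 : E)) (by linear_combination this)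
    have k0 : ∀ w : Qt (up E a) (up E b), Fq w → star w = -w → P.kk 0 w ∈ N := fun w h1 h2 =>
      hN _ (good_kk h (by simp [Tw]) h1 (by simp) h2)
    convert add_mem (N.smul_mem v.imI (k0 (q4 a b 0 1 0 0) (fun φ => ?_) ?_)) (add_mem
      (N.smul_mem v.imJ (k0 (q4 a b 0 0 1 0) (fun φ => ?_) ?_))
      (N.smul_mem v.imK (k0 (q4 a b 0 0 0 1) (fun φ => ?_) ?_))) using 1
    · refine LinearMap.ext fun y => ?_
      apply ext8 <;> simp [kk_fst, kk_snd, lr_fst, lr_snd, r0] <;> ring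
    all_goals ext <;> simp

theorem wd_parts {N : Submodule E (Module.End E (OctL E a b c))} (hN : ∀ Y, P.Good Y → Y ∈ N)
    (x y : Qt (up E a) (up E b)) :
    wd (bl _ _ _) ⟨x, 0⟩ ⟨y, 0⟩ ∈ N ∧ wd (bl _ _ _) ⟨0, x⟩ ⟨0, y⟩ ∈ N := by
  have hd : ∀ {Y}, (2 : E) • Y ∈ N → Y ∈ N := fun {Y} hY => by
    have := N.smul_mem (2 : E)⁻¹ hY
    rwa [smul_smul, inv_mul_cancel₀ (NeZero.ne (2 : E)), one_smul] at this
  have s : ∀ z : Qt (up E a) (up E b), star (z - star z) = -(z - star z) := fun z => by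
    rw [star_sub, star_star, neg_sub]
  have h1 := parts h hN (s (x * star y))
  have h2 := parts h hN (s (star y * x))
  exact ⟨hd (wd_fst x y ▸ add_mem h1.1 h2.2.1),
    hd (wd_snd x y ▸ N.smul_mem _ (add_mem h1.2.2.2 h2.2.2.1))⟩

/-- **Generation.** -/
theorem gen {N : Submodule E (Module.End E (OctL E a b c))} (hB : Br N)
    (hN : ∀ Y, P.Good Y → Y ∈ N) (x y : OctL E a b c) : wd (bl _ _ _) x y ∈ N := by
  have H := iso_trip (P := P) (trip_std (a := a) (b := b) (c := c)).rot.swap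
  set Φ := tripO E (trip_std (a := a) (b := b) (c := c)).rot.swap with hΦ
  have sw := sk_wd (β := bl (up E a) (up E b) (up E c)) bil_comm
  have hd : ∀ {t : E} {Y}, t ≠ 0 → t • Y ∈ N → Y ∈ N := fun {t Y} ht hY => by
    have := N.smul_mem t⁻¹ hY
    rwa [smul_smul, inv_mul_cancel₀ ht, one_smul] at this
  have h2 : (2 : E) ≠ 0 := NeZero.ne 2
  have w0 : wd (bl _ _ _) ⟨1, 0⟩ ⟨0, 1⟩ ∈ N := by
    have h1 := (wd_parts h (N := N.comap (Φ.conjAlgEquiv E).toLinearMap)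
      (fun Y hY => hN _ (H.good hY)) 1 ⟨0, 0, 1, 0⟩).1
    have e1 : Φ ⟨1, 0⟩ = ⟨1, 0⟩ := hom_one (tripO_mul _)
    have e2 : Φ ⟨⟨0, 0, 1, 0⟩, 0⟩ = ⟨0, 1⟩ := by
      rw [hΦ, tripO_apply]
      simp only [emb, qemb, oup_gj]
      apply ext8 <;> simp [gl]
    rw [← e1, ← e2, ← H.wd]
    exact h1
  have w1 : ∀ x, wd (bl _ _ _) ⟨x, 0⟩ ⟨0, 1⟩ ∈ N := fun x => by
    have h1 := hB _ (wd_parts h hN x 1).1 _ w0
    rw [(sw _ _).br] at h1
    refine hd h2 ?_
    convert add_mem h1 (N.smul_mem (bil (⟨x, 0⟩ : OctL E a b c) ⟨1, 0⟩) w0) using 1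
    simp [wd_apply, bl_apply, wd_sub, wd_smul, wd_zero', bil_eq]
  have w2 : ∀ x y, wd (bl _ _ _) ⟨0, y⟩ ⟨x, 0⟩ ∈ N := fun x y => by
    have w3 : wd (bl (up E a) (up E b) (up E c)) ⟨0, 1⟩ ⟨x, 0⟩ ∈ N := by
      rw [wd_neg]
      exact neg_mem (w1 x)
    have h1 := hB _ (wd_parts h hN y 1).2 _ w3
    rw [(sw _ _).br] at h1
    refine hd (t := bil (⟨0, 1⟩ : OctL E a b c) ⟨0, 1⟩) (by simp [bil_eq, h2]) ?_
    convert add_mem h1 (N.smul_mem (bil (⟨0, y⟩ : OctL E a b c) ⟨0, 1⟩) w3) using 1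
    simp only [wd_apply, bl_apply, wd_sub, wd_smul]
    simp [bil_eq, wd_zero']
  have e : ∀ x : OctL E a b c, x = ⟨x.fst, 0⟩ + ⟨0, x.snd⟩ := fun x => by ext1 <;> simp
  rw [e x, wd_add, wd_neg _ _ y, wd_neg _ _ y, e y, wd_add, wd_add]
  refine add_mem (neg_mem (add_mem (wd_parts h hN _ _).1 (w2 _ _)))
    (neg_mem (add_mem ?_ (wd_parts h hN _ _).2))
  rw [wd_neg]
  exact neg_mem (w2 _ _)

end Pm

end Vale.Agent.P011ND
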