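import Vale.Agent.P011ND.Opn
import Vale.Agent.P011ND.Ten

/-!
Local analysis of the stabiliser of tensors.
-/

open Matrix Filter Topology
open scoped Matrix.Norms.Operator

namespace Vale.Agent.P011ND

variable {K : Type} [NontriviallyNormedField K] [CompleteSpace K] {n α : Type} [Fintype n]
  [DecidableEq n] [Fintype α]

/-- The equations of the stabiliser. -/
def Dt.eqn (D : Dt n α K) (g : Matrix n n K) : Option α ⊕ n → Matrix n n K
  | .inl none => gᵀ * D.B * g
  | .inl (some a) => g * D.A a - D.A a * g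
  | .inr k => ∑ l, g k l • D.M l - gᵀ * D.M k * g

omit [CompleteSpace K] [Fintype α] in
theorem Dt.eqn_iff (D : Dt n α K) (g : Matrix n n K) : D.eqn g = D.eqn 1 ↔ D.Stab g := by
  have h1 : ∀ k, ∑ l, (1 : Matrix n n K) k l • D.M l = D.M k := fun k => by
    simp [one_apply]
  constructor
  · intro h
    refine ⟨fun a => ?_, ?_, fun k => ?_⟩
    · simpa [Dt.eqn, sub_eq_zero] using congrFun h (.inl (some a))
    · simpa [Dt.eqn] using congrFun h (.inl none)
    · simpa [Dt.eqn, h1, sub_eq_zero] using congrFun h (.inr k)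
  · rintro ⟨g1, g2, g3⟩
    funext e
    rcases e with (_ | a) | k <;> simp [Dt.eqn, g1, g2, g3, h1]

theorem quad_deriv (C : Matrix n n K) : ∃ L : Matrix n n K →L[K] Matrix n n K,
    HasStrictFDerivAt (fun g : Matrix n n K => gᵀ * C * g) L 1 ∧ ∀ X, L X = Xᵀ * C + C * X := by
  let T : Matrix n n K →L[K] Matrix n n K :=
    LinearMap.toContinuousLinearMap (transposeLinearEquiv n n K K).toLinearMap
  have h := ((T.hasStrictFDerivAt (x := 1)).mul_const' C).mul' (hasStrictFDerivAt_id 1)
  refine ⟨_, h, fun X => ?_⟩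
  change (1ᵀ * C) * X + Xᵀ * C * 1 = _
  rw [transpose_one, one_mul, mul_one, add_comm]

/-- Openness in the stabiliser. -/
theorem Dt.open_of_tan (D : Dt n α K) {S : Submonoid (Matrix n n K)} (hS : ∀ s ∈ S, D.Stab s)
    (h : ∀ X, D.Lie X → X ∈ Tan K S) : ∀ᶠ x in 𝓝 (1 : Matrix n n K), D.Stab x → x ∈ S := by
  have key : ∀ e, ∃ L : Matrix n n K →L[K] Matrix n n K,
      HasStrictFDerivAt (fun g => D.eqn g e) L 1 ∧ ∀ X, L X = match e with
        | .inl none => Xᵀ * D.B + D.B * X
        | .inl (some a) => X * D.A a - D.A a * X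
        | .inr k => ∑ l, X k l • D.M l - (Xᵀ * D.M k + D.M k * X) := by
    rintro ((_ | a) | k)
    · exact quad_deriv D.B
    · let T : Matrix n n K →L[K] Matrix n n K := LinearMap.toContinuousLinearMap
        (LinearMap.mulRight K (D.A a) - LinearMap.mulLeft K (D.A a))
      exact ⟨T, T.hasStrictFDerivAt, fun X => rfl⟩
    · obtain ⟨L, h1, h2⟩ := quad_deriv (D.M k)
      let T : Matrix n n K →L[K] Matrix n n K := LinearMap.toContinuousLinearMap
        { toFun := fun g => ∑ l, g k l • D.M l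
          map_add' := fun x y => by simp [add_smul, Finset.sum_add_distrib]
          map_smul' := fun c x => by simp [Finset.smul_sum, smul_smul] }
      exact ⟨T - L, T.hasStrictFDerivAt.sub h1, fun X => by
        rw [_root_.sub_apply, h2]; rfl⟩
  choose L hL hL' using key
  have hf : HasStrictFDerivAt D.eqn (ContinuousLinearMap.pi L) 1 :=
    hasStrictFDerivAt_pi.2 hL
  have := P011ND.open_of_tan hf (S := S) (fun s hs => (D.eqn_iff s).2 (hS s hs)) fun X hX =>
    h X ⟨fun a => sub_eq_zero.1 ((hL' (.inl (some a)) X).symm.trans (congrFun hX _)),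
      (hL' (.inl none) X).symm.trans (congrFun hX _),
      fun k => sub_eq_zero.1 ((hL' (.inr k) X).symm.trans (congrFun hX _))⟩
  filter_upwards [this] with x hx hs using hx ((D.eqn_iff x).2 hs)

omit [CompleteSpace K] [Fintype α] [DecidableEq n] in
theorem Dt.isClosed_stab (D : Dt n α K) : IsClosed {g | D.Stab g} := by
  simp only [Dt.Stab, Set.ofPred_and, Set.ofPred_forall]
  refine (isClosed_iInter fun a => isClosed_eq ?_ ?_).inter ((isClosed_eq ?_ ?_).inter
    (isClosed_iInter fun a => isClosed_eq ?_ ?_)) <;> fun_prop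

section rat

variable {F : Type} [Field F] {Γ : Type} [Group Γ]

/-- The direction of a rational curve in the group. -/
def Cv (r : Γ →* Matrix n n F) (Y : Matrix n n F) : Prop :=
  ∃ Z : Matrix n n F, ∀ t : F, IsUnit (1 - t • Y + (t * t) • Z) →
    ∃ γ, r γ * (1 - t • Y + (t * t) • Z) = 1 + t • Y + (t * t) • Z

/-- Irreducibility of the Lie algebra. -/
def Irr (D : Dt n α F) (r : Γ →* Matrix n n F) : Prop :=
  ∀ W : Submodule F (Matrix n n F), (∀ γ, ∀ X ∈ W, r γ * X * r γ⁻¹ ∈ W) →
    (∀ Y, Cv r Y → ∀ X ∈ W, Y * X - X * Y ∈ W) → (∃ X ∈ W, D.Lie X ∧ X ≠ 0) →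
      ∀ X, D.Lie X → X ∈ W

variable [Algebra F K]

/-- Extension of scalars of matrices. -/
abbrev up (K : Type) [Field K] [Algebra F K] : Matrix n n F →ₐ[F] Matrix n n K :=
  (Algebra.ofId F K).mapMatrix

omit [CompleteSpace K] in
theorem qc_up (Y Z : Matrix n n F) (t : F) : qc (up K Y) (up K Z) (algebraMap F K t) =
    up K (1 + t • Y + (t * t) • Z) := by
  simp only [qc, map_add, map_one, map_smul, ← map_mul, algebraMap_smul]

omit [CompleteSpace K] in
theorem qc_up_neg (Y Z : Matrix n n F) (t : F) : qc (up K Y) (up K Z) (-algebraMap F K t) =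
    up K (1 - t • Y + (t * t) • Z) := by
  rw [← map_neg, qc_up, neg_smul, neg_mul_neg, ← sub_eq_add_neg]

omit [CompleteSpace K] in
theorem isUnit_of_up {g : Matrix n n F} (h : IsUnit (up K g)) : IsUnit g := by
  rw [isUnit_iff_isUnit_det] at h ⊢
  have : (up K g).det = algebraMap F K g.det := ((algebraMap F K).map_det g).symm
  rw [this] at h
  exact Ne.isUnit fun h0 => h.ne_zero (by rw [h0, map_zero])

omit [CompleteSpace K] in
theorem cv_up {Y Z g : Matrix n n F} {t : F}
    (hu : IsUnit (qc (up K Y) (up K Z) (-algebraMap F K t)))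
    (h : g * (1 - t • Y + (t * t) • Z) = 1 + t • Y + (t * t) • Z) :
    cv (up K Y) (up K Z) (algebraMap F K t) = up K g := by
  rw [cv, qc_up, ← h, map_mul, ← qc_up_neg, mul_assoc, Ring.mul_inverse_cancel _ hu, mul_one]

omit [CompleteSpace K] in
theorem freq_rat (hd : DenseRange (algebraMap F K)) :
    ∃ᶠ t in 𝓝[≠] (0 : K), ∃ q : F, algebraMap F K q = t := by
  rw [frequently_iff]
  intro U hU
  obtain ⟨V, hV, h0, hVU⟩ := mem_nhdsWithin.1 hU
  obtain ⟨x, hx⟩ : (V ∩ {0}ᶜ).Nonempty :=
    Filter.nonempty_of_mem (f := 𝓝[≠] (0 : K))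
      (inter_mem (mem_nhdsWithin_of_mem_nhds (hV.mem_nhds h0)) self_mem_nhdsWithin)
  obtain ⟨q, hq⟩ := hd.exists_mem_open (hV.inter isOpen_compl_singleton) ⟨x, hx⟩
  exact ⟨_, hVU hq, q, rfl⟩

omit [Fintype α] in
/-- Irreducibility over the completion. -/
theorem Irr.local {D : Dt n α F} {r : Γ →* Matrix n n F} (h : Irr D r) (h2 : (2 : K) ≠ 0)
    (hd : DenseRange (algebraMap F K)) (U : Submodule K (Matrix n n K))
    (hU : ∀ γ, ∀ X ∈ U, up K (r γ) * X * up K (r γ⁻¹) ∈ U) {X0 : Matrix n n F}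
    (h0 : up K X0 ∈ U) (h1 : D.Lie X0) (h3 : X0 ≠ 0) {X : Matrix n n K}
    (hX : (D.map (algebraMap F K)).Lie X) : X ∈ U := by
  refine hX.mem_of_rat U (h ((U.restrictScalars F).comap (up K).toLinearMap) (fun γ X hX => ?_)
    ?_ ⟨X0, h0, h1, h3⟩)
  · have := hU γ (up K X) hX
    rwa [← map_mul, ← map_mul] at this
  · rintro Y ⟨Z, hZ⟩ X hX
    have hc := cv_deriv (K := K) (up K Y) (up K Z)
    have h4 := bracket_mem U hc (cv_zero _ _) (X := up K X) hX ?_
    · have h5 := U.smul_mem (2 : K)⁻¹ h4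
      change up K (Y * X - X * Y) ∈ U
      rw [map_sub, map_mul, map_mul]
      convert h5 using 1
      rw [← two_smul K (up K Y), smul_mul_assoc, mul_smul_comm, ← smul_sub, smul_smul,
        inv_mul_cancel₀ h2, one_smul]
    · have h6 := unit_ev (qc_neg_deriv (K := K) (up K Y) (up K Z)).hasDerivAt.continuousAt
        (by simp [qc])
      refine ((freq_rat hd).and_eventually (mem_nhdsWithin_of_mem_nhds h6)).mono ?_
      rintro _ ⟨⟨q, rfl⟩, hu⟩
      obtain ⟨γ, hγ⟩ := hZ q (isUnit_of_up (K := K) (by rw [← qc_up_neg]; exact hu))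
      rw [cv_up hu hγ]
      have h7 : Ring.inverse (up K (r γ)) = up K (r γ⁻¹) := by
        let u : (Matrix n n K)ˣ := ⟨up K (r γ), up K (r γ⁻¹), by
          rw [← map_mul, ← map_mul, mul_inv_cancel, map_one, map_one], by
          rw [← map_mul, ← map_mul, inv_mul_cancel, map_one, map_one]⟩
        exact Ring.inverse_unit u
      rw [h7]
      exact hU γ _ hX

end rat

end Vale.Agent.P011ND
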