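import Vale.Agent.P011ND.Coc
import Vale.Agent.P011ND.Loc

/-!
The integral points form a commensurated cocompact lattice.
-/

open Matrix Filter Topology

namespace Vale.Agent.P011ND

theorem relIndex_ne_zero_of_label {Γ X : Type*} [Group Γ] {D H : Subgroup Γ} (f : D → X)
    (hf : (Set.range f).Finite) (h : ∀ d d' : D, f d = f d' → ((d⁻¹ * d' : D) : Γ) ∈ H) :
    H.relIndex D ≠ 0 := by
  have := hf.to_subtype
  have : Finite (D ⧸ H.subgroupOf D) := by
    refine Finite.of_surjective (fun x : Set.range f => (x.2.choose : D ⧸ H.subgroupOf D))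
      fun q => ?_
    obtain ⟨d, rfl⟩ := QuotientGroup.mk_surjective q
    exact ⟨⟨f d, d, rfl⟩, QuotientGroup.eq.2 (h _ _ (Exists.choose_spec (⟨d, rfl⟩ :
      f d ∈ Set.range f)))⟩
  exact Subgroup.index_ne_zero_of_finite

variable {F ι : Type} [Field F] [Fintype ι] [DecidableEq ι] (K : ι → Type)
  [∀ i, NontriviallyNormedField (K i)] [∀ i, ProperSpace (K i)] [∀ i, Algebra F (K i)]
  {n α : Type} [Fintype n] [DecidableEq n] [Fintype α] {O : Subring F} {D : Dt n α F}
  {Γ : Type} [Group Γ] (r : Γ →* Matrix n n F)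

/-- The product of the local linear groups. -/
abbrev GG (n : Type) [Fintype n] [DecidableEq n] : Type := ∀ i, (Matrix n n (K i))ˣ

instance (i : ι) : LocallyCompactSpace (Matrix n n (K i))ˣ :=
  have : LocallyCompactSpace (Matrix n n (K i)) :=
    inferInstanceAs (LocallyCompactSpace (n → n → K i))
  Units.isClosedEmbedding_embedProduct.locallyCompactSpace

/-- The diagonal embedding. -/
def pp : Γ →* GG K n :=
  MonoidHom.pi fun i => (Units.map (up (K i)).toRingHom.toMonoidHom).comp r.toHomUnits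

omit [Fintype ι] [DecidableEq ι] [∀ i, ProperSpace (K i)] in
theorem pp_val (γ : Γ) (i : ι) : (pp K r γ i : Matrix n n (K i)) = up (K i) (r γ) := rfl

omit [Fintype ι] [DecidableEq ι] [∀ i, ProperSpace (K i)] in
theorem pp_inv (γ : Γ) (i : ι) : ((pp K r γ i)⁻¹ : (Matrix n n (K i))ˣ) = up (K i) (r γ⁻¹) := by
  rw [← pp_val, map_inv]
  rfl

/-- The local points. -/
def St (D : Dt n α F) : Subgroup (GG K n) where
  carrier := {g | ∀ i, (D.map (algebraMap F (K i))).Stab (g i)}
  one_mem' := fun _ => Dt.Stab.one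
  mul_mem' := fun hg hh i => (hg i).mul (hh i)
  inv_mem' := fun {g} hg i => (hg i).inv (g i).mul_inv

omit [Fintype ι] [DecidableEq ι] [∀ i, ProperSpace (K i)] [Fintype α] in
theorem isClosed_St (D : Dt n α F) : IsClosed (St K D : Set (GG K n)) := by
  change IsClosed {g : GG K n | ∀ i, (D.map (algebraMap F (K i))).Stab (g i)}
  simp only [Set.ofPred_forall]
  exact isClosed_iInter fun i => (Dt.isClosed_stab _).preimage
    (Units.continuous_val.comp (continuous_apply i))

omit [Fintype ι] [DecidableEq ι] [∀ i, ProperSpace (K i)] [Fintype α] in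
theorem closure_le_St (hs : ∀ γ, D.Stab (r γ)) :
    (pp K r).range.topologicalClosure ≤ St K D :=
  Subgroup.topologicalClosure_minimal _ (by
    rintro _ ⟨γ, rfl⟩ i
    exact (hs γ).map (algebraMap F (K i))) (isClosed_St K D)

/-- The integral points. -/
def DO (O : Subring F) : Subgroup Γ where
  carrier := {γ | MI O (r γ) ∧ MI O (r γ⁻¹)}
  one_mem' := by
    simp only [Set.mem_ofPred_eq, inv_one, map_one, and_self]
    exact MI.one
  mul_mem' := fun {a b} ha hb => ⟨by rw [map_mul]; exact ha.1.mul hb.1, by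
    rw [_root_.mul_inv_rev, map_mul]; exact hb.2.mul ha.2⟩
  inv_mem' := fun {a} ha => ⟨ha.2, by rw [inv_inv]; exact ha.1⟩

variable {K}

omit [DecidableEq ι] [∀ i, ProperSpace (K i)] [DecidableEq n] in
theorem Pls.exists_den (H : Pls K O) (g : Matrix n n F) : ∃ m ∈ O, m ≠ 0 ∧ MI O (m • g) := by
  classical
  choose m h1 h2 h3 using fun p : n × n => H.frac (g p.1 p.2)
  refine ⟨∏ p, m p, O.prod_mem fun p _ => h1 p, Finset.prod_ne_zero_iff.2 fun p _ => h2 p,
    fun a b => ?_⟩
  rw [Matrix.smul_apply, smul_eq_mul, ← Finset.prod_erase_mul _ _ (Finset.mem_univ (a, b)),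
    mul_assoc]
  exact O.mul_mem (O.prod_mem fun p _ => h1 p) (h3 (a, b))

omit [DecidableEq ι] [∀ i, ProperSpace (K i)] in
theorem Pls.comm (H : Pls K O) (g : Γ) :
    ((DO r O).comap (MulAut.conj g).toMonoidHom).relIndex (DO r O) ≠ 0 := by
  obtain ⟨m, h1, h2, h3⟩ := H.exists_den (r g)
  obtain ⟨m', k1, k2, k3⟩ := H.exists_den (r g⁻¹)
  obtain ⟨Z, hZ, hZ'⟩ := H.finite_mod (m * m')
  choose z hz w hw hzw using hZ' (O.mul_mem h1 k1) (mul_ne_zero h2 k2)
  have key : ∀ d d' : DO r O, (fun a b => z _ (d.2.1 a b)) = (fun a b => z _ (d'.2.1 a b)) →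
      MI O (r (g * ((d : Γ)⁻¹ * d') * g⁻¹)) := by
    intro d d' e
    have e1 : r d' = r d + (m * m') • Matrix.of fun a b => w _ (d'.2.1 a b) - w _ (d.2.1 a b) := by
      ext a b
      have e2 : z _ (d.2.1 a b) = z _ (d'.2.1 a b) := congrFun (congrFun e a) b
      simp only [Matrix.add_apply, Matrix.smul_apply, of_apply, smul_eq_mul]
      linear_combination hzw _ (d'.2.1 a b) - hzw _ (d.2.1 a b) - e2
    have e3 : r (g * ((d : Γ)⁻¹ * d') * g⁻¹) = 1 + (m • r g) * (r (d : Γ)⁻¹ *
        Matrix.of fun a b => w _ (d'.2.1 a b) - w _ (d.2.1 a b)) * (m' • r g⁻¹) := by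
      generalize (Matrix.of fun a b => w _ (d'.2.1 a b) - w _ (d.2.1 a b)) = u at e1
      rw [map_mul, map_mul, map_mul, e1, mul_add, ← map_mul, inv_mul_cancel, map_one, mul_add,
        add_mul, mul_one, ← map_mul, mul_inv_cancel, map_one]
      simp only [smul_mul_assoc, mul_smul_comm, smul_smul, mul_comm m]
    rw [e3]
    exact fun a b => O.add_mem (MI.one a b) (((h3.mul (d.2.2.mul fun a b =>
      O.sub_mem (hw _ _) (hw _ _))).mul k3) a b)
  refine relIndex_ne_zero_of_label (fun d => fun a b => z _ (d.2.1 a b))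
    ((Set.Finite.pi' fun _ : n => Set.Finite.pi' fun _ : n => hZ).subset ?_) fun d d' e => ?_
  · rintro _ ⟨d, rfl⟩ a b
    exact hz _ _
  · refine ⟨key d d' e, ?_⟩
    have := key d' d e.symm
    simpa [mul_assoc] using this

/-- A family of matrices as a matrix over the product. -/
def gl (g : GG K n) : Matrix n n (∀ i, K i) := Matrix.of fun a b i => (g i : Matrix n n (K i)) a b

omit [DecidableEq ι] [∀ i, ProperSpace (K i)] in
theorem Pls.prop (H : Pls K O) (hr : Function.Injective r) (C : Set (GG K n)) (hC : IsCompact C) :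
    {d : Γ | d ∈ DO r O ∧ pp K r d ∈ C}.Finite := by
  have hc : Continuous (gl (K := K) (n := n)) := by
    refine continuous_matrix fun a b => continuous_pi fun i => ?_
    exact (Units.continuous_val.comp (continuous_apply i)).matrix_elem a b
  exact ((H.finite_mat (hC.image hc)).preimage hr.injOn).subset fun d hd =>
    ⟨hd.1.1, _, hd.2, rfl⟩

theorem Pls.cocp (H : Pls K O) (hI : D.Int O) (hA : D.Ani) (hB : D.B.det ≠ 0)
    (hsurj : ∀ g, D.Stab g → ∃ γ, r γ = g) :
    ∃ C : Set (GG K n), IsCompact C ∧ ∀ g ∈ St K D, ∃ d ∈ DO r O, (pp K r d)⁻¹ * g ∈ C := by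
  obtain ⟨C, hC, h⟩ := H.cocompact hI hA hB
  let ev : ∀ i, Matrix n n (∀ i, K i) → Matrix n n (K i) := fun i x => x.map (Pi.evalRingHom K i)
  have hev : ∀ i, Continuous (ev i) := fun i =>
    continuous_id.matrix_map (continuous_apply i)
  let iv : ∀ i, Matrix n n (K i) → Matrix n n (K i) := fun i x =>
    (D.map (algebraMap F (K i))).B⁻¹ * xᵀ * (D.map (algebraMap F (K i))).B
  have hiv : ∀ i, Continuous (iv i) := fun i => by fun_prop
  refine ⟨Set.univ.pi fun i => Units.embedProduct _ ⁻¹' ((iv i '' (ev i '' C)) ×ˢ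
    (MulOpposite.op '' (ev i '' C))), isCompact_univ_pi fun i =>
      Units.isClosedEmbedding_embedProduct.isCompact_preimage
        (((hC.image (hev i)).image (hiv i)).prod ((hC.image (hev i)).image
          MulOpposite.continuous_op)), fun g hg => ?_⟩
  have hg' : (D.map (algebraMap F (∀ i, K i))).Stab (gl g⁻¹) := by
    have h1 := (St K D).inv_mem hg
    refine ⟨fun a => ?_, ?_, fun k => ?_⟩ <;> ext c d i
    · simpa [mul_apply, gl, Dt.map] using congrFun (congrFun ((h1 i).1 a) c) d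
    · simpa [mul_apply, gl, Dt.map] using congrFun (congrFun (h1 i).2.1 c) d
    · simpa [mul_apply, gl, Dt.map, Matrix.sum_apply] using congrFun (congrFun ((h1 i).2.2 k) c) d
  obtain ⟨δ, δ', h1, h2, h3, h4, h5⟩ := h _ hg'
  obtain ⟨d, rfl⟩ := hsurj δ h4
  have h6 : r d⁻¹ = δ' := by
    rw [← one_mul δ', ← map_one r, ← inv_mul_cancel d, map_mul, mul_assoc, h3, mul_one]
  refine ⟨d, ⟨h1, h6 ▸ h2⟩, fun i _ => ?_⟩
  have h7 : ((((pp K r d)⁻¹ * g) i)⁻¹ : (Matrix n n (K i))ˣ).val =
      ev i (gl g⁻¹ * (r d).map (algebraMap F (∀ i, K i))) := by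
    simp only [Pi.mul_apply, Pi.inv_apply, _root_.mul_inv_rev, inv_inv, Units.val_mul, ev,
      Matrix.map_mul]
    rfl
  have h8 : (D.map (algebraMap F (K i))).Stab ((((pp K r d)⁻¹ * g) i)⁻¹ :
      (Matrix n n (K i))ˣ).val := by
    simp only [Pi.mul_apply, Pi.inv_apply, _root_.mul_inv_rev, inv_inv, Units.val_mul]
    exact ((St K D).inv_mem hg i).mul (h4.map (algebraMap F (K i)))
  have hB' : IsUnit (D.map (algebraMap F (K i))).B.det := by
    change IsUnit ((algebraMap F (K i)).mapMatrix D.B).det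
    rw [← RingHom.map_det]
    exact (Ne.isUnit hB).map _
  refine ⟨⟨_, ⟨_, h5, h7.symm⟩, ?_⟩, _, ⟨_, h5, h7.symm⟩, rfl⟩
  have h9 := h8.inv_eq hB'
  exact (Units.inv_mul_eq_one.1 h9).symm

end Vale.Agent.P011ND
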