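import Vale.Agent.P011ND.So
import Vale.Agent.P011.D4X.H657.Jq
import Vale.Agent.P011.D4X.H493.Star
import Vale.Agent.P011.D4.Emb
import Vale.Agent.P011.D4Y.H691.Ch

/-!
Trialitarian groups: the Lie algebra, and the rational curves in the centraliser of the standard
involution.
-/

namespace Vale.Agent.P011ND

open Vale.Agent.P011 Vale.Agent.P011.MPQ Vale.Agent.P011.D4 Vale.Agent.P011.D4.Oct
open Vale.Agent.P011.D4X Vale.Agent.P011.D4.Em
open Vale.Agent.P011.D4Y (Im)

/-- The polar form, as a bilinear map. -/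
def bl {F : Type} [Field F] (a b c : Fˣ) : Oct a b c →ₗ[F] Oct a b c →ₗ[F] F :=
  LinearMap.mk₂ F bil bil_add_left bil_smul_left bil_add_right bil_smul_right

/-- The data of the model. -/
structure Pm (k E : Type) [Field k] [Field E] [Algebra k E] where
  /-- the noncyclic case -/
  fl : Prop
  /-- the automorphism of order three -/
  ρ : E ≃ₐ[k] E
  /-- the central involution -/
  σ : E ≃ₐ[k] E
  /-- the second involution -/
  ι : E ≃ₐ[k] E
  /-- the square root -/
  α : E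
  /-- the parameter -/
  q : E

variable {k E : Type} [Field k] [Field E] [Algebra k E] {a b c b' c' : kˣ}

/-- Multiplication on both sides. -/
def lr (A B C D : Qt (up E a) (up E b)) : Module.End E (OctL E a b c) where
  toFun y := ⟨A * y.fst * B, C * y.snd * D⟩
  map_add' x y := by ext1 <;> simp only [fst_add, snd_add, mul_add, add_mul]
  map_smul' t x := by
    ext1 <;> simp only [fst_smul, snd_smul, RingHom.id_apply, mul_smul_comm, smul_mul_assoc]

theorem lr_fst (A B C D : Qt (up E a) (up E b)) (y : OctL E a b c) :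
    (lr A B C D y).fst = A * y.fst * B := rfl

theorem lr_snd (A B C D : Qt (up E a) (up E b)) (y : OctL E a b c) :
    (lr A B C D y).snd = C * y.snd * D := rfl

theorem lr_mul (A B C D A' B' C' D' : Qt (up E a) (up E b)) :
    (lr A B C D * lr A' B' C' D' : Module.End E (OctL E a b c)) =
      lr (A * A') (B' * B) (C * C') (D' * D) := by
  refine LinearMap.ext fun y => Oct.ext ?_ ?_ <;>
    simp only [Module.End.mul_apply, lr_fst, lr_snd, mul_assoc]

theorem lr_one : (lr 1 1 1 1 : Module.End E (OctL E a b c)) = 1 := by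
  refine LinearMap.ext fun y => Oct.ext ?_ ?_ <;>
    simp only [Module.End.one_apply, lr_fst, lr_snd, mul_one, one_mul]

theorem lr_unit {A B C D : Qt (up E a) (up E b)}
    (h : IsUnit (lr A B C D : Module.End E (OctL E a b c))) : nrd A ≠ 0 ∧ nrd C ≠ 0 := by
  have hi := ((Module.End.isUnit_iff _).1 h).1
  have h1 : ∀ y : OctL E a b c, lr A B C D y = 0 → y = 0 := fun y hy =>
    hi (hy.trans (map_zero _).symm)
  have h2 : ∀ X : Qt (up E a) (up E b), (∀ y, X * y = 0 → y = 0) → nrd X ≠ 0 := fun X hX h0 => by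
    have h3 := hX (star X) (by rw [q_mul_star, h0, zero_smul])
    exact one_ne_zero (hX 1 (by rw [star_eq_zero.1 h3, zero_mul]))
  refine ⟨h2 A fun y hy => congrArg Oct.fst (h1 ⟨y, 0⟩ (Oct.ext ?_ ?_)),
    h2 C fun y hy => congrArg Oct.snd (h1 ⟨0, y⟩ (Oct.ext ?_ ?_))⟩ <;>
  simp [lr_fst, lr_snd, hy]

/-- Quaternions fixed by all automorphisms. -/
def Fq (w : Qt (up E a) (up E b)) : Prop := ∀ φ : E ≃ₐ[k] E, qmap φ w = w

/-- The Cayley transform. -/
def cy (z : Qt (up E a) (up E b)) : Qt (up E a) (up E b) := (nrd z)⁻¹ • (z * z)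

theorem cy_mul {z : Qt (up E a) (up E b)} (h : nrd z ≠ 0) : cy z * star z = z := by
  rw [cy, smul_mul_assoc, mul_assoc, q_mul_star, mul_smul_comm, smul_smul, inv_mul_cancel₀ h,
    one_smul, mul_one]

theorem nrd_cy {z : Qt (up E a) (up E b)} (h : nrd z ≠ 0) : nrd (cy z) = 1 := by
  rw [cy, nrd_smul_q, nrd_mul_q]
  field_simp

theorem Fq.cy {z : Qt (up E a) (up E b)} (h : Fq z) : Fq (cy z) := fun φ => by
  rw [P011ND.cy, qmap_smul, qmap_mul, map_inv₀, ← nrd_qmap, h φ]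

namespace Pm

variable (P : Pm k E)

/-- The semilinear map `J`. -/
def J (x : OctL E a b c) : OctL E a b c := Jq P.σ P.α P.q (P.ρ P.q) x

/-- Maps which commute with the semilinear maps. -/
def Cm (f : Module.End E (OctL E a b c)) : Prop :=
  (∀ x, f (P.J x) = P.J (f x)) ∧ (P.fl → ∀ x, f (Im P.ι x) = Im P.ι (f x))

/-- The group. -/
def St (g : Module.End E (OctL E a b c)) : Prop :=
  (∀ x y, g (tri P.ρ x y) = tri P.ρ (g x) (g y)) ∧ P.Cm g

/-- The Lie algebra. -/
def Li (X : Module.End E (OctL E a b c)) : Prop :=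
  (∀ x y, X (tri P.ρ x y) = tri P.ρ (X x) y + tri P.ρ x (X y)) ∧ P.Cm X

/-- The directions of rational curves. -/
def Good (Y : Module.End E (OctL E a b c)) : Prop :=
  P.Li Y ∧ ∃ Z : Module.End E (OctL E a b c), ∀ t : k,
    IsUnit (1 - algebraMap k E t • Y + (algebraMap k E t * algebraMap k E t) • Z) →
      ∃ g, P.St g ∧ IsUnit g ∧
        g * (1 - algebraMap k E t • Y + (algebraMap k E t * algebraMap k E t) • Z) =
          1 + algebraMap k E t • Y + (algebraMap k E t * algebraMap k E t) • Z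

/-- The elements of the cubic field. -/
def LE (e : E) : Prop := P.σ e = e ∧ (P.fl → P.ι e = P.ρ (P.ρ e))

/-- The twisted quaternion algebra. -/
def Tw (u : Qt (up E a) (up E b)) : Prop :=
  u * mq a b P.α P.q = mq a b P.α P.q * qmap P.σ u ∧ (P.fl → qmap P.ι u = qmap P.ρ (qmap P.ρ u))

/-- The hypotheses. -/
structure Ok (a : kˣ) : Prop where
  hj : HJ a P.ρ P.σ P.α P.q (P.ρ P.q) (P.ρ (P.ρ P.q))
  i2 : P.fl → ∀ x, P.ι (P.ι x) = x
  si : P.fl → ∀ x, P.σ (P.ι x) = P.ι (P.σ x)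
  ir : P.fl → ∀ x, P.ι (P.ρ x) = P.ρ (P.ρ (P.ι x))
  iq : P.fl → P.ι P.q = P.ρ (P.ρ P.q)
  ia : P.fl → P.ι P.α = P.α
  fix : ∀ x, P.ρ x = x → P.σ x = x → (P.fl → P.ι x = x) → ∃ t : k, algebraMap k E t = x
  th : ∃ θ, P.LE θ ∧ P.ρ θ ≠ θ

/-- The elements of the centraliser. -/
def gg (X W : Qt (up E a) (up E b)) : Module.End E (OctL E a b c) :=
  lr X (star (qmap P.ρ (qmap P.ρ X))) W (star (qmap P.ρ X))

/-- The elements of the Lie algebra of the centraliser. -/
def kk (u w : Qt (up E a) (up E b)) : Module.End E (OctL E a b c) :=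
  lr u 1 w 1 + lr 1 (star (qmap P.ρ (qmap P.ρ u))) 1 (star (qmap P.ρ u))

variable {P}

theorem kk_fst (u w : Qt (up E a) (up E b)) (y : OctL E a b c) :
    (P.kk u w y).fst = u * y.fst + y.fst * star (qmap P.ρ (qmap P.ρ u)) := by
  simp only [kk, LinearMap.add_apply, fst_add, lr_fst, mul_one, one_mul]

theorem kk_snd (u w : Qt (up E a) (up E b)) (y : OctL E a b c) :
    (P.kk u w y).snd = w * y.snd + y.snd * star (qmap P.ρ u) := by
  simp only [kk, LinearMap.add_apply, snd_add, lr_snd, mul_one, one_mul]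

theorem gg_mul (X W X' W' : Qt (up E a) (up E b)) :
    (P.gg X W * P.gg X' W' : Module.End E (OctL E a b c)) = P.gg (X * X') (W * W') := by
  simp only [gg, lr_mul, qmap_mul, star_mul]

theorem gg_one : (P.gg 1 1 : Module.End E (OctL E a b c)) = 1 := by
  simp only [gg, qmap_one, star_one, lr_one]

theorem gg_unit {X W : Qt (up E a) (up E b)} (hX : nrd X = 1) (hW : nrd W = 1) :
    IsUnit (P.gg X W : Module.End E (OctL E a b c)) :=
  ⟨⟨P.gg X W, P.gg (star X) (star W), by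
    rw [gg_mul, q_mul_star, q_mul_star, hX, hW, one_smul, gg_one], by
    rw [gg_mul, q_star_mul, q_star_mul, hX, hW, one_smul, gg_one]⟩, rfl⟩

theorem LE.mul {e f : E} (he : P.LE e) (hf : P.LE f) : P.LE (e * f) :=
  ⟨by rw [map_mul, he.1, hf.1], fun h => by rw [map_mul, map_mul, map_mul, he.2 h, hf.2 h]⟩

theorem LE.inv {e : E} (he : P.LE e) : P.LE e⁻¹ :=
  ⟨by rw [map_inv₀, he.1], fun h => by rw [map_inv₀, map_inv₀, map_inv₀, he.2 h]⟩

theorem LE.alg (t : k) : P.LE (algebraMap k E t) :=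
  ⟨P.σ.commutes t, fun _ => by simp only [AlgEquiv.commutes]⟩

theorem Tw.one : P.Tw (1 : Qt (up E a) (up E b)) := by simp [Tw]

theorem Tw.add {u v : Qt (up E a) (up E b)} (hu : P.Tw u) (hv : P.Tw v) : P.Tw (u + v) :=
  ⟨by rw [add_mul, qmap_add, mul_add, hu.1, hv.1], fun h => by
    rw [qmap_add, qmap_add, qmap_add, hu.2 h, hv.2 h]⟩

theorem Tw.mul {u v : Qt (up E a) (up E b)} (hu : P.Tw u) (hv : P.Tw v) : P.Tw (u * v) :=
  ⟨by rw [mul_assoc, hv.1, ← mul_assoc, hu.1, qmap_mul, mul_assoc], fun h => by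
    rw [qmap_mul, qmap_mul, qmap_mul, hu.2 h, hv.2 h]⟩

theorem Tw.smul {e : E} {u : Qt (up E a) (up E b)} (he : P.LE e) (hu : P.Tw u) : P.Tw (e • u) :=
  ⟨by rw [smul_mul_assoc, qmap_smul, mul_smul_comm, hu.1, he.1], fun h => by
    rw [qmap_smul, qmap_smul, qmap_smul, hu.2 h, he.2 h]⟩

variable [NeZero (2 : E)] (h : P.Ok a)

include h

theorem Tw.nrd {u : Qt (up E a) (up E b)} (hu : P.Tw u) : P.LE (nrd u) := by
  refine ⟨?_, fun hf => by rw [← nrd_qmap, hu.2 hf, nrd_qmap, nrd_qmap]⟩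
  have := congrArg MPQ.nrd hu.1
  rw [nrd_mul_q, nrd_mul_q, nrd_mq h.hj.al, nrd_qmap, mul_comm] at this
  exact (mul_left_cancel₀ h.hj.q_ne this).symm

theorem Tw.cy {u : Qt (up E a) (up E b)} (hu : P.Tw u) : P.Tw (cy u) :=
  (hu.mul hu).smul (hu.nrd h).inv

omit [NeZero (2 : E)] in
theorem Tw.r2 {u : Qt (up E a) (up E b)} (hu : P.Tw u) :
    mq a b P.α (P.q * P.ρ P.q) * star (qmap P.ρ (qmap P.ρ u)) =
      star (qmap P.σ (qmap P.ρ (qmap P.ρ u))) * mq a b P.α (P.q * P.ρ P.q) := by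
  have h1 := congrArg (fun x => qmap P.ρ (qmap P.ρ (star x))) hu.1
  simp only [star_mul, qmap_mul, h.hj.B, smul_mul_assoc, mul_smul_comm] at h1
  have h2 := smul_right_injective _ h.hj.q2_ne h1
  simpa only [qmap_star, h.hj.qcomm] using h2

theorem Tw.r1 {u : Qt (up E a) (up E b)} (hu : P.Tw u) :
    mq a b P.α P.q * star (mq a b P.α (P.q * P.ρ P.q)) * star (qmap P.ρ u) =
      star (qmap P.σ (qmap P.ρ u)) * (mq a b P.α P.q * star (mq a b P.α (P.q * P.ρ P.q))) := by
  have h1 := congrArg (fun x => qmap P.ρ (star x)) hu.1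
  simp only [star_mul, qmap_mul] at h1
  rw [← h.hj.H, smul_mul_assoc, mul_smul_comm, h.hj.qcomm, ← qmap_star, ← qmap_star, h1]

omit [NeZero (2 : E)] in
theorem Tw.i1 {u : Qt (up E a) (up E b)} (hu : P.Tw u) (hf : P.fl) :
    qmap P.ι (qmap P.ρ u) = qmap P.ρ u ∧ qmap P.ι (qmap P.ρ (qmap P.ρ u)) = u := by
  have h1 : ∀ x : Qt (up E a) (up E b), qmap P.ι (qmap P.ρ x) =
      qmap P.ρ (qmap P.ρ (qmap P.ι x)) := fun x => by ext <;> exact h.ir hf _
  have h2 : qmap P.ι (qmap P.ρ u) = qmap P.ρ u := by rw [h1, hu.2 hf, h.hj.qcube]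
  exact ⟨h2, by rw [h1, h2, h.hj.qcube]⟩

theorem st_gg {X W : Qt (up E a) (up E b)} (hX : P.Tw X) (hW : Fq W) (nX : nrd X = 1)
    (nW : nrd W = 1) : P.St (P.gg X W : Module.End E (OctL E a b c)) := by
  have c0 : ∀ {Z : Qt (up E a) (up E b)}, nrd Z = 1 → ∀ w, star Z * (Z * w) = w := fun hZ w => by
    rw [← mul_assoc, q_star_mul, hZ, one_smul, one_mul]
  have n1 : nrd (qmap P.ρ X) = 1 := by rw [nrd_qmap, nX, map_one]
  have n2 : nrd (qmap P.ρ (qmap P.ρ X)) = 1 := by rw [nrd_qmap, n1, map_one]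
  refine ⟨fun x y => Oct.ext ?_ ?_, fun x => Oct.ext ?_ ?_, fun hf x => Oct.ext ?_ ?_⟩
  · simp only [gg, lr_fst, lr_snd, fst_tri, qmap_mul, qmap_star, star_mul, star_star, h.hj.qcube,
      mul_assoc, c0 n1, c0 nW, hW P.ρ, mul_add, add_mul, mul_smul_comm, smul_mul_assoc]
  · simp only [gg, lr_fst, lr_snd, snd_tri, qmap_mul, qmap_star, star_mul, star_star, h.hj.qcube,
      mul_assoc, c0 n2, c0 nX, hW P.ρ, mul_add, add_mul, neg_mul, mul_neg]
  · simp only [gg, J, lr_fst, fst_Jq, qmap_mul, qmap_star]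
    rw [mul_assoc X, mul_assoc _ _ (star _), hX.r2 h, ← mul_assoc, ← mul_assoc, ← mul_assoc, hX.1]
    simp only [mul_assoc]
  · simp only [gg, J, lr_snd, snd_Jq, qmap_mul, qmap_star, hW P.σ]
    rw [mul_assoc W, mul_assoc _ _ (star (qmap _ _)), hX.r1 h]
    simp only [mul_assoc]
  · simp only [gg, Im, lr_fst, omap_fst, fst_star, qmap_mul, qmap_star, star_mul, star_star,
      (hX.i1 h hf).2, hX.2 hf, mul_assoc]
  · simp only [gg, Im, lr_snd, omap_snd, snd_star, qmap_mul, qmap_star, qmap_neg,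
      (hX.i1 h hf).1, hW P.ι, mul_neg, neg_mul]

theorem li_kk {u w : Qt (up E a) (up E b)} (hu : P.Tw u) (hw : Fq w) (su : star u = -u)
    (sw : star w = -w) : P.Li (P.kk u w : Module.End E (OctL E a b c)) := by
  have s1 : star (qmap P.ρ u) = -qmap P.ρ u := by rw [← qmap_star, su, qmap_neg]
  have s2 : star (qmap P.ρ (qmap P.ρ u)) = -qmap P.ρ (qmap P.ρ u) := by
    rw [← qmap_star, s1, qmap_neg]
  refine ⟨fun x y => Oct.ext ?_ ?_, fun x => Oct.ext ?_ ?_, fun hf x => Oct.ext ?_ ?_⟩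
  · simp only [fst_add, kk_fst, kk_snd, fst_tri, qmap_mul, qmap_add, qmap_neg, qmap_star, star_mul,
      star_add, star_neg, h.hj.qcube, su, sw, s1, s2, hw P.ρ, mul_add, add_mul, mul_smul_comm,
      smul_mul_assoc, smul_add, smul_neg, mul_neg, neg_mul, neg_neg, mul_assoc]
    abel
  · simp only [snd_add, kk_fst, kk_snd, snd_tri, qmap_mul, qmap_add, qmap_neg, qmap_star, star_mul,
      star_add, star_neg, h.hj.qcube, su, s1, s2, hw P.ρ, mul_add, add_mul, mul_neg, neg_mul,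
      neg_neg, mul_assoc, neg_add]
    abel
  · simp only [J, kk_fst, fst_Jq, qmap_mul, qmap_add, qmap_star, mul_add, add_mul]
    rw [mul_assoc _ _ (star _), hu.r2 h, ← mul_assoc u, ← mul_assoc u, hu.1]
    simp only [mul_assoc]
  · simp only [J, kk_snd, snd_Jq, qmap_mul, qmap_add, qmap_star, add_mul, hw P.σ]
    rw [mul_assoc _ _ (star (qmap _ _)), hu.r1 h]
    simp only [mul_assoc]
  · simp only [Im, kk_fst, omap_fst, fst_star, qmap_mul, qmap_add, qmap_star, star_mul, star_add,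
      star_star, (hu.i1 h hf).2, hu.2 hf, add_comm]
  · simp only [Im, kk_snd, omap_snd, snd_star, qmap_mul, qmap_add, qmap_star, qmap_neg,
      (hu.i1 h hf).1, hw P.ι, mul_neg, neg_mul, neg_add]

theorem good_kk {u w : Qt (up E a) (up E b)} (hu : P.Tw u) (hw : Fq w) (su : star u = -u)
    (sw : star w = -w) : P.Good (P.kk u w : Module.End E (OctL E a b c)) := by
  refine ⟨li_kk h hu hw su sw, P.gg u w, fun t ht => ?_⟩
  have e0 : ∀ s : E, P.ρ s = s → (P.gg (1 + s • u) (1 + s • w) : Module.End E (OctL E a b c)) =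
      1 + s • P.kk u w + (s * s) • P.gg u w := fun s hs => by
    refine LinearMap.ext fun y => Oct.ext ?_ ?_ <;>
    · simp only [gg, LinearMap.add_apply, LinearMap.smul_apply, Module.End.one_apply, fst_add,
        snd_add, fst_smul, snd_smul, kk_fst, kk_snd, lr_fst, lr_snd, qmap_add, qmap_smul, qmap_one,
        hs, star_add, star_one, QuaternionAlgebra.star_smul, mul_add, add_mul, mul_one, one_mul,
        smul_mul_assoc, mul_smul_comm, smul_add, smul_smul]
      abel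
  set T := algebraMap k E t with hT
  have e1 := e0 T (P.ρ.commutes t)
  have e2 := e0 (-T) (by rw [map_neg, P.ρ.commutes t])
  rw [neg_mul_neg, neg_smul T (P.kk u w), ← sub_eq_add_neg _ (T • P.kk u w)] at e2
  have s0 : ∀ {v : Qt (up E a) (up E b)}, star v = -v → 1 + -T • v = star (1 + T • v) :=
    fun hv => by rw [star_add, star_one, QuaternionAlgebra.star_smul, hv, smul_neg, neg_smul]
  rw [s0 su, s0 sw] at e2
  rw [← e2] at ht
  obtain ⟨n1, n2⟩ := lr_unit ht
  rw [nrd_star_q] at n1 n2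
  refine ⟨P.gg (cy (1 + T • u)) (cy (1 + T • w)), st_gg h ((Tw.one.add (hu.smul (LE.alg t))).cy h)
    (Fq.cy fun φ => by rw [qmap_add, qmap_smul, qmap_one, hw φ, φ.commutes t]) (nrd_cy n1)
    (nrd_cy n2), gg_unit (nrd_cy n1) (nrd_cy n2), ?_⟩
  rw [← e1, ← e2, gg_mul, cy_mul n1, cy_mul n2]

end Pm

end Vale.Agent.P011ND
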