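import Vale.Agent.P011ND.Crv
import Vale.Agent.P011NB.NST

/-!
The normal subgroup theorem for anisotropic stabilisers of tensors.
-/

open Matrix Filter Topology
open scoped Matrix.Norms.Operator

namespace Vale.Agent.P011ND

theorem add_zero_of_gen {G : Type*} [Group G] {W : Set G} {χ : G → ℝ}
    (h : ∀ x ∈ Subgroup.closure W, ∀ y ∈ Subgroup.closure W, χ (x * y) = χ x + χ y)
    (hW : ∀ w ∈ W, ∃ u ∈ Subgroup.closure W, u * w * u⁻¹ = w⁻¹) :
    ∀ x ∈ Subgroup.closure W, χ x = 0 := by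
  have h1 : χ 1 = 0 := by
    have := h 1 (one_mem _) 1 (one_mem _)
    rw [mul_one] at this
    linarith
  have h2 : ∀ x ∈ Subgroup.closure W, χ x⁻¹ = -χ x := fun x hx => by
    have := h x hx _ (inv_mem hx)
    rw [mul_inv_cancel, h1] at this
    linarith
  intro x hx
  induction hx using Subgroup.closure_induction with
  | mem w hw =>
    obtain ⟨u, hu, e⟩ := hW w hw
    have hw' := Subgroup.subset_closure hw
    have h3 := h2 w hw'
    rw [← e, h _ (mul_mem hu hw') _ (inv_mem hu), h _ hu _ hw', h2 u hu] at h3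
    linarith
  | one => exact h1
  | mul x y hx hy ex ey => rw [h x hx y hy, ex, ey, add_zero]
  | inv x hx ex => rw [h2 x hx, ex, neg_zero]

theorem closure_conj {L G : Type*} [Group L] [Group G] [TopologicalSpace G] [IsTopologicalGroup G]
    (p : L →* G) (N : Subgroup L) [hN : N.Normal] {g : G} (hg : g ∈ p.range.topologicalClosure) :
    ∀ m ∈ (N.map p).topologicalClosure, g * m * g⁻¹ ∈ (N.map p).topologicalClosure := by
  intro m hm
  have h1 : ∀ g ∈ p.range, g * m * g⁻¹ ∈ (N.map p).topologicalClosure := by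
    rintro _ ⟨γ, rfl⟩
    refine map_mem_closure (f := fun m => p γ * m * (p γ)⁻¹) (by fun_prop) hm ?_
    rintro _ ⟨x, hx, rfl⟩
    exact ⟨_, hN.conj_mem x hx γ, by simp⟩
  exact closure_minimal (t := (fun g => g * m * g⁻¹) ⁻¹' (N.map p).topologicalClosure) h1
    ((Subgroup.isClosed_topologicalClosure _).preimage (by fun_prop)) hg

variable {F ι : Type} [Field F] [Fintype ι] [DecidableEq ι] {K : ι → Type}
  [∀ i, NontriviallyNormedField (K i)] [∀ i, ProperSpace (K i)] [∀ i, Algebra F (K i)]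
  {n α : Type} [Fintype n] [DecidableEq n] [Fintype α] {O : Subring F} {D : Dt n α F}
  {Γ : Type} [Group Γ] {r : Γ →* Matrix n n F}

/-- The hypotheses on the group. -/
structure Mdl (D : Dt n α F) (r : Γ →* Matrix n n F) (Y : Matrix n n F) (x : F → Γ)
    (τ x0 : Γ) : Prop where
  two : (2 : F) ≠ 0
  inj : Function.Injective r
  stab : ∀ γ, D.Stab (r γ)
  surj : ∀ g, D.Stab g → ∃ γ, r γ = g
  ani : D.Ani
  det : D.B.det ≠ 0
  irr : Irr D r
  lie : D.Lie Y
  ne : Y ≠ 0
  cay : ∀ q, r (x q) * (1 - q • Y) = 1 + q • Y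
  sq : τ * τ = 1
  neg : r τ * Y = -(Y * r τ)
  inv : τ * x0 * τ⁻¹ = x0⁻¹
  big : ∀ P : Subgroup Γ, P.Normal → (∀ (Z : Matrix n n F) (y : F → Γ),
    (∀ q, r (y q) * (1 - q • Z) = 1 + q • Z) → ∃ q ≠ 0, y q ∈ P) → τ ∈ P ∧ x0 ∈ P

variable {Y : Matrix n n F} {x : F → Γ} {τ x0 : Γ}

omit [Fintype ι] [DecidableEq ι] [∀ i, ProperSpace (K i)] [Fintype α] in
theorem Mdl.two' (h : Mdl D r Y x τ x0) (i : ι) : (2 : K i) ≠ 0 := by
  rw [← map_ofNat (algebraMap F (K i)) 2]
  exact (map_ne_zero _).2 h.two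

omit [Fintype α] in
theorem Mdl.rr (γ : Γ) : r γ * r γ⁻¹ = 1 := by rw [← map_mul, mul_inv_cancel, map_one]

omit [DecidableEq ι] [Fintype α] in
/-- The conjugates of the direction span the Lie algebra. -/
theorem Mdl.span (h : Mdl D r Y x τ x0) (H : Pls K O) (i : ι) : ∃ T : Set Γ, T.Finite ∧
    ∀ X, (D.map (algebraMap F (K i))).Lie X → X ∈ Submodule.span (K i)
      ((fun γ => up (K i) (r γ * Y * r γ⁻¹)) '' T) := by
  set f : Γ → Matrix n n (K i) := fun γ => up (K i) (r γ * Y * r γ⁻¹) with hf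
  obtain ⟨s, hs, e⟩ := (Submodule.fg_span_iff_fg_span_finset_subset (R := K i) (Set.range f)).1
    (IsNoetherian.noetherian _)
  obtain ⟨T, -, hT, e'⟩ := Set.exists_subset_image_finite_and.1
    (show ∃ t ⊆ f '' Set.univ, t.Finite ∧ t = s from ⟨s, by rwa [Set.image_univ], s.finite_toSet,
      rfl⟩)
  refine ⟨T, hT, fun X hX => ?_⟩
  rw [e', ← e]
  refine h.irr.local (h.two' i) (H.dense_at i) _ (fun γ Z hZ => ?_)
    (Submodule.subset_span (show _ ∈ Set.range f from ⟨1, by simp [hf]⟩)) h.lie h.ne hX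
  refine Submodule.span_induction (p := fun Z _ => up (K i) (r γ) * Z * up (K i) (r γ⁻¹) ∈
    Submodule.span (K i) (Set.range f)) ?_ (by simp) ?_ ?_ hZ
  · rintro _ ⟨δ, rfl⟩
    refine Submodule.subset_span ⟨γ * δ, ?_⟩
    simp only [hf, _root_.mul_inv_rev, map_mul, mul_assoc]
  · intro a b _ _ ha hb
    rw [mul_add, add_mul]
    exact add_mem ha hb
  · intro c a _ ha
    rw [mul_smul_comm, smul_mul_assoc]
    exact Submodule.smul_mem _ _ ha

/-- The closure of the normal subgroup is open. -/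
theorem Mdl.opn (h : Mdl D r Y x τ x0) (H : Pls K O) (N : Subgroup Γ) [N.Normal] {m : Γ}
    (hm : m ∈ N) (hY : r m * Y ≠ Y * r m) : ∀ᶠ g in 𝓝 (1 : GG K n), g ∈ St K D →
      g ∈ (N.map (pp K r)).topologicalClosure := by
  refine nbhd (Subgroup.topologicalClosure_minimal _ ?_ (isClosed_St K D)) fun i X hX => ?_
  · rintro _ ⟨γ, -, rfl⟩ i
    exact (h.stab γ).map (algebraMap F (K i))
  have e1 : ∀ γ, up (K i) (r γ) * up (K i) (r γ⁻¹) = 1 := fun γ => by
    rw [← map_mul, Mdl.rr, map_one]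
  refine h.irr.local (h.two' i) (H.dense_at i) _ (fun γ Z hZ => Tan.conj (e1 γ) (loc_conj
    (closure_conj _ N (Subgroup.le_topologicalClosure _ ⟨γ, rfl⟩)) i) hZ)
    (X0 := Y - r m * Y * r m⁻¹) ?_ (h.lie.sub (h.lie.conj (h.stab m) (Mdl.rr m))) ?_ hX
  · have hc := cv_deriv (K := K i) (up (K i) Y) 0
    have h1 := ((hc.mul_const (up (K i) (r m))).mul (inverse_deriv hc (cv_zero _ _))).mul_const
      (up (K i) (r m⁻¹))
    have h2 : (2 : K i) • up (K i) (Y - r m * Y * r m⁻¹) ∈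
        Tan (K i) (loc (N.map (pp K r)).topologicalClosure i) := by
      refine ⟨_, h1.congr_deriv ?_, by
        simp only [Pi.mul_apply, cv_zero, Ring.inverse_one, mul_one, one_mul, e1], ?_⟩
      · simp only [cv_zero, Ring.inverse_one, mul_one, one_mul, map_sub, map_mul, add_mul,
          mul_assoc, e1, two_smul, mul_neg, neg_mul, mul_add]
        abel
      · filter_upwards [(Gd.open (up (K i) Y)).mem_nhds (Gd.zero _)] with t ht
        have h3 := H.single_mem h.cay ht
        have h4 : pp K r m ∈ (N.map (pp K r)).topologicalClosure :=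
          Subgroup.le_topologicalClosure _ ⟨m, hm, rfl⟩
        have h5 := mul_mem (closure_conj _ N h3 _ h4) (inv_mem h4)
        refine ⟨cu (up (K i) Y) t * pp K r m i * (cu (up (K i) Y) t)⁻¹ * (pp K r m i)⁻¹, ?_, ?_⟩
        · change (Pi.mulSingle i _ : GG K n) ∈ (N.map (pp K r)).topologicalClosure
          convert h5 using 1
          funext j
          rcases eq_or_ne j i with rfl | hj
          · simp
          · simp [hj]
        · simp only [Units.coeHom_apply, Units.val_mul, pp_val, pp_inv, Pi.mul_apply]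
          rw [← Gd.val ht, Ring.inverse_unit]
    have h3 := Submodule.smul_mem _ (2 : K i)⁻¹ h2
    rwa [smul_smul, inv_mul_cancel₀ (h.two' i), one_smul] at h3
  · intro e
    apply hY
    conv_rhs => rw [sub_eq_zero.1 e]
    rw [mul_assoc, ← map_mul, inv_mul_cancel, map_one, mul_one]

omit [DecidableEq ι] [Fintype α] in
theorem Mdl.comm (h : Mdl D r Y x τ x0) (H : Pls K O) (N : Subgroup Γ) [hN : N.Normal]
    (hY : ∀ m ∈ N, r m * Y = Y * r m) {m : Γ} (hm : m ∈ N) {X : Matrix n n F} (hX : D.Lie X) :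
    r m * X = X * r m := by
  obtain ⟨i⟩ := H.ne
  let U : Submodule (K i) (Matrix n n (K i)) :=
    { carrier := {Z | ∀ m ∈ N, up (K i) (r m) * Z = Z * up (K i) (r m)}
      zero_mem' := fun _ _ => by simp
      add_mem' := fun ha hb m hm => by rw [mul_add, add_mul, ha m hm, hb m hm]
      smul_mem' := fun c a ha m hm => by rw [mul_smul_comm, smul_mul_assoc, ha m hm] }
  have h1 : up (K i) X ∈ U := by
    refine h.irr.local (h.two' i) (H.dense_at i) U (fun γ Z hZ m hm => ?_) (X0 := Y)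
      (fun m hm => by rw [← map_mul, ← map_mul, hY m hm]) h.lie h.ne ?_
    · have h2 := hZ _ (hN.conj_mem m hm γ⁻¹)
      have e : ∀ a b, up (K i) (r a) * up (K i) (r b) = up (K i) (r (a * b)) := fun a b => by
        rw [map_mul, map_mul]
      calc _ = up (K i) (r γ) * (up (K i) (r (γ⁻¹ * m * γ⁻¹⁻¹)) * Z) * up (K i) (r γ⁻¹) := by
            simp only [← mul_assoc, e]
            simp
        _ = _ := by
            rw [h2]
            simp only [mul_assoc, e]
            simp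
    · obtain ⟨x1, x2, x3⟩ := hX
      refine ⟨fun a => ?_, ?_, fun k => ?_⟩
      · exact (map_mul (up (K i)) _ _).symm.trans ((congrArg _ (x1 a)).trans (map_mul _ _ _))
      · have := congrArg (up (K i)) x2
        rwa [map_add, map_mul, map_mul, map_zero] at this
      · have := congrArg (up (K i)) (x3 k)
        rw [map_add, map_mul, map_mul, map_sum] at this
        refine Eq.trans (Finset.sum_congr rfl fun l _ => ?_) this
        rw [map_smul, ← algebraMap_smul (K i) (X k l)]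
        rfl
  have h2 := h1 m hm
  rw [← map_mul, ← map_mul] at h2
  exact Matrix.map_injective (algebraMap F (K i)).injective h2

/-- **The normal subgroup theorem.** -/
theorem Mdl.main (h : Mdl D r Y x τ x0) (H : Pls K O) (hI : D.Int O) (h0 : x0 ∈ DO r O)
    (N : Subgroup Γ) [hN : N.Normal] :
    (∀ m ∈ N, ∀ X, D.Lie X → r m * X = X * r m) ∨ ∃ e : ℕ, e ≠ 0 ∧ x0 ^ e ∈ N := by
  by_cases hY : ∀ m ∈ N, r m * Y = Y * r m
  · exact Or.inl fun m hm X hX => h.comm H N hY hm hX
  right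
  push Not at hY
  obtain ⟨m, hm, hY⟩ := hY
  set p := pp K r with hp
  set M := (N.map p).topologicalClosure with hM
  have ho := h.opn H N hm hY
  have hle := closure_le_St K r h.stab
  have hrat : ∀ γ, p γ ∈ p.range.topologicalClosure := fun γ =>
    Subgroup.le_topologicalClosure _ ⟨γ, rfl⟩
  have hPn : (M.comap p).Normal := ⟨fun a ha γ => by
    rw [Subgroup.mem_comap, map_mul, map_mul, map_inv]
    exact closure_conj p N (hrat γ) _ ha⟩
  obtain ⟨hτ, hx0⟩ := h.big _ hPn fun Z y hy => by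
    obtain ⟨q, h1, h2⟩ := H.exists_small hy ho
    exact ⟨q, h1, h2 (hle (hrat _))⟩
  choose T hT hTs using h.span H
  have hr : ∀ i, ∃ ε : ℝ, 0 < ε ∧ ∀ t ∈ Metric.closedBall (0 : K i) ε,
      Gd (up (K i) Y) t ∧ Pi.mulSingle i (cu (up (K i) Y) t) ∈ M := fun i => by
    have h1 : ContinuousAt (fun t => (Pi.mulSingle i (cu (up (K i) Y) t) : GG K n)) 0 :=
      (continuous_mulSingle i).continuousAt.comp (Gd.zero _).cont
    have h2 := h1.eventually (p := fun g => g ∈ St K D → g ∈ M) (by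
      simpa [cu_zero] using ho)
    obtain ⟨ε, hε, h3⟩ := Metric.nhds_basis_closedBall.eventually_iff.1
      (h2.and ((Gd.open (up (K i) Y)).mem_nhds (Gd.zero _)))
    exact ⟨ε, hε, fun t ht => ⟨(h3 ht).2, (h3 ht).1 (hle (H.single_mem h.cay (h3 ht).2))⟩⟩
  choose ε hε hr using hr
  set c : ∀ i, Γ → K i → GG K n := fun i γ t =>
    p γ * Pi.mulSingle i (cu (up (K i) Y) t) * (p γ)⁻¹ with hc
  set W : Set (GG K n) := (⋃ i, ⋃ γ ∈ T i, c i γ '' Metric.closedBall 0 (ε i)) ∪
    p '' (insert x0 ((fun γ => γ * τ * γ⁻¹) '' insert 1 (⋃ i, T i))) with hW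
  have hWc : IsCompact W := by
    refine (isCompact_iUnion fun i => (hT i).isCompact_biUnion fun γ _ =>
      (isCompact_closedBall _ _).image_of_continuousOn fun t ht => ?_).union
      (((((Set.finite_iUnion hT).insert 1).image _).insert x0).image _).isCompact
    exact ((continuousAt_const.mul ((continuous_mulSingle i).continuousAt.comp
      (hr i t ht).1.cont)).mul continuousAt_const).continuousWithinAt
  have hW1 : ∀ γ ∈ insert 1 (⋃ i, T i), p (γ * τ * γ⁻¹) ∈ Subgroup.closure W := fun γ hγ =>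
    Subgroup.subset_closure (Or.inr ⟨_, Or.inr ⟨γ, hγ, rfl⟩, rfl⟩)
  have hW2 : p x0 ∈ Subgroup.closure W := Subgroup.subset_closure (Or.inr ⟨_, Or.inl rfl, rfl⟩)
  have hWM : Subgroup.closure W ≤ M := by
    rw [Subgroup.closure_le]
    rintro _ (hw | ⟨_, rfl | ⟨γ, -, rfl⟩, rfl⟩)
    · simp only [Set.mem_iUnion] at hw
      obtain ⟨i, γ, -, t, ht, rfl⟩ := hw
      exact closure_conj p N (hrat γ) _ (hr i t ht).2
    · exact hx0
    · exact hPn.conj_mem τ hτ γ
  have hMS : M ≤ St K D := (Subgroup.topologicalClosure_mono (by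
    rintro _ ⟨γ, -, rfl⟩
    exact ⟨γ, rfl⟩)).trans hle
  have ho' := nbhd (hWM.trans hMS) fun i X hX => by
    refine Submodule.span_le.2 ?_ (hTs i X hX)
    rintro _ ⟨γ, hγ, rfl⟩
    have h1 := ((cv_deriv (K := K i) (up (K i) Y) 0).const_mul (up (K i) (r γ))).mul_const
      (up (K i) (r γ⁻¹))
    have h2 : (2 : K i) • up (K i) (r γ * Y * r γ⁻¹) ∈ Tan (K i) (loc (Subgroup.closure W) i) := by
      refine ⟨_, h1.congr_deriv ?_, ?_, ?_⟩
      · simp only [map_mul, two_smul, mul_add, add_mul]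
      · simp only [cv_zero, mul_one, ← map_mul, mul_inv_cancel, map_one]
      · filter_upwards [Metric.closedBall_mem_nhds (0 : K i) (hε i)] with t ht
        refine ⟨p γ i * cu (up (K i) Y) t * (p γ i)⁻¹, ?_, ?_⟩
        · change Pi.mulSingle i _ ∈ Subgroup.closure W
          rw [← conj_single]
          exact Subgroup.subset_closure (Or.inl (Set.mem_iUnion.2 ⟨i, Set.mem_iUnion₂.2
            ⟨γ, hγ, t, ht, rfl⟩⟩))
        · simp only [Units.coeHom_apply, Units.val_mul, hp, pp_val, pp_inv, (hr i t ht).1.val]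
    have h3 := Submodule.smul_mem _ (2 : K i)⁻¹ h2
    rwa [smul_smul, inv_mul_cancel₀ (h.two' i), one_smul] at h3
  obtain ⟨C, hC, hcoc⟩ := H.cocp r hI h.ani h.det h.surj
  have key := P011NB.nst_open p (DO r O) N (Subgroup.closure W) (fun g _ => H.comm r g)
    (H.prop r h.inj) ⟨C, hC, fun g hg => hcoc g (hle hg)⟩
    ⟨_, ho', fun g hg hg' => hg (hle hg')⟩ (fun g hg => hWM hg) ⟨W, hWc, rfl⟩
    fun χ _ h1 _ => add_zero_of_gen h1 ?_
  · obtain ⟨e, he, -, h1⟩ := Subgroup.exists_pow_mem_of_relIndex_ne_zero key (a := x0) ⟨h0, hW2⟩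
    exact ⟨e, he.ne', h1.1⟩
  · rintro _ (hw | ⟨_, rfl | ⟨γ, hγ, rfl⟩, rfl⟩)
    · simp only [Set.mem_iUnion] at hw
      obtain ⟨i, γ, hγ, t, ht, rfl⟩ := hw
      refine ⟨_, hW1 γ (Or.inr (Set.mem_iUnion.2 ⟨i, hγ⟩)), ?_⟩
      have h1 : p τ * Pi.mulSingle i (cu (up (K i) Y) t) * (p τ)⁻¹ =
          (Pi.mulSingle i (cu (up (K i) Y) t))⁻¹ := by
        rw [conj_single, (hr i t ht).1.conj, Pi.mulSingle_inv]
        rw [hp, pp_val, ← map_mul, ← map_mul, h.neg, map_neg]
      simp only [hc, map_mul, map_inv, _root_.mul_inv_rev, inv_inv, ← h1]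
      group
    · refine ⟨_, hW1 1 (Or.inl rfl), ?_⟩
      rw [one_mul, inv_one, mul_one, ← map_inv, ← map_mul, ← map_mul, h.inv, map_inv]
    · refine ⟨_, hW1 γ hγ, ?_⟩
      rw [mul_inv_cancel_right, ← map_inv]
      congr 1
      rw [eq_inv_iff_mul_eq_one]
      calc _ = γ * (τ * τ) * γ⁻¹ := by group
        _ = 1 := by rw [h.sq]; group

end Vale.Agent.P011ND
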