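import Mathlib

/-!
Tangent vectors of submonoids of a normed algebra, and an openness criterion.
-/

open Filter Topology

namespace Vale.Agent.P011ND

variable {K : Type*} [NontriviallyNormedField K] [CompleteSpace K]

section general

variable {E F P : Type*} [NormedAddCommGroup E] [NormedSpace K E] [FiniteDimensional K E]
  [NormedAddCommGroup F] [NormedSpace K F] [NormedAddCommGroup P] [NormedSpace K P]
  [CompleteSpace P]

/-- A parametrised family in a level set, whose derivative covers the kernel of the linearised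
equations, fills a neighbourhood in the level set. -/
theorem open_of_range {f : E → F} {L : E →L[K] F} {x0 : E} (hf : HasStrictFDerivAt f L x0)
    {Φ : P → E} {Φ' : P →L[K] E} (hΦ : HasStrictFDerivAt Φ Φ' 0) (h0 : Φ 0 = x0)
    (hker : ∀ X, L X = 0 → ∃ t, Φ' t = X) (hZ : ∀ᶠ t in 𝓝 0, f (Φ t) = f x0) {W : Set P}
    (hW : W ∈ 𝓝 0) : ∀ᶠ x in 𝓝 x0, f x = f x0 → x ∈ Φ '' W := by
  obtain ⟨C, hC⟩ := Submodule.exists_isCompl (LinearMap.ker (L : E →ₗ[K] F))
  set g := LinearMap.ker (L : E →ₗ[K] F) with hg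
  let π : E →L[K] g := LinearMap.toContinuousLinearMap (g.projectionOnto C hC)
  have hπ : ∀ x : g, π x = x := fun x => Submodule.projectionOnto_apply_left hC x
  have hinj : LinearMap.ker ((π.prod L : E →L[K] g × F) : E →ₗ[K] g × F) = ⊥ := by
    rw [eq_bot_iff]
    intro x hx
    have h1 : π x = 0 := congrArg Prod.fst hx
    have h2 : L x = 0 := congrArg Prod.snd hx
    have h3 := hπ ⟨x, h2⟩
    rw [h1] at h3
    exact (congrArg Subtype.val h3).symm
  obtain ⟨κ, hκ, hanti⟩ := LinearMap.exists_antilipschitzWith _ hinj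
  have hd : HasStrictFDerivAt (fun x => (π x, f x)) (π.prod L) x0 :=
    π.hasStrictFDerivAt.prodMk hf
  have hκ' : (0 : ℝ) < κ := hκ
  have hlo := hd.isLittleO.def (c := 1 / (2 * κ)) (by positivity)
  rw [nhds_prod_eq] at hlo
  obtain ⟨U, hU, hUi⟩ : ∃ U ∈ 𝓝 x0, ∀ x ∈ U, ∀ y ∈ U, π x = π y → f x = f y → x = y := by
    obtain ⟨U1, h1, U2, h2, h3⟩ := mem_prod_iff.1 hlo
    refine ⟨U1 ∩ U2, inter_mem h1 h2, fun x hx y hy e1 e2 => ?_⟩
    have h4 := h3 (Set.mk_mem_prod hx.1 hy.2)
    simp only [Set.mem_ofPred_eq, e1, e2, sub_self, zero_sub, norm_neg] at h4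
    have h5 := hanti.le_mul_dist (x - y) 0
    rw [map_zero, dist_zero_right, dist_zero_right] at h5
    have h6 : ‖x - y‖ ≤ κ * (1 / (2 * κ) * ‖x - y‖) :=
      h5.trans (mul_le_mul_of_nonneg_left h4 hκ'.le)
    have h7 : (κ : ℝ) * (1 / (2 * κ) * ‖x - y‖) = ‖x - y‖ / 2 := by field_simp
    have h8 : ‖x - y‖ = 0 := by nlinarith [norm_nonneg (x - y)]
    exact sub_eq_zero.1 (norm_eq_zero.1 h8)
  have hc : CompleteSpace g := FiniteDimensional.complete K g
  have hcomp : HasStrictFDerivAt (fun t => π (Φ t)) (π.comp Φ') 0 :=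
    π.hasStrictFDerivAt.comp 0 hΦ
  have hsurj : LinearMap.range ((π.comp Φ' : P →L[K] g) : P →ₗ[K] g) = ⊤ := by
    rw [eq_top_iff]
    intro X _
    obtain ⟨t, ht⟩ := hker X X.2
    exact ⟨t, by
      change π (Φ' t) = X
      rw [ht, hπ]⟩
  have hmap := hcomp.map_nhds_eq_of_surj hsurj
  have hW' : W ∩ ({t | f (Φ t) = f x0} ∩ Φ ⁻¹' U) ∈ 𝓝 (0 : P) :=
    inter_mem hW (inter_mem hZ (hΦ.continuousAt.preimage_mem_nhds (by rw [h0]; exact hU)))
  have h1 : (fun t => π (Φ t)) '' (W ∩ ({t | f (Φ t) = f x0} ∩ Φ ⁻¹' U)) ∈ 𝓝 (π x0) := by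
    have := image_mem_map (m := fun t => π (Φ t)) hW'
    rwa [hmap, h0] at this
  filter_upwards [hU, π.continuous.continuousAt.preimage_mem_nhds h1] with x hx hx' hfx
  obtain ⟨t, ⟨ht, ht1, ht2⟩, he⟩ := hx'
  exact ⟨t, ht, hUi _ ht2 _ hx he (ht1.trans hfx.symm)⟩

end general

section algebra

variable {A : Type*} [NormedRing A] [NormedAlgebra K A]

variable (K) in
/-- The tangent vectors at the identity of a submonoid. -/
def Tan (S : Submonoid A) : Submodule K A where
  carrier := {Y | ∃ c : K → A, HasStrictDerivAt c Y 0 ∧ c 0 = 1 ∧ ∀ᶠ t in 𝓝 0, c t ∈ S}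
  zero_mem' := ⟨fun _ => 1, hasStrictDerivAt_const _ _, rfl, Eventually.of_forall fun _ =>
    S.one_mem⟩
  add_mem' := by
    rintro X Y ⟨c, h1, h2, h3⟩ ⟨d, k1, k2, k3⟩
    refine ⟨fun t => c t * d t, ?_, by simp [h2, k2], ?_⟩
    · have := h1.mul k1
      rw [h2, k2, mul_one, one_mul] at this
      exact this
    · filter_upwards [h3, k3] with t ht ht' using S.mul_mem ht ht'
  smul_mem' := by
    rintro a X ⟨c, h1, h2, h3⟩
    have hm : HasStrictDerivAt (fun t : K => a * t) a 0 := by
      simpa using (hasStrictDerivAt_id (0 : K)).const_mul a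
    refine ⟨fun t => c (a * t), ?_, by simp [h2], ?_⟩
    · have h4 : HasStrictDerivAt c X (a * 0) := by rwa [mul_zero]
      exact h4.scomp 0 hm
    · have : Tendsto (fun t : K => a * t) (𝓝 0) (𝓝 0) := by
        simpa using hm.hasDerivAt.continuousAt.tendsto
      exact this.eventually h3

omit [CompleteSpace K] in
theorem Tan.conj {S : Submonoid A} {g g' : A} (hg : g * g' = 1)
    (h : ∀ s ∈ S, g * s * g' ∈ S) {Y : A} (hY : Y ∈ Tan K S) : g * Y * g' ∈ Tan K S := by
  obtain ⟨c, h1, h2, h3⟩ := hY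
  refine ⟨fun t => g * c t * g', (h1.const_mul g).mul_const g', by simp [h2, hg], ?_⟩
  filter_upwards [h3] with t ht using h _ ht

omit [CompleteSpace K] in
theorem exists_family {S : Submonoid A} {κ : Type} [Fintype κ] [DecidableEq κ] (Y : κ → A)
    (hY : ∀ j, Y j ∈ Tan K S) (l : List κ) :
    ∃ (Φ : (κ → K) → A) (Φ' : (κ → K) →L[K] A), HasStrictFDerivAt Φ Φ' 0 ∧ Φ 0 = 1 ∧
      (∀ᶠ t in 𝓝 0, Φ t ∈ S) ∧ ∀ t, Φ' t = (l.map fun j => t j • Y j).sum := by
  induction l with
  | nil =>
    exact ⟨fun _ => 1, 0, hasStrictFDerivAt_const _ _, rfl, Eventually.of_forall fun _ =>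
      S.one_mem, fun t => by simp⟩
  | cons j l ih =>
    obtain ⟨Φ, Φ', h1, h2, h3, h4⟩ := ih
    obtain ⟨c, k1, k2, k3⟩ := hY j
    let pr : (κ → K) →L[K] K := ContinuousLinearMap.proj j
    have k4 : HasStrictFDerivAt (fun t : κ → K => c (pr t))
        ((ContinuousLinearMap.toSpanSingleton K (Y j)).comp pr) 0 := by
      have k5 : HasStrictFDerivAt c (ContinuousLinearMap.toSpanSingleton K (Y j)) (pr 0) := by
        rw [map_zero]
        exact k1.hasStrictFDerivAt
      exact k5.comp 0 pr.hasStrictFDerivAt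
    refine ⟨fun t => c (pr t) * Φ t, _, k4.mul' h1, by simp [h2, k2], ?_, fun t => ?_⟩
    · have : Tendsto pr (𝓝 0) (𝓝 0) := by simpa using pr.continuous.tendsto 0
      filter_upwards [this.eventually k3, h3] with t ht ht' using S.mul_mem ht ht'
    · simp [h2, k2, h4, pr, add_comm]

/-- **Openness.** A submonoid in a level set whose tangent vectors contain the kernel of the
linearised equations is a neighbourhood of the identity in the level set. -/
theorem open_of_tan [FiniteDimensional K A] {F : Type*} [NormedAddCommGroup F] [NormedSpace K F]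
    {f : A → F} {L : A →L[K] F} (hf : HasStrictFDerivAt f L 1) {S : Submonoid A}
    (hS : ∀ s ∈ S, f s = f 1) (hker : ∀ X, L X = 0 → X ∈ Tan K S) :
    ∀ᶠ x in 𝓝 (1 : A), f x = f 1 → x ∈ S := by
  classical
  let b := Module.finBasis K (Tan K S)
  obtain ⟨Φ, Φ', h1, h2, h3, h4⟩ := exists_family (K := K) (S := S) (fun j => (b j : A))
    (fun j => (b j).2) Finset.univ.toList
  have h := open_of_range hf h1 h2 (fun X hX => ⟨fun j => b.repr ⟨X, hker X hX⟩ j, by
    rw [h4, Finset.sum_map_toList]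
    have := congrArg Subtype.val (b.sum_repr ⟨X, hker X hX⟩)
    rw [Submodule.coe_sum] at this
    exact this⟩) (h3.mono fun t ht => hS _ ht) h3
  filter_upwards [h] with x hx hfx
  obtain ⟨t, ht, rfl⟩ := hx hfx
  exact ht

/-- A subspace which contains the values of a differentiable curve on a set accumulating at zero
contains its derivative. -/
theorem deriv_mem [FiniteDimensional K A] (U : Submodule K A) {c : K → A} {Y : A}
    (hc : HasDerivAt c Y 0) (h0 : c 0 ∈ U) (h : ∃ᶠ t in 𝓝[≠] (0 : K), c t ∈ U) : Y ∈ U := by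
  have hcl : IsClosed (U : Set A) := U.closed_of_finiteDimensional
  have h1 := hasDerivAt_iff_tendsto_slope_zero.1 hc
  refine hcl.mem_of_frequently_of_tendsto (h.mono fun t ht => ?_) h1
  rw [zero_add]
  exact U.smul_mem _ (U.sub_mem ht h0)

variable [FiniteDimensional K A]

/-- The quadratic curve `1 + t Y + t² Z`. -/
def qc (Y Z : A) (t : K) : A := 1 + t • Y + (t * t) • Z

/-- The curve `N(t) N(-t)⁻¹`. -/
noncomputable def cv (Y Z : A) (t : K) : A := qc Y Z t * Ring.inverse (qc Y Z (-t))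

omit [CompleteSpace K] [FiniteDimensional K A] in
theorem qc_zero (Y Z : A) : qc Y Z (0 : K) = 1 := by simp [qc]

omit [CompleteSpace K] [FiniteDimensional K A] in
theorem qc_deriv (Y Z : A) : HasStrictDerivAt (qc (K := K) Y Z) Y 0 := by
  have h1 := (hasStrictDerivAt_id (0 : K)).smul_const Y
  have h2 := ((hasStrictDerivAt_id (0 : K)).mul (hasStrictDerivAt_id (0 : K))).smul_const Z
  have h3 := (h1.const_add 1).add h2
  simp only [id, one_smul, mul_zero, zero_mul, add_zero, zero_smul] at h3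
  exact h3

omit [CompleteSpace K] [FiniteDimensional K A] in
theorem qc_neg_deriv (Y Z : A) : HasStrictDerivAt (fun t : K => qc Y Z (-t)) (-Y) 0 := by
  have h := qc_deriv (K := K) (-Y) Z
  refine h.congr_of_eventuallyEq (Eventually.of_forall fun t => ?_)
  simp [qc]

theorem inverse_deriv {c : K → A} {Y : A} (hc : HasStrictDerivAt c Y 0) (h0 : c 0 = 1) :
    HasStrictDerivAt (fun t => Ring.inverse (c t)) (-Y) 0 := by
  have := FiniteDimensional.complete K A
  have h1 := hasStrictFDerivAt_ringInverse (𝕜 := K) (1 : Aˣ)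
  rw [Units.val_one, ← h0] at h1
  have h2 := h1.comp_hasStrictDerivAt 0 hc
  simp only [inv_one, Units.val_one, neg_apply,
    ContinuousLinearMap.mulLeftRight_apply, one_mul, mul_one] at h2
  exact h2

omit [CompleteSpace K] [FiniteDimensional K A] in
theorem cv_zero (Y Z : A) : cv Y Z (0 : K) = 1 := by simp [cv, qc]

theorem cv_deriv (Y Z : A) : HasStrictDerivAt (cv (K := K) Y Z) (Y + Y) 0 := by
  have h1 := (qc_deriv (K := K) Y Z).mul
    (inverse_deriv (qc_neg_deriv (K := K) Y Z) (by simp [qc]))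
  simp only [neg_zero, qc_zero, Ring.inverse_one, mul_one, neg_neg, one_mul] at h1
  exact h1

theorem unit_ev {c : K → A} (hc : ContinuousAt c 0) (h0 : c 0 = 1) :
    ∀ᶠ t in 𝓝 (0 : K), IsUnit (c t) := by
  have := FiniteDimensional.complete K A
  refine hc.eventually (Units.isOpen.mem_nhds ?_)
  rw [h0]
  exact isUnit_one

/-- A subspace invariant under conjugation by the values of a curve is invariant under the
bracket with its derivative. -/
theorem bracket_mem (U : Submodule K A) {c : K → A} {Y : A}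
    (hc : HasStrictDerivAt c Y 0) (h0 : c 0 = 1) {X : A} (hX : X ∈ U)
    (h : ∃ᶠ t in 𝓝[≠] (0 : K), c t * X * Ring.inverse (c t) ∈ U) : Y * X - X * Y ∈ U := by
  have h1 := (hc.mul_const X).mul (inverse_deriv hc h0)
  simp only [h0, Ring.inverse_one, mul_one, one_mul, mul_neg] at h1
  refine deriv_mem U (c := fun t => c t * X * Ring.inverse (c t)) ?_ (by simpa [h0] using hX) h
  rw [sub_eq_add_neg]
  exact h1.hasDerivAt

end algebra

end Vale.Agent.P011ND
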