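import Mathlib

/-!
Simplicity of the orthogonal Lie algebra in dimension eight.
-/

namespace Vale.Agent.P011ND

variable {E V : Type} [Field E] [AddCommGroup V] [Module E V] (β : V →ₗ[E] V →ₗ[E] E)

/-- The elementary skew maps. -/
def wd (x y : V) : Module.End E V := (β y).smulRight x - (β x).smulRight y

theorem wd_apply (x y v : V) : wd β x y v = β y v • x - β x v • y := rfl

/-- Skew maps. -/
def Sk (X : Module.End E V) : Prop := ∀ x y, β (X x) y + β x (X y) = 0

theorem wd_add (x y z : V) : wd β (x + y) z = wd β x z + wd β y z := by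
  ext v
  simp only [wd_apply, map_add, LinearMap.add_apply]
  module

theorem wd_smul (t : E) (x z : V) : wd β (t • x) z = t • wd β x z := by
  ext v
  simp only [wd_apply, map_smul, LinearMap.smul_apply, smul_eq_mul]
  module

theorem wd_neg (x y : V) : wd β x y = -wd β y x := by
  ext v
  simp only [wd_apply, LinearMap.neg_apply, neg_sub]

theorem wd_zero (x : V) : wd β 0 x = 0 := by
  ext v
  simp [wd_apply]

theorem wd_zero' (x : V) : wd β x 0 = 0 := by rw [wd_neg, wd_zero, neg_zero]

theorem wd_sub (x y z : V) : wd β (x - y) z = wd β x z - wd β y z := by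
  rw [eq_sub_iff_add_eq, ← wd_add, sub_add_cancel]

theorem wd_self (x : V) : wd β x x = 0 := sub_self _

variable {β}

theorem Sk.br {X : Module.End E V} (hX : Sk β X) (x y : V) :
    X * wd β x y - wd β x y * X = wd β (X x) y + wd β x (X y) := by
  ext v
  simp only [wd_apply, LinearMap.sub_apply, LinearMap.add_apply, Module.End.mul_apply, map_sub,
    map_smul, eq_neg_of_add_eq_zero_right (hX x v), eq_neg_of_add_eq_zero_right (hX y v)]
  module

theorem Sk.add {X Y : Module.End E V} (hX : Sk β X) (hY : Sk β Y) : Sk β (X + Y) := fun x y => by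
  simp only [LinearMap.add_apply, map_add]
  linear_combination hX x y + hY x y

theorem Sk.smul {X : Module.End E V} (hX : Sk β X) (t : E) : Sk β (t • X) := fun x y => by
  simp only [LinearMap.smul_apply, map_smul, smul_eq_mul]
  linear_combination t * hX x y

/-- A subspace closed under brackets. -/
def Br (N : Submodule E (Module.End E V)) : Prop := ∀ A ∈ N, ∀ B ∈ N, A * B - B * A ∈ N

/-- The normaliser of a subspace. -/
def nor (U : Submodule E (Module.End E V)) : Submodule E (Module.End E V) where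
  carrier := {Z | ∀ X ∈ U, Z * X - X * Z ∈ U}
  zero_mem' := fun X _ => by simp
  add_mem' := fun {A B} hA hB X hX => by
    have := add_mem (hA X hX) (hB X hX)
    convert this using 1
    noncomm_ring
  smul_mem' := fun t A hA X hX => by
    have := U.smul_mem t (hA X hX)
    rwa [smul_sub, ← smul_mul_assoc, ← mul_smul_comm] at this

theorem br_nor (U : Submodule E (Module.End E V)) : Br (nor U) := fun A hA B hB X hX => by
  have := sub_mem (hA _ (hB X hX)) (hB _ (hA X hX))
  convert this using 1
  noncomm_ring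

/-- The centraliser of a map. -/
def cen (g : Module.End E V) : Submodule E (Module.End E V) where
  carrier := {Z | g * Z = Z * g}
  zero_mem' := by simp
  add_mem' := fun {A B} hA hB => by
    change g * (A + B) = (A + B) * g
    rw [mul_add, add_mul, show g * A = _ from hA, show g * B = _ from hB]
  smul_mem' := fun t A hA => by
    change g * (t • A) = (t • A) * g
    rw [mul_smul_comm, smul_mul_assoc, show g * A = _ from hA]

theorem br_cen (g : Module.End E V) : Br (cen g) := fun A hA B hB => by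
  have h1 : g * A = A * g := hA
  have h2 : g * B = B * g := hB
  change g * (A * B - B * A) = (A * B - B * A) * g
  rw [mul_sub, sub_mul, ← mul_assoc, h1, mul_assoc, h2, ← mul_assoc g, h2, mul_assoc B, h1,
    mul_assoc, mul_assoc]

variable (β) in
/-- An orthogonal basis. -/
structure Ob (e : Fin 8 → V) : Prop where
  two : (2 : E) ≠ 0
  sy : ∀ x y, β x y = β y x
  ort : ∀ a b, a ≠ b → β (e a) (e b) = 0
  ne : ∀ a, β (e a) (e a) ≠ 0
  sp : ∀ v, ∃ c : Fin 8 → E, ∑ a, c a • e a = v

theorem sk_wd (sy : ∀ x y, β x y = β y x) (x y : V) : Sk β (wd β x y) := fun u v => by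
  simp only [wd_apply, map_sub, map_smul, LinearMap.sub_apply, LinearMap.smul_apply, smul_eq_mul,
    sy u]
  ring

namespace Ob

variable {e : Fin 8 → V} (h : Ob β e)

include h

theorem exp (v : V) : ∑ a, (β (e a) v / β (e a) (e a)) • e a = v := by
  obtain ⟨c, rfl⟩ := h.sp v
  refine Finset.sum_congr rfl fun a _ => ?_
  rw [map_sum, Finset.sum_eq_single a (fun b _ hb => by
    rw [map_smul, h.ort a b hb.symm, smul_zero]) (by simp), map_smul, smul_eq_mul,
    mul_div_assoc, div_self (h.ne a), mul_one]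

theorem ext' {M : Type} [AddCommGroup M] [Module E M] {f g : V →ₗ[E] M}
    (hf : ∀ a, f (e a) = g (e a)) : f = g := by
  ext v
  obtain ⟨c, rfl⟩ := h.sp v
  simp only [map_sum, map_smul, hf]

theorem all_wd {U : Submodule E (Module.End E V)} (hU : ∀ a b, wd β (e a) (e b) ∈ U) (x y : V) :
    wd β x y ∈ U := by
  have h1 : ∀ y, (∀ a, wd β (e a) y ∈ U) → ∀ x, wd β x y ∈ U := fun y hy x => by
    obtain ⟨c, rfl⟩ := h.sp x
    exact Finset.sum_induction _ (fun x => wd β x y ∈ U)
      (fun a b ha hb => by rw [wd_add]; exact add_mem ha hb) (by rw [wd_zero]; exact zero_mem _)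
      fun a _ => by rw [wd_smul]; exact U.smul_mem _ (hy a)
  refine h1 y (fun a => ?_) x
  rw [wd_neg]
  exact neg_mem (h1 _ (fun b => hU b a) y)

theorem sk_mem {U : Submodule E (Module.End E V)} (hU : ∀ x y, wd β x y ∈ U)
    {X : Module.End E V} (hX : Sk β X) : X ∈ U := by
  have h1 : (2 : E) • X = ∑ a, (β (e a) (e a))⁻¹ • wd β (X (e a)) (e a) := by
    ext v
    rw [LinearMap.smul_apply, two_smul, LinearMap.sum_apply]
    conv_lhs =>
      congr
      · rw [← h.exp v, map_sum]
      · rw [← h.exp (X v)]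
    rw [← Finset.sum_add_distrib]
    refine Finset.sum_congr rfl fun a _ => ?_
    rw [LinearMap.smul_apply, wd_apply, eq_neg_of_add_eq_zero_left (hX (e a) v), map_smul]
    simp only [div_eq_inv_mul]
    module
  have h2 := U.smul_mem (2 : E)⁻¹ (h1 ▸ U.sum_mem fun a _ => U.smul_mem _ (hU _ _))
  rwa [smul_smul, inv_mul_cancel₀ h.two, one_smul] at h2

theorem scalar {g : Module.End E V} (hg : ∀ x y, g * wd β x y = wd β x y * g) :
    ∃ t : E, ∀ v, g v = t • v := by
  have h1 : ∀ a b, a ≠ b → β (e b) (e b) • g (e a) =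
      β (e b) (g (e b)) • e a - β (e a) (g (e b)) • e b := fun a b hab => by
    have := LinearMap.congr_fun (hg (e a) (e b)) (e b)
    simpa only [Module.End.mul_apply, wd_apply, h.ort a b hab, zero_smul, sub_zero, map_smul]
      using this
  have h0 : ∀ a b : Fin 8, ∃ c, c ≠ a ∧ c ≠ b := by decide
  have h2 : ∀ a b, a ≠ b → β (e b) (g (e a)) = 0 := fun a b hab => by
    obtain ⟨c, h3, h4⟩ := h0 a b
    have := congrArg (β (e b)) (h1 a c h3.symm)
    simpa only [map_sub, map_smul, h.ort b a hab.symm, h.ort b c h4.symm, mul_zero, sub_zero,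
      smul_eq_mul, mul_eq_zero, h.ne c, false_or] using this
  have h3 : ∀ a b, a ≠ b → g (e a) = (β (e b) (g (e b)) / β (e b) (e b)) • e a := fun a b hab => by
    have := congrArg ((β (e b) (e b))⁻¹ • ·) (h1 a b hab)
    simpa only [h2 b a hab.symm, zero_smul, sub_zero, smul_smul, inv_mul_cancel₀ (h.ne b),
      one_smul, div_eq_inv_mul] using this
  have h4 : ∀ a, e a ≠ 0 := fun a h0 => h.ne a (by rw [h0, map_zero])
  refine ⟨β (e 0) (g (e 0)) / β (e 0) (e 0), fun v => LinearMap.congr_fun
    (h.ext' (f := g) (g := (β (e 0) (g (e 0)) / β (e 0) (e 0)) • LinearMap.id) fun a => ?_) v⟩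
  rw [LinearMap.smul_apply, LinearMap.id_apply]
  rcases eq_or_ne a 0 with rfl | ha
  · exact (h3 0 1 (by decide)).trans (congrArg (· • e 0) (smul_left_injective E (h4 2)
      ((h3 2 1 (by decide)).symm.trans (h3 2 0 (by decide)))))
  · exact h3 a 0 ha

theorem sk_zero {X : Module.End E V} (hX : Sk β X) (hg : ∀ x y, X * wd β x y = wd β x y * X) :
    X = 0 := by
  obtain ⟨t, ht⟩ := h.scalar hg
  have h1 := hX (e 0) (e 0)
  rw [ht, map_smul, map_smul, LinearMap.smul_apply, smul_eq_mul, ← two_mul] at h1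
  have h2 : t = 0 := by simpa [h.two, h.ne 0] using h1
  ext v
  rw [ht, h2, zero_smul, LinearMap.zero_apply]

/-- **Simplicity.** -/
theorem simple {U : Submodule E (Module.End E V)} (hU : ∀ x y, wd β x y ∈ nor U)
    {X : Module.End E V} (hXU : X ∈ U) (hX : Sk β X) (h0 : X ≠ 0) {Z : Module.End E V}
    (hZ : Sk β Z) : Z ∈ U := by
  have hb : ∀ {Y}, Y ∈ U → Sk β Y → ∀ x y, wd β (Y x) y + wd β x (Y y) ∈ U := fun hY hs x y => by
    rw [← hs.br, ← neg_sub]
    exact neg_mem (hU x y _ hY)
  have hd : ∀ {t : E} {Y}, t ≠ 0 → t • Y ∈ U → Y ∈ U := fun {t Y} ht hY => by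
    have := U.smul_mem t⁻¹ hY
    rwa [smul_smul, inv_mul_cancel₀ ht, one_smul] at this
  obtain ⟨a, c, hac⟩ : ∃ a c, β (X (e a)) (e c) ≠ 0 := by
    by_contra hn
    push Not at hn
    refine h0 (h.ext' fun a => ?_)
    rw [← h.exp (X (e a))]
    simp only [h.sy _ (X _), hn, zero_div, zero_smul, Finset.sum_const_zero, LinearMap.zero_apply]
  have hne : a ≠ c := by
    rintro rfl
    have := hX (e a) (e a)
    rw [h.sy (e a), ← two_mul] at this
    exact mul_ne_zero h.two hac this
  obtain ⟨b, d, f, hh⟩ := (by decide : ∀ a c : Fin 8, ∃ b d f, a ≠ b ∧ a ≠ d ∧ a ≠ f ∧ c ≠ b ∧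
    c ≠ d ∧ c ≠ f ∧ b ≠ d ∧ b ≠ f ∧ d ≠ f) a c
  obtain ⟨ab, ad, af, cb, cd, cf, bd, bf, df⟩ := hh
  have sw := sk_wd h.sy
  have o := h.ort
  have s1 := (sw (X (e a)) (e b)).add (sw (e a) (X (e b)))
  have u1 := hb (hb hXU hX (e a) (e b)) s1 (e c) (e d)
  have u2 := hb u1 ((sw _ _).add (sw _ _)) (e b) (e f)
  have e2 : wd β (β (X (e a)) (e c) • e d - β (X (e a)) (e d) • e c) (e f) ∈ U := by
    refine hd (h.ne b) ?_
    convert u2 using 1
    simp only [LinearMap.add_apply, wd_apply, map_add, map_smul,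
      LinearMap.smul_apply, o a b ab, o a c hne, o a d ad, o a f af, o c b cb, o b c cb.symm,
      o c f cf, o b d bd, o d b bd.symm, o b f bf, o d f df, zero_smul, zero_sub,
      sub_zero, add_zero, sub_self, wd_zero', smul_eq_mul, mul_zero, map_neg,
      LinearMap.neg_apply, neg_zero, ← wd_smul]
    congr 1
    module
  have u3 := hb e2 (sw _ _) (e d) (e a)
  have e3 : wd β (e f) (e a) ∈ U := by
    refine hd (neg_ne_zero.2 (mul_ne_zero hac (h.ne d))) ?_
    convert u3 using 1
    simp only [wd_apply, map_sub, map_smul, LinearMap.sub_apply, LinearMap.smul_apply,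
      o f d df.symm, o f a af.symm, o d a ad.symm, o c a hne.symm, o c d cd, zero_smul,
      zero_sub, sub_zero, add_zero, wd_zero', smul_eq_mul, mul_zero, ← neg_smul, wd_smul]
  have st : ∀ p r, p ≠ r → wd β (e p) (e r) ∈ U → ∀ s, wd β (e p) (e s) ∈ U := by
    intro p r hpr hp s
    rcases eq_or_ne s p with rfl | h1
    · rw [wd_self]
      exact zero_mem _
    rcases eq_or_ne s r with rfl | h2
    · exact hp
    refine hd (h.ne r) ?_
    convert hb hp (sw _ _) (e r) (e s) using 1
    simp only [wd_apply, o p r hpr, o r s h2.symm, o p s h1.symm, zero_smul, sub_zero, wd_zero',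
      add_zero, wd_smul]
  refine h.sk_mem (h.all_wd fun p r => ?_) hZ
  rcases eq_or_ne p f with rfl | hp
  · exact st _ _ af.symm e3 r
  · refine st p f hp ?_ r
    rw [wd_neg]
    exact neg_mem (st _ _ af.symm e3 p)

end Ob

end Vale.Agent.P011ND
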